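import Vale.Agent.P095M.Work2
import Vale.Agent.P095G.PartFIN
import Vale.Agent.P095G.PartLOW
import Vale.Agent.P095G.PartCIRC
import Vale.Agent.P095G.PartSUB

/-! Part GLUE: gluing finitely many elements along a tracial division of the unit. -/

namespace Vale.Agent.P095M

open Filter Topology Finset Vale.Agent.P101 Vale.Agent.P095 Vale.Agent.P095G TopologicalSpace

variable {B D E F : Type} [CStarAlgebra B] [CStarAlgebra D] [CStarAlgebra E] [CStarAlgebra F]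
  {G : Type} [Group G] {ρ : D →ₗ[ℂ] ℂ} {τ : E →ₗ[ℂ] ℂ}

namespace Glu

theorem lift (κ : E →⋆ₐ[ℂ] F) (hκ : Function.Injective κ) (ι : D →⋆ₐ[ℂ] F)
    (h : Set.range ι ⊆ Set.range κ) : ∃ φ : D →⋆ₐ[ℂ] E, ∀ d, κ (φ d) = ι d := by
  choose f hf using fun d => h (Set.mem_range_self d)
  exact ⟨{ toFun := f
           map_one' := hκ (by simp [hf])
           map_mul' := fun x y => hκ (by simp [hf])
           map_zero' := hκ (by simp [hf])
           map_add' := fun x y => hκ (by simp [hf])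
           commutes' := fun r => hκ (by rw [hf, AlgHomClass.commutes, AlgHomClass.commutes])
           map_star' := fun x => hκ (by simp [hf, map_star]) }, hf⟩

theorem one_le : ‖(1 : E)‖ ≤ 1 := by
  rcases subsingleton_or_nontrivial E with h | h
  · simp [Subsingleton.elim (1 : E) 0]
  · simp

theorem cont (φ : D →⋆ₐ[ℂ] E) : Continuous φ :=
  AddMonoidHomClass.continuous_of_bound φ 1 fun x => by
    rw [one_mul]; exact NonUnitalStarAlgHom.norm_apply_le φ x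

theorem pws (h : Tr ρ) {n : ℕ} (hn : 0 < n) {e : Fin n → D} (he : ∀ i, Ctr (e i))
    (ho : ∀ i j, i ≠ j → e i * e j = 0) {ε : ℝ} (h0 : 0 ≤ ε)
    (hε : ∀ i, 1 / (n : ℝ) - ε ≤ (ρ (e i)).re) (i : Fin n) :
    ‖ρ (e i * e i) - 1 / n‖ ≤ 4 * (n * ε) ∧
      ‖ρ (e i * e i * (e i * e i)) - 1 / n‖ ≤ 4 * (n * ε) := by
  letI := CStarAlgebra.spectralOrder D
  haveI := CStarAlgebra.spectralOrderedRing D
  have a1 := FIN.near hn he ho h h0 hε i
  have a2 := LOW.defect h hn he ho hε i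
  have p : 0 ≤ e i * (1 - e i) :=
    Commute.mul_nonneg (AVG.ctr_iff.1 (he i)).1 (sub_nonneg.2 (AVG.ctr_iff.1 (he i)).2)
      ((Commute.one_right _).sub_right (Commute.refl _))
  have p0 := (h.nonneg p).1
  have ne := FIN.ctr_norm (he i)
  have b1 := h.mul_le 1 p
  have b2 := h.mul_le (e i + e i * e i) p
  have c2 : ‖e i + e i * e i‖ ≤ 2 := by
    have := norm_add_le (e i) (e i * e i)
    have := norm_mul_le (e i) (e i)
    nlinarith [norm_nonneg (e i)]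
  have b1' : ‖ρ (1 * (e i * (1 - e i)))‖ ≤ n * ε := by nlinarith [one_le (E := D)]
  have b2' : ‖ρ ((e i + e i * e i) * (e i * (1 - e i)))‖ ≤ 2 * (n * ε) := by nlinarith
  have e1 : ρ (e i * e i) - 1 / n = (ρ (e i) - 1 / n) - ρ (1 * (e i * (1 - e i))) := by
    rw [one_mul, mul_sub, mul_one, map_sub]
    ring
  have e2 : ρ (e i * e i * (e i * e i)) - 1 / n =
      (ρ (e i * e i) - 1 / n) - ρ ((e i + e i * e i) * (e i * (1 - e i))) := by
    rw [show (e i + e i * e i) * (e i * (1 - e i)) = e i * e i - e i * e i * (e i * e i) by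
      noncomm_ring, map_sub]
    ring
  have d1 : ‖ρ (e i * e i) - 1 / n‖ ≤ 2 * (n * ε) := by
    rw [e1]
    exact (norm_sub_le _ _).trans (by linarith)
  have : 0 ≤ n * ε := by positivity
  refine ⟨by linarith, ?_⟩
  rw [e2]
  exact (norm_sub_le _ _).trans (by linarith)

theorem est (h : Tr τ) (a : B →⋆ₐ[ℂ] E) (b : D →⋆ₐ[ℂ] E) (hc : ∀ x y, Commute (a x) (b y))
    {I : Type} [Fintype I] {p : I → B} (hp : ∀ i, IsSelfAdjoint (p i))
    (ho : ∀ i j, i ≠ j → p i * p j = 0) {z : I → D} (hz : ∀ i, ‖z i‖ ≤ 2) {δ : ℝ} (hδ : 0 ≤ δ)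
    (hw : ∀ ρ : B →ₗ[ℂ] ℂ, Tr ρ → ∀ i, ‖ρ (p i * p i) - 1 / (Fintype.card I : ℕ)‖ ≤ δ) :
    |n2 τ (∑ i, a (p i) * b (z i)) -
      (∑ i, n2 (τ ∘ₗ b.toAlgHom.toLinearMap) (z i)) / Fintype.card I| ≤
        Fintype.card I * (26 * δ) := by
  classical
  have e1 : star (∑ i, a (p i) * b (z i)) * ∑ i, a (p i) * b (z i) =
      ∑ i, b (star (z i) * z i) * a (p i * p i) := by
    rw [star_sum, Finset.sum_mul_sum]
    refine Finset.sum_congr rfl fun i _ => ?_
    have k : ∀ j, star (a (p i) * b (z i)) * (a (p j) * b (z j)) =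
        b (star (z i) * z j) * a (p i * p j) := by
      intro j
      rw [star_mul, ← map_star, ← map_star, (hp i).star_eq, mul_assoc, ← mul_assoc (a (p i)),
        ← map_mul, (hc _ _).eq, ← mul_assoc, ← map_mul]
    simp only [k]
    exact Finset.sum_eq_single i (fun j _ hj => by rw [ho i j hj.symm, map_zero, mul_zero])
      (by simp)
  unfold n2
  rw [e1, map_sum, Complex.re_sum, Finset.sum_div, ← Finset.sum_sub_distrib]
  refine (Finset.abs_sum_le_sum_abs _ _).trans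
    ((Finset.sum_le_sum (g := fun _ => 26 * δ) fun i _ => ?_).trans (le_of_eq (by simp)))
  have w := FIN.weight' h a hδ (fun ρ hρ => hw ρ hρ i) (c := b (star (z i) * z i))
    (fun d => (hc d _).symm) (fun d => by rw [← map_star]; exact (hc d _).symm)
  have n1 : ‖b (star (z i) * z i)‖ ≤ 4 := by
    refine (NonUnitalStarAlgHom.norm_apply_le b _).trans ?_
    rw [CStarRing.norm_star_mul_self]
    nlinarith [hz i, norm_nonneg (z i)]
  have n3 : (‖b (star (z i) * z i)‖ + ‖(1 : E)‖) ^ 2 + 1 ≤ 26 := by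
    have := one_le (E := E)
    have := norm_nonneg (b (star (z i) * z i))
    have := norm_nonneg (1 : E)
    nlinarith
  have w2 := (Complex.abs_re_le_norm _).trans (w.trans (mul_le_mul_of_nonneg_right n3 hδ))
  refine le_trans (le_of_eq ?_) w2
  congr 1
  rw [Complex.sub_re, mul_one_div, Complex.div_natCast_re]
  rfl

theorem nrm (a : B →⋆ₐ[ℂ] E) (b : D →⋆ₐ[ℂ] E) (hc : ∀ x y, Commute (a x) (b y))
    {I : Type} [Fintype I] {p : I → B} (hp : ∀ i, Ctr (p i))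
    (ho : ∀ i j, i ≠ j → p i * p j = 0) {y : I → D} (hy : ∀ i, IsSelfAdjoint (y i) ∧ ‖y i‖ ≤ 1) :
    ‖∑ i, a (p i) * b (y i)‖ ≤ 1 := by
  have s : ∀ i, IsSelfAdjoint (a (p i) * b (y i)) := fun i =>
    (((hp i).1.map a).commute_iff ((hy i).1.map b)).1 (hc _ _)
  have := IsSelfAdjoint.nnnorm_sum_eq_sup (f := fun i => a (p i) * b (y i)) univ (fun j _ => s j)
    (fun i j hij => by
      change a (p i) * b (y i) * (a (p j) * b (y j)) = 0
      rw [(hc (p i) (y i)).eq, mul_assoc, ← mul_assoc (a (p i)), ← map_mul, ho i j hij, map_zero,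
        zero_mul, mul_zero])
  have h4 : ‖∑ i, a (p i) * b (y i)‖₊ ≤ 1 := by
    rw [this]
    refine Finset.sup_le fun j _ => ?_
    change ‖a (p j) * b (y j)‖ ≤ 1
    have h1 := (NonUnitalStarAlgHom.norm_apply_le a (p j)).trans (FIN.ctr_norm (hp j))
    have h2 := (NonUnitalStarAlgHom.norm_apply_le b (y j)).trans (hy j).2
    exact (norm_mul_le _ _).trans (mul_le_one₀ h1 (norm_nonneg _) h2)
  exact h4

theorem pos [PartialOrder E] [StarOrderedRing E] (a : B →⋆ₐ[ℂ] E) (b : D →⋆ₐ[ℂ] E)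
    (hc : ∀ x y, Commute (a x) (b y)) {I : Type} [Fintype I] {p : I → B} (hp : ∀ i, Ctr (p i))
    {y : I → D} (hy : ∀ i, ∃ w, y i = star w * w) : 0 ≤ ∑ i, a (p i) * b (y i) := by
  letI := CStarAlgebra.spectralOrder B
  haveI := CStarAlgebra.spectralOrderedRing B
  refine Finset.sum_nonneg fun i _ => Commute.mul_nonneg ?_ ?_ (hc _ _)
  · obtain ⟨w, hw⟩ := CStarAlgebra.nonneg_iff_eq_star_mul_self.1 (AVG.ctr_iff.1 (hp i)).1
    rw [hw, map_mul, map_star]
    exact star_mul_self_nonneg _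
  · obtain ⟨w, hw⟩ := hy i
    rw [hw, map_mul, map_star]
    exact star_mul_self_nonneg _

theorem est1 (h : Tr τ) (a : B →⋆ₐ[ℂ] E) (b : D →⋆ₐ[ℂ] E) (hc : ∀ x y, Commute (a x) (b y))
    {I : Type} [Fintype I] {p : I → B} {z : I → D} (hz : ∀ i, ‖z i‖ ≤ 1) {δ : ℝ} (hδ : 0 ≤ δ)
    (hw : ∀ ρ : B →ₗ[ℂ] ℂ, Tr ρ → ∀ i, ‖ρ (p i) - 1 / (Fintype.card I : ℕ)‖ ≤ δ) :
    |(τ (∑ i, a (p i) * b (z i))).re -
      (∑ i, ((τ ∘ₗ b.toAlgHom.toLinearMap) (z i)).re) / Fintype.card I| ≤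
        Fintype.card I * (5 * δ) := by
  rw [map_sum, Complex.re_sum, Finset.sum_div, ← Finset.sum_sub_distrib]
  refine (Finset.abs_sum_le_sum_abs _ _).trans
    ((Finset.sum_le_sum (g := fun _ => 5 * δ) fun i _ => ?_).trans (le_of_eq (by simp)))
  have w := FIN.weight' h a hδ (fun ρ hρ => hw ρ hρ i) (c := b (z i))
    (fun d => (hc d _).symm) (fun d => by rw [← map_star]; exact (hc d _).symm)
  have n1 : ‖b (z i)‖ ≤ 1 := (NonUnitalStarAlgHom.norm_apply_le b _).trans (hz i)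
  have n3 : (‖b (z i)‖ + ‖(1 : E)‖) ^ 2 + 1 ≤ 5 := by
    have := one_le (E := E)
    have := norm_nonneg (b (z i))
    have := norm_nonneg (1 : E)
    nlinarith
  have w2 := (Complex.abs_re_le_norm _).trans (w.trans (mul_le_mul_of_nonneg_right n3 hδ))
  refine le_trans (le_of_eq ?_) w2
  congr 1
  rw [Complex.sub_re, mul_one_div, Complex.div_natCast_re, (hc _ _).eq]
  rfl

theorem qsum (h : Tr τ) {I : Type} [Fintype I] (x : I → E) {v : ℝ} (hv0 : 0 ≤ v)
    (hv : ∀ i, n2 τ (x i) ≤ v) : n2 τ (∑ i, x i) ≤ (Fintype.card I : ℝ) ^ 2 * v := by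
  have key : ∀ i k, (τ (star (x i) * x k)).re ≤ v := by
    intro i k
    have c := h.cs (x i) (x k)
    have c2 : ‖τ (star (x i) * x k)‖ ^ 2 ≤ v ^ 2 := by
      refine c.trans ?_
      rw [sq]
      exact mul_le_mul (hv i) (hv k) (h.pos (x k)).1 hv0
    exact (Complex.re_le_norm _).trans (abs_le_of_sq_le_sq' c2 hv0).2
  unfold n2
  rw [star_sum, Finset.sum_mul_sum, map_sum, Complex.re_sum]
  calc _ ≤ ∑ _i : I, (Fintype.card I : ℝ) * v := by
        refine Finset.sum_le_sum fun i _ => ?_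
        rw [map_sum, Complex.re_sum]
        refine (Finset.sum_le_sum fun k _ => key i k).trans (le_of_eq ?_)
        simp
    _ = _ := by simp [sq, mul_assoc]

end Glu

open Glu in
theorem glue [Countable G] {σ : G →* (F ≃⋆ₐ[ℂ] F)} (hσ : CpG σ) (hΓ : Gam σ ⊤) [SeparableSpace D]
    {β : G →* (D ≃⋆ₐ[ℂ] D)} {ι : D →⋆ₐ[ℂ] F} (hι : Eqv β σ ι) (I : Type) [Fintype I] [Nonempty I]
    (K : Finset G) {δ : ℝ} (hδ : 0 < δ) :
    ∃ (E : Type) (_ : CStarAlgebra E) (_ : SeparableSpace E) (γ : G →* (E ≃⋆ₐ[ℂ] E))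
      (κ : E →⋆ₐ[ℂ] F) (Φ : (I → D) →ₗ[ℝ] E), Eqv γ σ κ ∧
      (∀ p, (∀ i, Ctr (p i)) → Ctr (Φ p)) ∧ (∀ p x, (∀ i, Dom (p i) (x i)) → Dom (Φ p) (Φ x)) ∧
      ∀ τ : E →ₗ[ℂ] ℂ, Tr τ → ∃ ρ : D →ₗ[ℂ] ℂ, Tr ρ ∧ ∀ z : I → D,
        (∀ i, IsSelfAdjoint (z i) ∧ ‖z i‖ ≤ 1) →
          |(τ (Φ z)).re - (∑ i, (ρ (z i)).re) / Fintype.card I| ≤ δ ∧
          |(τ (Φ z ^ 2)).re - (∑ i, (ρ (z i ^ 2)).re) / Fintype.card I| ≤ δ ∧
          ∀ g ∈ K, (τ ((γ g (Φ z) - Φ z) ^ 2)).re ≤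
            2 * ((∑ i, n2 ρ (β g (z i) - z i)) / Fintype.card I) + δ := by
  classical
  have hn : 0 < Fintype.card I := Fintype.card_pos
  have hn' : (0 : ℝ) < Fintype.card I := by exact_mod_cast hn
  obtain ⟨ε, hε, hεδ⟩ : ∃ ε : ℝ, 0 < ε ∧ 210 * (Fintype.card I : ℝ) ^ 2 * ε = δ :=
    ⟨δ / (210 * (Fintype.card I : ℝ) ^ 2), by positivity, by field_simp⟩
  obtain ⟨B, _, _, β1, ι1, e, h1, h2, h3, h4⟩ :=
    hΓ (Fintype.card I) hn K (fun _ _ => Subgroup.mem_top _) ε hε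
  obtain ⟨D2, _, _, β2, ι2, k1, k2, k3⟩ := sub σ (T := Set.range ι ∪ Set.range ι1)
    ((isSeparable_range (cont ι)).union (isSeparable_range (cont ι1)))
  obtain ⟨φ, hφ⟩ := lift ι2 k2 ι (Set.subset_union_left.trans k3)
  obtain ⟨φ1, hφ1⟩ := lift ι2 k2 ι1 (Set.subset_union_right.trans k3)
  obtain ⟨E, _, _, γ, κ, θ, m1, m2, m3⟩ := hσ D2 β2 ι2 k1 2
  let a : B →⋆ₐ[ℂ] E := (θ 0).comp φ1
  let b : D →⋆ₐ[ℂ] E := (θ 1).comp φ
  have hc : ∀ x y, Commute (a x) (b y) := fun x y => m3 0 1 (by decide) _ _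
  have ea : ∀ g x, γ g (a x) = a (β1 g x) := fun g x => by
    have : φ1 (β1 g x) = β2 g (φ1 x) := k2 (by rw [hφ1, k1, hφ1, h1])
    change γ g (θ 0 (φ1 x)) = θ 0 (φ1 (β1 g x))
    rw [this, m2]
  have eb : ∀ g x, γ g (b x) = b (β g x) := fun g x => by
    have : φ (β g x) = β2 g (φ x) := k2 (by rw [hφ, k1, hφ, hι])
    change γ g (θ 1 (φ x)) = θ 1 (φ (β g x))
    rw [this, m2]
  let q := Fintype.equivFin I
  let p : I → B := fun i => e (q i)
  have p1 : ∀ i, Ctr (p i) := fun i => h2 _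
  have p2 : ∀ i j, i ≠ j → p i * p j = 0 := fun i j hij => h3 _ _ (q.injective.ne hij)
  have p3 : ∀ ρ : B →ₗ[ℂ] ℂ, Tr ρ → ∀ i, _ := fun ρ hρ i =>
    pws hρ hn h2 h3 hε.le (fun j => (h4 ρ hρ j).1) (q i)
  have d0 : (0 : ℝ) ≤ 4 * (Fintype.card I * ε) := by positivity
  have d1 : (Fintype.card I : ℝ) * (26 * (4 * (Fintype.card I * ε))) =
      104 * ((Fintype.card I : ℝ) ^ 2 * ε) := by ring
  have d2 : 0 ≤ (Fintype.card I : ℝ) ^ 2 * ε := by positivity
  have nm : ∀ (g : G) (x : D), ‖β g x‖ = ‖x‖ := fun g x => StarAlgEquiv.norm_map (β g) x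
  have bs : ∀ (r : ℝ) (x : D), b (r • x) = r • b x := fun r x => by
    rw [← Complex.coe_smul, map_smul, Complex.coe_smul]
  let Φ : (I → D) →ₗ[ℝ] E :=
    { toFun := fun z => ∑ i, a (p i) * b (z i)
      map_add' := fun z z' => by simp only [Pi.add_apply, map_add, mul_add, Finset.sum_add_distrib]
      map_smul' := fun r z => by
        simp only [Pi.smul_apply, bs, mul_smul_comm, RingHom.id_apply, Finset.smul_sum] }
  have hΦ : ∀ z, Φ z = ∑ i, a (p i) * b (z i) := fun z => rfl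
  have sΦ : ∀ z : I → D, (∀ i, IsSelfAdjoint (z i)) → IsSelfAdjoint (Φ z) := fun z hz =>
    isSelfAdjoint_sum _ fun i _ => (((p1 i).1.map a).commute_iff ((hz i).map b)).1 (hc _ _)
  letI := CStarAlgebra.spectralOrder E
  haveI := CStarAlgebra.spectralOrderedRing E
  refine ⟨E, inferInstance, inferInstance, γ, κ, Φ, m1, fun z hz => ?_, fun z x hz => ?_,
    fun τ hτ => ⟨_, hτ.comp b, ?_⟩⟩
  · letI := CStarAlgebra.spectralOrder D
    haveI := CStarAlgebra.spectralOrderedRing D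
    have z0 : 0 ≤ Φ z := pos a b hc p1 fun i =>
      CStarAlgebra.nonneg_iff_eq_star_mul_self.1 (AVG.ctr_iff.1 (hz i)).1
    exact AVG.ctr_iff.2 ⟨z0, (CStarAlgebra.norm_le_one_iff_of_nonneg _ z0).1
      (nrm a b hc p1 p2 fun i => ⟨(hz i).1, FIN.ctr_norm (hz i)⟩)⟩
  · refine ⟨sΦ x fun i => (hz i).1, ?_, ?_⟩
    · rw [← map_sub]
      exact CStarAlgebra.nonneg_iff_eq_star_mul_self.1
        (pos a b hc p1 (y := z - x) fun i => (hz i).2.1)
    · rw [← map_add]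
      exact CStarAlgebra.nonneg_iff_eq_star_mul_self.1
        (pos a b hc p1 (y := z + x) fun i => (hz i).2.2)
  have E1 : ∀ z : I → D, (∀ i, ‖z i‖ ≤ 2) → n2 τ (∑ i, a (p i) * b (z i)) ≤
      (∑ i, n2 (τ ∘ₗ b.toAlgHom.toLinearMap) (z i)) / Fintype.card I +
        104 * ((Fintype.card I : ℝ) ^ 2 * ε) := fun z hz => by
    have := (abs_le.1 (est hτ a b hc (fun i => (p1 i).1) p2 hz d0
      (fun ρ hρ i => (p3 ρ hρ i).1))).2
    linarith
  have E2 : ∀ z : I → D, (∀ i, IsSelfAdjoint (z i) ∧ ‖z i‖ ≤ 1) → ∀ g ∈ K,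
      n2 τ (γ g (∑ i, a (p i) * b (z i)) - ∑ i, a (p i) * b (z i)) ≤
        2 * ((∑ i, n2 (τ ∘ₗ b.toAlgHom.toLinearMap) (β g (z i) - z i)) / Fintype.card I) + δ := by
    intro z hz g hg
    have e1 : γ g (∑ i, a (p i) * b (z i)) - ∑ i, a (p i) * b (z i) =
        ∑ i, a (p i) * b (β g (z i) - z i) + ∑ i, a (β1 g (p i) - p i) * b (β g (z i)) := by
      rw [map_sum, ← Finset.sum_sub_distrib, ← Finset.sum_add_distrib]
      refine Finset.sum_congr rfl fun i _ => ?_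
      rw [map_mul, ea, eb, map_sub, map_sub]
      noncomm_ring
    have t1 := E1 (fun i => β g (z i) - z i) (fun i => (norm_sub_le _ _).trans (by
      rw [nm]; linarith [(hz i).2]))
    have t2 := qsum hτ (fun i => a (β1 g (p i) - p i) * b (β g (z i))) hε.le (fun i => by
      have u1 := CI.Q_right hτ (a (β1 g (p i) - p i)) (b (β g (z i)))
      have u2 := (h4 _ (hτ.comp a) (q i)).2 g hg
      have u3 : CI.Q τ (a (β1 g (p i) - p i)) ≤ ε := by
        have s : IsSelfAdjoint (β1 g (p i) - p i) :=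
          ((p1 i).1.map (β1 g : B →⋆ₐ[ℂ] B)).sub (p1 i).1
        unfold CI.Q
        rw [← map_star, s.star_eq, ← map_mul, ← sq]
        exact u2
      have u4 : ‖b (β g (z i))‖ ≤ 1 :=
        (NonUnitalStarAlgHom.norm_apply_le b _).trans ((nm g _).trans_le (hz i).2)
      have u5 : ‖b (β g (z i))‖ ^ 2 ≤ 1 := pow_le_one₀ (norm_nonneg _) u4
      have u6 : 0 ≤ CI.Q τ (a (β1 g (p i) - p i)) := (hτ.pos _).1
      change CI.Q τ _ ≤ ε
      nlinarith)
    have t3 : n2 τ (∑ i, a (p i) * b (β g (z i) - z i) +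
        ∑ i, a (β1 g (p i) - p i) * b (β g (z i))) ≤
        2 * n2 τ (∑ i, a (p i) * b (β g (z i) - z i)) +
          2 * n2 τ (∑ i, a (β1 g (p i) - p i) * b (β g (z i))) := CI.Q_add hτ _ _
    rw [e1]
    linarith
  intro z hz
  have sz := sΦ z fun i => (hz i).1
  refine ⟨?_, ?_, fun g hg => ?_⟩
  · have := est1 hτ a b hc (p := p) (fun i => (hz i).2) (δ := Fintype.card I * ε) (by positivity)
      (fun ρ hρ i => FIN.near hn h2 h3 hρ hε.le (fun j => (h4 ρ hρ j).1) (q i))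
    refine this.trans ?_
    nlinarith
  · have := est hτ a b hc (fun i => (p1 i).1) p2 (z := z) (fun i => by linarith [(hz i).2]) d0
      (fun ρ hρ i => (p3 ρ hρ i).1)
    unfold n2 at this
    rw [← hΦ, sz.star_eq, ← sq] at this
    simp only [(hz _).1.star_eq, ← sq] at this
    refine this.trans ?_
    linarith
  · have := E2 z hz g hg
    rw [← hΦ] at this
    have s : IsSelfAdjoint (γ g (Φ z) - Φ z) := (sz.map (γ g : E →⋆ₐ[ℂ] E)).sub sz
    refine le_trans (le_of_eq ?_) this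
    unfold n2
    rw [s.star_eq, sq]

end Vale.Agent.P095M
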