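import Vale.Agent.P095M.Work2
import Vale.Agent.P095G.PartBASE
import Vale.Agent.P095G.PartAVG
import Vale.Agent.P095G.PartFIN

/-! Part START. -/

namespace Vale.Agent.P095M

open Filter Topology Finset Vale.Agent.P101 Vale.Agent.P095 Vale.Agent.P095G TopologicalSpace

variable {D F : Type} [CStarAlgebra D] [CStarAlgebra F] {G : Type} [Group G]

namespace STA

variable [PartialOrder D] [StarOrderedRing D]

lemma pos_of {e h : D} (he : IsSelfAdjoint e) (hh : 0 ≤ h) (c : Commute h e) (q : e * e = h * e) :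
    0 ≤ e := by
  obtain ⟨n, hn⟩ : ∃ n, n = cfc (fun t : ℝ => max (-t) 0) e := ⟨_, rfl⟩
  have n0 : 0 ≤ n := hn ▸ cfc_nonneg fun t _ => le_max_right _ _
  have c1 : Commute n h := hn ▸ Commute.cfc_real c.symm _
  have e1 : n * e = -(n * n) := by
    conv_lhs => enter [2]; rw [← cfc_id' ℝ e]
    rw [hn, ← cfc_mul .., ← cfc_mul .., ← cfc_neg]
    refine cfc_congr fun t _ => ?_
    rcases le_total (-t) 0 with h | h
    · simp [max_eq_right h]
    · simp [max_eq_left h]
  have e2 : n * n * n = -(n * h * n) := by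
    have := congrArg (n * ·) q
    simp only [← mul_assoc] at this
    rw [e1, neg_mul, mul_assoc n n e, e1, c1.eq, mul_assoc h n e, e1] at this
    rw [c1.eq, mul_assoc, mul_assoc h, ← mul_neg h, ← this, mul_neg, neg_neg]
  have p1 := star_left_conjugate_nonneg n0 n
  have p2 := star_left_conjugate_nonneg hh n
  rw [n0.isSelfAdjoint.star_eq] at p1 p2
  have e3 : n * n * n = 0 := le_antisymm (e2 ▸ neg_nonpos.2 p2) p1
  have e4 : n * n = 0 := (CStarRing.star_mul_self_eq_zero_iff _).1 (by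
    rw [star_mul, n0.isSelfAdjoint.star_eq, ← mul_assoc, e3, zero_mul])
  have e5 : n = 0 := (CStarRing.star_mul_self_eq_zero_iff _).1 (by rw [n0.isSelfAdjoint.star_eq, e4])
  have e6 : -e ≤ n := by
    conv_lhs => rw [← cfc_id' ℝ e, ← cfc_neg]
    rw [hn]
    exact cfc_mono fun t _ => le_max_left _ _
  rwa [e5, neg_nonpos] at e6

variable {κ : Type} [Fintype κ] [DecidableEq κ] {M : κ → κ → D} {h : D}

lemma diag (H : OZ M h) (hh : 0 ≤ h) (i : κ) : 0 ≤ M i i :=
  pos_of (H.st i i) hh (H.comm i i) (by rw [H.mul, if_pos rfl])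

lemma sy (H : OZ M h) (hh : Ctr h) {i j : κ} (hij : i ≠ j) {c : ℂ} (hc : star c * c = 1) :
    Sy (M i i + M j j) (c • M i j + star c • M j i) := by
  obtain ⟨h0, h1⟩ := AVG.ctr_iff.1 hh
  have sa : ∀ c : ℂ, IsSelfAdjoint (c • M i j + star c • M j i) := fun c => by
    rw [IsSelfAdjoint, star_add, star_smul, star_smul, star_star, H.st, H.st, add_comm]
  have s0 : IsSelfAdjoint (M i i + M j j) := IsSelfAdjoint.add (H.st i i) (H.st j j)
  have dm : ∀ c : ℂ, star c * c = 1 → ∃ y, M i i + M j j + (c • M i j + star c • M j i) =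
      star y * y := fun c hc => by
    refine CStarAlgebra.nonneg_iff_eq_star_mul_self.1 (pos_of (h := h + h) (s0.add (sa c))
      (add_nonneg h0 h0) ?_ ?_)
    · have k := (((H.comm i i).add_right (H.comm j j)).add_right
        (((H.comm i j).smul_right c).add_right ((H.comm j i).smul_right (star c))))
      exact k.add_left k
    · simp only [mul_add, add_mul, smul_mul_assoc, mul_smul_comm, H.mul, if_true, if_neg hij,
        if_neg hij.symm, smul_zero, smul_smul, hc, mul_comm c, one_smul, smul_add]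
      abel
  refine ⟨AVG.ctr_iff.2 ⟨add_nonneg (diag H h0 i) (diag H h0 j), le_trans ?_ h1⟩,
    ⟨sa c, ?_, dm c hc⟩, ?_, ?_⟩
  · rw [← H.sum, ← sum_pair (f := fun k => M k k) hij]
    exact sum_le_sum_of_subset_of_nonneg (subset_univ _) fun k _ _ => diag H h0 k
  · obtain ⟨y, hy⟩ := dm (-c) (by rw [star_neg, neg_mul_neg, hc])
    exact ⟨y, by rw [← hy, star_neg, neg_smul, neg_smul, ← neg_add, sub_eq_add_neg]⟩
  · simp only [mul_add, add_mul, smul_mul_assoc, mul_smul_comm, H.mul, if_true, if_neg hij,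
      if_neg hij.symm, smul_zero, smul_smul, hc, mul_comm c, one_smul, smul_add]
    abel
  · simp only [Commute, SemiconjBy, mul_add, add_mul, smul_mul_assoc, mul_smul_comm, H.mul, if_true,
      if_neg hij, if_neg hij.symm, smul_zero, smul_add]
    abel

lemma tr (h0 : 0 ≤ h) {ρ : D →ₗ[ℂ] ℂ} (hρ : Tr ρ) {x : D} (c : x * star x ≤ h * h)
    (hx : ∀ f : ℝ → ℝ, ρ (cfc f h * (h * x)) = 0) : ρ x = 0 := by
  refine norm_le_zero_iff.1 (le_of_forall_pos_le_add fun δ hδ => ?_)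
  have s := h0.isSelfAdjoint
  have sp : ∀ t ∈ spectrum ℝ h, 0 < t + δ := fun t ht => by
    linarith [spectrum_nonneg_of_nonneg h0 ht]
  have c1 : ContinuousOn (fun t : ℝ => (t + δ)⁻¹) (spectrum ℝ h) :=
    ContinuousOn.inv₀ (by fun_prop) fun t ht => (sp t ht).ne'
  have c2 : ContinuousOn (fun t : ℝ => 1 - (t + δ)⁻¹ * t) (spectrum ℝ h) := by fun_prop
  obtain ⟨g, hg⟩ : ∃ g, g = cfc (fun t : ℝ => 1 - (t + δ)⁻¹ * t) h := ⟨_, rfl⟩
  have e1 : g = 1 - cfc (fun t : ℝ => (t + δ)⁻¹) h * h := by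
    rw [hg, cfc_sub _ _ h, cfc_mul _ _ h, cfc_const_one ℝ h, cfc_id' ℝ h]
  have e2 : ρ x = ρ (star 1 * (g * x)) := by
    rw [star_one, one_mul, e1, sub_mul, one_mul, map_sub, mul_assoc, hx, sub_zero]
  have gs : IsSelfAdjoint g := hg ▸ cfc_predicate _ _
  have e3 : g * h = cfc (fun t : ℝ => (1 - (t + δ)⁻¹ * t) * t) h := by
    rw [cfc_mul _ _ h, cfc_id' ℝ h, hg]
  have e4 : ‖g * h‖ ≤ δ := e3 ▸ norm_cfc_le hδ.le fun t ht => by
    have t0 := spectrum_nonneg_of_nonneg h0 ht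
    have e : (1 - (t + δ)⁻¹ * t) * t = δ * (t / (t + δ)) := by
      have := (sp t ht).ne'
      field_simp
      ring
    rw [e, Real.norm_of_nonneg (by positivity)]
    exact mul_le_of_le_one_right hδ.le ((div_le_one (sp t ht)).2 (by linarith))
  have k1 := hρ.cs 1 (g * x)
  have k2 := hρ.mono (star_right_conjugate_le_conjugate c g)
  have k3 : (ρ (g * (h * h) * star g)).re ≤ δ ^ 2 :=
    (Complex.re_le_norm _).trans ((hρ.norm_le _).trans (by
      have : g * (h * h) * star g = g * h * star (g * h) := by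
        rw [star_mul, s.star_eq]; simp only [mul_assoc]
      rw [this, CStarRing.norm_self_mul_star, sq]
      exact mul_self_le_mul_self (norm_nonneg _) e4))
  have e5 : g * (x * star x) * star g = g * x * star (g * x) := by
    rw [star_mul]; simp only [mul_assoc]
  rw [← e2, star_one, mul_one, hρ.one, Complex.one_re, one_mul, hρ.comm, ← e5] at k1
  rw [zero_add]
  exact (pow_le_pow_iff_left₀ (norm_nonneg _) hδ.le two_ne_zero).1 (k1.trans (k2.trans k3))

lemma off (H : OZ M h) (h0 : 0 ≤ h) {ρ : D →ₗ[ℂ] ℂ} (hρ : Tr ρ) {i j : κ} (hij : i ≠ j) :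
    ρ (M i j) = 0 ∧ ρ (M i i) = ρ (M j j) := by
  have c : ∀ (f : ℝ → ℝ) a b, Commute (cfc f h) (M a b) := fun f a b =>
    Commute.cfc_real (H.comm a b) f
  refine ⟨tr h0 hρ ?_ fun f => ?_, sub_eq_zero.1 ((map_sub ρ _ _).symm.trans (tr h0 hρ ?_ fun f => ?_))⟩
  · rw [H.st, H.mul, if_pos rfl]
    exact (BS.sq_le H i).2
  · have e : h * M i j = M i i * M i j := by rw [H.mul, if_pos rfl]
    rw [e, ← mul_assoc, hρ.comm, ← mul_assoc, ← (c f i j).eq, mul_assoc, H.mul, if_neg hij.symm,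
      mul_zero, map_zero]
  · have e : (M i i - M j j) * star (M i i - M j j) = h * M i i + h * M j j := by
      simp only [star_sub, H.st, mul_sub, sub_mul, H.mul, if_true, if_neg hij, if_neg hij.symm]
      abel
    rw [e, ← sum_pair (f := fun k => h * M k k) hij]
    conv_rhs => enter [2]; rw [← H.sum]
    rw [mul_sum]
    exact sum_le_sum_of_subset_of_nonneg (subset_univ _) fun k _ _ => (BS.sq_le H k).1
  · have e1 : h * M i i = M i j * M j i := by rw [H.mul, if_pos rfl]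
    have e2 : h * M j j = M j i * M i j := by rw [H.mul, if_pos rfl]
    rw [mul_sub, mul_sub, map_sub, e1, e2, ← mul_assoc, hρ.comm, ← mul_assoc, ← (c f j i).eq,
      mul_assoc, sub_self]

lemma all (H : OZ M h) (hh : Ctr h) {i j : κ} (hij : i ≠ j) : ∃ x : Bool → D, (∀ b, Tl (x b)) ∧
    (∀ b, Sy (M i i + M j j) (x b)) ∧
      Sy (M i i + M j j) ((3 / 5 : ℝ) • x true + (4 / 5 : ℝ) • x false) := by
  have h0 := (AVG.ctr_iff.1 hh).1
  have k : ∀ c : ℂ, star c * c = 1 → Tl (c • M i j + star c • M j i) := fun c hc => by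
    have s := sy H hh hij hc
    refine ⟨s.dom.1, ?_, fun ρ hρ => by
      rw [map_add, map_smul, map_smul, (off H h0 hρ hij).1, (off H h0 hρ hij.symm).1, smul_zero,
        smul_zero, add_zero]⟩
    have h1 := s.dom.1.norm_mul_self
    rw [s.sq, s.ctr.1.norm_mul_self] at h1
    have h2 := FIN.ctr_norm s.ctr
    nlinarith [norm_nonneg (c • M i j + star c • M j i), norm_nonneg (M i i + M j j)]
  have c1 : star (1 : ℂ) * 1 = 1 := by simp
  have c2 : star Complex.I * Complex.I = 1 := by simp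
  have c3 : star (((3 / 5 : ℝ) : ℂ) + ((4 / 5 : ℝ) : ℂ) * Complex.I) *
      (((3 / 5 : ℝ) : ℂ) + ((4 / 5 : ℝ) : ℂ) * Complex.I) = 1 := by
    simp only [star_add, star_mul, RCLike.star_def, Complex.conj_ofReal, Complex.conj_I]
    push_cast
    linear_combination (-16 / 25 : ℂ) * Complex.I_mul_I
  refine ⟨fun b => cond b ((1 : ℂ) • M i j + star (1 : ℂ) • M j i)
    (Complex.I • M i j + star Complex.I • M j i), ?_, ?_, ?_⟩
  · rintro (_ | _)
    exacts [k _ c2, k _ c1]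
  · rintro (_ | _)
    exacts [sy H hh hij c2, sy H hh hij c1]
  · have e : (3 / 5 : ℝ) • ((1 : ℂ) • M i j + star (1 : ℂ) • M j i) +
        (4 / 5 : ℝ) • (Complex.I • M i j + star Complex.I • M j i) =
        (((3 / 5 : ℝ) : ℂ) + ((4 / 5 : ℝ) : ℂ) * Complex.I) • M i j +
          star (((3 / 5 : ℝ) : ℂ) + ((4 / 5 : ℝ) : ℂ) * Complex.I) • M j i := by
      simp only [← Complex.coe_smul, star_add, star_mul, RCLike.star_def, Complex.conj_ofReal,
        Complex.conj_I, map_one]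
      module
    exact e ▸ sy H hh hij c3

end STA

theorem start [Countable G] (σ : G →* (F ≃⋆ₐ[ℂ] F)) (hF : Cp F) (h : IsEmpty (F →⋆ₐ[ℂ] ℂ)) :
    ∃ (D : Type) (_ : CStarAlgebra D) (_ : SeparableSpace D) (β : G →* (D ≃⋆ₐ[ℂ] D))
      (ι : D →⋆ₐ[ℂ] F) (H : Bool → D) (x : Bool → Bool → D), Eqv β σ ι ∧ (∀ o b, Tl (x o b)) ∧
        (∀ o b, Sy (H o) (x o b)) ∧
        (∀ o, Sy (H o) ((3 / 5 : ℝ) • x o true + (4 / 5 : ℝ) • x o false)) ∧
        ∀ ρ : D →ₗ[ℂ] ℂ, Tr ρ → 1 / 2 ≤ (ρ (H true)).re + (ρ (H false)).re := by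
  obtain ⟨y, k, b, d, c, hy, h1⟩ := nonscalar hF h
  obtain ⟨v, b, hb, hv⟩ := exists_v (κ := Fin 2) hF (P101.split hF hy h1)
  obtain ⟨M, h, L, t, H⟩ := good 0 hb hv
  obtain ⟨M, h, v, a1, a2, a3, a4⟩ := exists_rw hF H
  obtain ⟨α, β, z, b1, b2, b3, b4⟩ := rw_step a1 a2 a3 a4
  obtain ⟨D, _, _, γ, ι, c1, c2, c3⟩ := sub σ
    (T := (Set.range fun q : Fin 2 × Fin 2 => α q.1 q.2) ∪
      (Set.range fun q : Option (Fin 2) × Option (Fin 2) => β q.1 q.2) ∪ {z})
    (((Set.finite_range _).union (Set.finite_range _)).union (Set.finite_singleton _)).isSeparable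
  have d1 : ∀ a b, ∃ x, ι x = α a b := fun a b => c3 (Or.inl (Or.inl ⟨(a, b), rfl⟩))
  have d2 : ∀ a b, ∃ x, ι x = β a b := fun a b => c3 (Or.inl (Or.inr ⟨(a, b), rfl⟩))
  obtain ⟨z0, rfl⟩ : ∃ x, ι x = z := c3 (Or.inr rfl)
  choose α0 e1 using d1
  choose β0 e2 using d2
  let _ := CStarAlgebra.spectralOrder D
  have _ := CStarAlgebra.spectralOrderedRing D
  have H1 : OZ α0 (1 - z0) := OZ.comap c2 (by simpa only [e1, map_sub, map_one] using b1)
  have H2 : OZ β0 z0 := OZ.comap c2 (by simpa only [e2] using b2)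
  have z1 : Ctr z0 := Ctr.comap c2 b3
  obtain ⟨p0, p1⟩ := AVG.ctr_iff.1 z1
  have z2 : Ctr (1 - z0) := AVG.ctr_iff.2 ⟨sub_nonneg.2 p1, sub_le_self _ p0⟩
  obtain ⟨x1, f1, f2, f3⟩ := STA.all H1 z2 (i := 0) (j := 1) (by decide)
  obtain ⟨x2, g1, g2, g3⟩ := STA.all H2 z1 (i := some 0) (j := some 1) (by decide)
  refine ⟨D, _, ‹_›, γ, ι, fun o => cond o (α0 0 0 + α0 1 1)
    (β0 (some 0) (some 0) + β0 (some 1) (some 1)), fun o => cond o x1 x2, c1, ?_, ?_, ?_,
    fun ρ hρ => ?_⟩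
  · rintro (_ | _)
    exacts [g1, f1]
  · rintro (_ | _)
    exacts [g2, f2]
  · rintro (_ | _)
    exacts [g3, f3]
  · have k1 := congrArg (fun a => (ρ a).re) H1.sum
    have k2 := congrArg (fun a => (ρ a).re) H2.sum
    have k3 := (STA.off H2 p0 hρ (i := none) (j := some 0) (by decide)).2
    have k4 := (STA.off H2 p0 hρ (i := some 1) (j := some 0) (by decide)).2
    have k5 := hρ.mono p1
    simp only [Fin.sum_univ_two, Fintype.sum_option, map_add, map_sub, Complex.add_re,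
      Complex.sub_re, hρ.one, Complex.one_re, k3, k4, cond_true, cond_false] at k1 k2 k5 ⊢
    linarith

end Vale.Agent.P095M
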