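import Vale.Agent.P095M.PartMK
import Vale.Agent.P095M.PartGLUE
import Vale.Agent.P095M.PartSTART
import Vale.Agent.P095G.PartFOL

/-! Relative tracial matrix units for actions of amenable groups. -/

namespace Vale.Agent.P095M

open Filter Topology Finset Vale.Agent.P101 Vale.Agent.P095 Vale.Agent.P095G TopologicalSpace

variable {F : Type} [CStarAlgebra F] {G : Type} [Group G]

lemma sumI {Q S : Type} [Fintype Q] [Fintype S] {N : ℕ} (z : Bool → Q → S → ℕ → ℝ) :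
    ∑ i : Bool × Q × S × Fin N, z i.1 i.2.1 i.2.2.1 i.2.2.2 =
      ∑ o, ∑ q, ∑ s, ∑ u ∈ range N, z o q s u := by
  simp only [Fintype.sum_prod_type, sum_range]

lemma sum_bd {Q : Type} [Fintype Q] {z w : Bool → Q → ℝ} {a b c : ℝ} (hc : 0 ≤ c)
    (h : ∀ o q, z o q ≤ a + c * w o q) (hw : ∀ o, ∑ q, w o q ≤ b) :
    ∑ o, ∑ q, z o q ≤ 2 * (Fintype.card Q * a + c * b) := by
  have : ∀ o, ∑ q, z o q ≤ Fintype.card Q * a + c * b := fun o => by
    refine (sum_le_sum fun q _ => h o q).trans ?_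
    rw [sum_add_distrib, sum_const, card_univ, nsmul_eq_mul, ← mul_sum]
    exact add_le_add le_rfl (mul_le_mul_of_nonneg_left (hw o) hc)
  rw [Fintype.sum_bool]
  linarith [this true, this false]

lemma ctr_norm {E : Type} [CStarAlgebra E] {x : E} (hx : Ctr x) : IsSelfAdjoint x ∧ ‖x‖ ≤ 1 := by
  let _ := CStarAlgebra.spectralOrder E
  have _ := CStarAlgebra.spectralOrderedRing E
  have := AVG.ctr_iff.1 hx
  exact ⟨hx.1, (CStarAlgebra.norm_le_one_iff_of_nonneg x this.1).2 this.2⟩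

theorem relM [Countable G] {σ : G →* (F ≃⋆ₐ[ℂ] F)} (hσ : CpG σ) (hΓ : Gam σ ⊤) (hF : Cp F)
    (h : IsEmpty (F →⋆ₐ[ℂ] ℂ)) (hG : Vale.Agent.P184.IsAmenable G) : RelM σ := by
  classical
  intro K ε hε
  obtain ⟨e, e0, e1, e2⟩ : ∃ e : ℝ, 0 < e ∧ 9000 * e ≤ ε ∧ 9000 * e ≤ 1 :=
    ⟨min ε 1 / 9000, by positivity, by linarith [min_le_left ε 1], by linarith [min_le_right ε 1]⟩
  obtain ⟨D, _, _, β, ι, H, x, hι, hx, s1, s2, s3⟩ := start σ hF h
  obtain ⟨L, a, hL, hJ⟩ := folner hG K (e ^ 2) (by positivity)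
  have L0 : (0 : ℝ) < L := Nat.cast_pos.2 hL
  obtain ⟨N, hN'⟩ := exists_nat_gt (28 ^ 2 * L / e ^ 2)
  have N0 : (0 : ℝ) < N := lt_trans (by positivity) hN'
  have hN : 0 < N := by exact_mod_cast N0
  have hs : √N * (28 * √L) ≤ e * N := by
    refine (pow_le_pow_iff_left₀ (by positivity) (by positivity) two_ne_zero).1 ?_
    rw [mul_pow, mul_pow, mul_pow, Real.sq_sqrt N0.le, Real.sq_sqrt L0.le]
    rw [div_lt_iff₀ (by positivity)] at hN'
    nlinarith
  obtain ⟨C, hC, h5⟩ := c5 (G := G) hN e0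
  obtain ⟨M, m, f, t, hM, hm, f1, f2, f3, f4, f5⟩ :=
    mk_hash (G := G) (e / ((C + 1) * L ^ 2)) (by positivity)
  obtain ⟨E, _, _, γ, κ, θ, hκ, hθ, hcm⟩ := hσ D β ι hι m
  have M0 : (0 : ℝ) < M := Nat.cast_pos.2 hM
  have m0 : (0 : ℝ) < m := Nat.cast_pos.2 hm
  have : Nonempty (Bool × (Fin m × (Fin m → Bool)) × Fin M × Fin N) :=
    ⟨(true, (⟨0, hm⟩, fun _ => true), ⟨0, hM⟩, ⟨0, hN⟩)⟩
  obtain ⟨E', _, _, γ', κ', Φ, hκ', g1, g2, g3⟩ :=
    glue hσ hΓ hκ (Bool × (Fin m × (Fin m → Bool)) × Fin M × Fin N) K (δ := e / M) (by positivity)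
  obtain ⟨n, hn⟩ : ∃ n : ℝ, n = m * 2 ^ m := ⟨_, rfl⟩
  have n0 : 0 < n := by rw [hn]; positivity
  have cQ : (Fintype.card (Fin m × (Fin m → Bool)) : ℝ) = n := by simp [hn]
  have cI : (Fintype.card (Bool × (Fin m × (Fin m → Bool)) × Fin M × Fin N) : ℝ) =
      2 * (n * N) * M := by
    rw [Fintype.card_prod, Fintype.card_prod, Fintype.card_prod (Fin M), Nat.cast_mul, Nat.cast_mul,
      cQ]
    simp only [Fintype.card_bool, Fintype.card_fin]
    push_cast
    ring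
  have dv : ∀ {X c : ℝ}, X ≤ c * (2 * (n * N)) →
      X / Fintype.card (Bool × (Fin m × (Fin m → Bool)) × Fin M × Fin N) ≤ c / M := fun {X c} hX => by
    rw [cI, div_le_div_iff₀ (by positivity) M0]
    nlinarith
  let P := fun o => Pc f θ t β (x o)
  let T : D → (Fin m × (Fin m → Bool)) → G → E := fun w q k => θ q.1 (β k w)
  have cell : ∀ o q {w : D}, Sy (H o) w → Cell (P o q) (T (H o) q) (T w q) := fun o q w hw =>
    mk_cell f1 f2 f3 f4 hcm t β (hx o) q hw
  let p : (Fin L → G) → Bool → (Fin m × (Fin m → Bool)) → Fin M → ℕ → E := fun a o q s u =>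
    pw N u (fun l => P o q s (a l)) fun l => T (H o) q (a l)
  let y : (Bool → D) → (Fin L → G) → Bool → (Fin m × (Fin m → Bool)) → Fin M → ℕ → E :=
    fun w a o q s u =>
      yw N u (fun l => P o q s (a l)) (fun l => T (H o) q (a l)) fun l => T (w o) q (a l)
  have ep : ∀ g o q s u, γ g (p a o q s u) = p (fun l => g * a l) o q s u := fun g o q s u => by
    refine (map_pw (γ g : E →⋆ₐ[ℂ] E) N u ((cell o q (s1 o true)).cw s a a)).trans ?_
    simp only [P, T, p, pc_eqv f1 t hθ (hx o), th_eqv (hθ _)]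
  have ey : ∀ (w : Bool → D), (∀ o, Sy (H o) (w o)) → ∀ g o q s u,
      γ g (y w a o q s u) = y w (fun l => g * a l) o q s u := fun w hw g o q s u => by
    refine (map_yw (γ g : E →⋆ₐ[ℂ] E) hN u ((cell o q (hw o)).cw s a a)).trans ?_
    simp only [P, T, y, pc_eqv f1 t hθ (hx o), th_eqv (hθ _)]
  have bp : ∀ o q s u, Ctr (p a o q s u) := fun o q s u =>
    (yw_bd hN u ((cell o q (s1 o true)).cw s a a)).1
  have by' : ∀ (w : Bool → D), (∀ o, Sy (H o) (w o)) → ∀ o q s u,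
      Dom (p a o q s u) (y w a o q s u) ∧ ‖y w a o q s u‖ ≤ 1 := fun w hw o q s u =>
    (yw_bd hN u ((cell o q (hw o)).cw s a a)).2
  have sb : ∀ (ρ : E →ₗ[ℂ] ℂ), Tr ρ → ∀ o b (a a' : Fin L → G),
      ∑ q, C * ssp ρ (P o q) (T (x o b) q) a a' ≤ e * n := fun ρ hρ o b a a' => by
    rw [← mul_sum]
    refine (mul_le_mul_of_nonneg_left (f5 D E θ hcm β (x o) (hx o) ρ hρ b L a a') hC).trans ?_
    rw [← hn]
    have : C * (L ^ 2 * (e / ((C + 1) * L ^ 2)) * n) = C / (C + 1) * (e * n) := by field_simp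
    rw [this]
    exact mul_le_of_le_one_left (by positivity) (div_le_one_of_le₀ (by linarith) (by positivity))
  let I := Bool × (Fin m × (Fin m → Bool)) × Fin M × Fin N
  let pp : I → E := fun i => p a i.1 i.2.1 i.2.2.1 i.2.2.2
  let yy : (Bool → D) → I → E := fun w i => y w a i.1 i.2.1 i.2.2.1 i.2.2.2
  have low : ∀ τ : E' →ₗ[ℂ] ℂ, Tr τ → 1 / (16 * M) ≤ (τ (Φ pp)).re := fun τ hτ => by
    obtain ⟨ρ, hρ, k⟩ := g3 τ hτ
    have k1 := (abs_le.1 (k pp fun i => ctr_norm (bp _ _ _ _)).1).1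
    have k2 : ∑ i, (ρ (pp i)).re = _ := sumI fun o q s u => (ρ (p a o q s u)).re
    have k3 : ∀ q, N * (1 / 2) - 10 * (e * N) ≤
        ∑ o, ∑ s, ∑ u ∈ range N, (ρ (p a o q s u)).re := fun q => by
      have b1 := ((cell true q (s1 true true)).c4 hρ hL hN hs a).2
      have b2 := ((cell false q (s1 false true)).c4 hρ hL hN hs a).2
      have b3 := card_nsmul_le_sum univ
        (fun l => (ρ (T (H true) q (a l))).re + (ρ (T (H false) q (a l))).re) (1 / 2) fun l _ =>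
          s3 _ ((hρ.comp (θ q.1)).comp (β (a l) : D →⋆ₐ[ℂ] D))
      rw [card_univ, Fintype.card_fin, nsmul_eq_mul, sum_add_distrib] at b3
      have b4 := mul_le_mul_of_nonneg_left b3 (show (0 : ℝ) ≤ N * (L : ℝ)⁻¹ by positivity)
      rw [← mul_assoc, mul_assoc (N : ℝ), inv_mul_cancel₀ L0.ne', mul_one] at b4
      rw [Fintype.sum_bool]
      linarith
    have k4 := card_nsmul_le_sum univ _ _ fun q _ => k3 q
    rw [card_univ, nsmul_eq_mul, cQ, sum_comm, ← k2] at k4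
    have k5 := dv (X := -∑ i, (ρ (pp i)).re) (c := -(1 / 8)) (by
      nlinarith [mul_pos n0 N0])
    rw [neg_div, neg_div] at k5
    have k6 : e / M ≤ 1 / (16 * M) := by
      rw [div_le_div_iff₀ M0 (by positivity)]
      nlinarith
    have k7 : (1 / 8 : ℝ) / M = 2 * (1 / (16 * M)) := by field_simp; norm_num
    linarith
  have fin : ∀ τ : E' →ₗ[ℂ] ℂ, Tr τ → ∀ {X c : ℝ}, X ≤ c * (e / M) → c ≤ 560 →
      X ≤ ε * (τ (Φ pp)).re := fun τ hτ X c h1 h2 => by
    refine h1.trans ((mul_le_mul_of_nonneg_right h2 (by positivity)).trans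
      (le_trans ?_ (mul_le_mul_of_nonneg_left (low τ hτ) hε.le)))
    rw [← mul_div_assoc, mul_one_div, div_le_div_iff₀ M0 (by positivity)]
    nlinarith
  have inv2 : ∀ b, ∀ τ : E' →ₗ[ℂ] ℂ, Tr τ → ∀ g ∈ K,
      (τ ((γ' g (Φ (yy fun o => x o b)) - Φ (yy fun o => x o b)) ^ 2)).re ≤ 251 * (e / M) :=
    fun b τ hτ g hg => by
      obtain ⟨ρ, hρ, k⟩ := g3 τ hτ
      obtain ⟨J, φ, b1, b2, b3⟩ := hJ g hg
      have k1 := (k (yy fun o => x o b) fun i => ⟨(by' _ (fun o => s1 o b) _ _ _ _).1.1,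
        (by' _ (fun o => s1 o b) _ _ _ _).2⟩).2.2 g hg
      have k2 : ∑ i, n2 ρ (γ g (yy (fun o => x o b) i) - yy (fun o => x o b) i) = _ :=
        sumI fun o q s u => n2 ρ (γ g (y (fun o => x o b) a o q s u) - y (fun o => x o b) a o q s u)
      simp only [ey _ fun o => s1 o b] at k2
      have k3 := sum_bd N0.le (b := 3 * (e * n))
        (fun o q => (h5 E ρ hρ _ _ _ _ (cell o q (s1 o b)) L hL hs a).2 g J φ b1 b2 b3) fun o => by
          simp only [mul_add, sum_add_distrib]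
          linarith [sb ρ hρ o b a a, sb ρ hρ o b (fun l => g * a l) fun l => g * a l,
            sb ρ hρ o b a fun l => g * a l]
      have k4 := dv (c := 125 * e) ((k2.trans_le k3).trans_eq (by rw [cQ]; ring))
      rw [mul_div_assoc] at k4
      linarith
  have sq : ∀ (w : Bool → D) (hw : ∀ o, Sy (H o) (w o)),
      (∀ (ρ : E →ₗ[ℂ] ℂ), Tr ρ → ∀ o, ∑ q, C * ssp ρ (P o q) (T (w o) q) a a ≤ 4 * (e * n)) →
      Dom (Φ pp) (Φ (yy w)) ∧ ∀ τ : E' →ₗ[ℂ] ℂ, Tr τ →
        (τ (Φ pp - Φ (yy w) ^ 2)).re ≤ ε * (τ (Φ pp)).re := fun w hw hb =>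
    ⟨g2 _ _ fun i => (by' w hw _ _ _ _).1, fun τ hτ => by
      obtain ⟨ρ, hρ, k⟩ := g3 τ hτ
      have k0 := (abs_le.1 (k pp fun i => ctr_norm (bp _ _ _ _)).1).2
      have k1 := (abs_le.1 (k (yy w) fun i => ⟨(by' w hw _ _ _ _).1.1, (by' w hw _ _ _ _).2⟩).2.1).1
      have k2 : ∑ i, (ρ (pp i - yy w i ^ 2)).re = _ :=
        sumI fun o q s u => (ρ (p a o q s u - y w a o q s u ^ 2)).re
      have k3 := sum_bd N0.le
        (fun o q => (h5 E ρ hρ _ _ _ _ (cell o q (hw o)) L hL hs a).1) (hb ρ hρ)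
      have k4 := dv (c := 6 * e) ((k2.trans_le k3).trans_eq (by rw [cQ]; ring))
      simp only [map_sub, Complex.sub_re, sum_sub_distrib, sub_div] at k4
      rw [mul_div_assoc] at k4
      refine fin τ hτ (c := 8) ?_ (by norm_num)
      rw [map_sub, Complex.sub_re]
      linarith⟩
  have en : 0 ≤ e * n := by positivity
  refine ⟨1 / (16 * M), E', inferInstance, inferInstance, γ', κ', Φ pp, Φ (yy fun o => x o true),
    Φ (yy fun o => x o false), by positivity, hκ', g1 _ fun i => bp _ _ _ _,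
    fun τ hτ => ⟨low τ hτ, fun g hg => ?_⟩, ?_⟩
  · obtain ⟨ρ, hρ, k⟩ := g3 τ hτ
    obtain ⟨J, φ, b1, b2, b3⟩ := hJ g hg
    have k1 := (k pp fun i => ctr_norm (bp _ _ _ _)).2.2 g hg
    have k2 : ∑ i, n2 ρ (γ g (pp i) - pp i) = _ :=
      sumI fun o q s u => n2 ρ (γ g (p a o q s u) - p a o q s u)
    simp only [ep] at k2
    have k3 := sum_bd (w := fun _ _ => 0) (b := 0) le_rfl (fun o q =>
      ((cell o q (s1 o true)).c3 hρ hL hN e0 a g J φ b1 b2 b3).trans_eq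
        (by rw [mul_zero, add_zero])) fun o => by simp
    have k4 := dv (c := 4 * e) ((k2.trans_le k3).trans_eq (by rw [cQ]; ring))
    rw [mul_div_assoc] at k4
    exact fin τ hτ (c := 9) (by linarith) (by norm_num)
  · have q1 := fun b => sq (fun o => x o b) (fun o => s1 o b) fun ρ hρ o =>
      (sb ρ hρ o b a a).trans (by linarith)
    rintro _ (rfl | rfl | rfl)
    · exact ⟨(q1 true).1, fun τ hτ => ⟨(q1 true).2 τ hτ, fun g hg =>
        fin τ hτ (inv2 true τ hτ g hg) (by norm_num)⟩⟩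
    · exact ⟨(q1 false).1, fun τ hτ => ⟨(q1 false).2 τ hτ, fun g hg =>
        fin τ hτ (inv2 false τ hτ g hg) (by norm_num)⟩⟩
    · have eT : ∀ o q k, T ((3 / 5 : ℝ) • x o true + (4 / 5 : ℝ) • x o false) q k =
          (3 / 5 : ℝ) • T (x o true) q k + (4 / 5 : ℝ) • T (x o false) q k := fun o q k => by
        have := map_rsmul ((θ q.1).comp (β k : D →⋆ₐ[ℂ] D))
        exact (map_add ((θ q.1).comp (β k : D →⋆ₐ[ℂ] D)) _ _).trans (by rw [this, this]; rfl)
      have e3 : (3 / 5 : ℝ) • Φ (yy fun o => x o true) + (4 / 5 : ℝ) • Φ (yy fun o => x o false) =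
          Φ (yy fun o => (3 / 5 : ℝ) • x o true + (4 / 5 : ℝ) • x o false) := by
        rw [← map_smul, ← map_smul, ← map_add]
        congr 1
        funext i
        simp only [yy, y, eT, yw_comb, Pi.add_apply, Pi.smul_apply]
      have q2 := sq _ s2 fun ρ hρ o => by
        have : ∀ q, C * ssp ρ (P o q) (T ((3 / 5 : ℝ) • x o true + (4 / 5 : ℝ) • x o false) q) a a ≤
            2 * (C * ssp ρ (P o q) (T (x o true) q) a a) +
              2 * (C * ssp ρ (P o q) (T (x o false) q) a a) := fun q => by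
          have := mul_le_mul_of_nonneg_left (sum_le_sum fun s (_ : s ∈ univ) => sp_comb hρ
            ((cell o q (s1 o true)).cw s a a) ((cell o q (s1 o false)).cw s a a)) hC
          simp only [sum_add_distrib, ← mul_sum] at this
          simp only [ssp, eT]
          linarith
        refine (sum_le_sum fun q _ => this q).trans ?_
        rw [sum_add_distrib, ← mul_sum _ _ (2 : ℝ), ← mul_sum _ _ (2 : ℝ)]
        linarith [sb ρ hρ o true a a, sb ρ hρ o false a a]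
      refine ⟨e3 ▸ q2.1, fun τ hτ => ⟨e3 ▸ q2.2 τ hτ, fun g hg => ?_⟩⟩
      have i1 := inv2 true τ hτ g hg
      have i2 := inv2 false τ hτ g hg
      refine fin τ hτ (c := 502) ?_ (by norm_num)
      have a1 := (q1 true).1.1
      have a2 := (q1 false).1.1
      generalize Φ (yy fun o => x o true) = u at i1 a1 ⊢
      generalize Φ (yy fun o => x o false) = v at i2 a2 ⊢
      have e4 : γ' g ((3 / 5 : ℝ) • u + (4 / 5 : ℝ) • v) - ((3 / 5 : ℝ) • u + (4 / 5 : ℝ) • v) =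
          (3 / 5 : ℝ) • (γ' g u - u) + (4 / 5 : ℝ) • (γ' g v - v) := by
        have := map_rsmul (γ' g : E' →⋆ₐ[ℂ] E')
        rw [map_add, show γ' g ((3 / 5 : ℝ) • u) = (3 / 5 : ℝ) • γ' g u from this _ _,
          show γ' g ((4 / 5 : ℝ) • v) = (4 / 5 : ℝ) • γ' g v from this _ _, smul_sub, smul_sub]
        abel
      have i3 := sq_add hτ
        (IsSelfAdjoint.smul (IsSelfAdjoint.all (3 / 5 : ℝ)) ((a1.map (γ' g)).sub a1))
        (IsSelfAdjoint.smul (IsSelfAdjoint.all (4 / 5 : ℝ)) ((a2.map (γ' g)).sub a2))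
      rw [smul_pow, smul_pow, AVG.re_smul, AVG.re_smul] at i3
      rw [e4]
      linarith

end Vale.Agent.P095M
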