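import Vale.Agent.P095M.Work2
import Vale.Agent.P095G.PartAVG

/-! Part BD: bounds for the averages. -/

namespace Vale.Agent.P095M

open Filter Topology Finset Vale.Agent.P101 Vale.Agent.P095 Vale.Agent.P095G TopologicalSpace

variable {E : Type} [CStarAlgebra E] {τ : E →ₗ[ℂ] ℂ}

namespace BD

lemma rg_mem (N u : ℕ) (t : ℝ) : rg N u t ∈ Set.Icc (0 : ℝ) 1 :=
  ⟨le_max_left _ _, max_le zero_le_one (min_le_left _ _)⟩

lemma rg_cont (N u : ℕ) : Continuous (rg N u) := by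
  unfold rg
  fun_prop

lemma rG_cont {N : ℕ} (hN : 0 < N) (u : ℕ) : Continuous (rG N u) := by
  have : (0 : ℝ) < 1 / N := by positivity
  exact Real.continuous_sqrt.comp ((rg_cont N u).div (by fun_prop) fun t =>
    (this.trans_le (le_max_right _ _)).ne')

lemma rG_sq {N : ℕ} (hN : 0 < N) (u : ℕ) (t : ℝ) :
    rG N u t * rG N u t = rg N u t / max t (1 / N) := by
  have : (0 : ℝ) < 1 / N := by positivity
  exact Real.mul_self_sqrt (div_nonneg (rg_mem N u t).1 (this.le.trans (le_max_right _ _)))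

lemma rG_le {N : ℕ} (hN : 0 < N) (u : ℕ) (t : ℝ) : rG N u t * rG N u t ≤ N := by
  have h0 : (0 : ℝ) < N := by exact_mod_cast hN
  have : (0 : ℝ) < 1 / N := by positivity
  rw [rG_sq hN, div_le_iff₀ (this.trans_le (le_max_right _ _))]
  have h1 : (N : ℝ) * (1 / N) ≤ N * max t (1 / N) := by gcongr; exact le_max_right _ _
  rw [mul_one_div_cancel h0.ne'] at h1
  exact (rg_mem N u t).2.trans h1

lemma rg_zero {N : ℕ} (hN : 0 < N) (u : ℕ) {t : ℝ} (h : t < 1 / N) : rg N u t = 0 := by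
  have h0 : (0 : ℝ) < N := by exact_mod_cast hN
  rw [lt_div_iff₀ h0] at h
  have : (0 : ℝ) ≤ u := Nat.cast_nonneg u
  exact max_eq_left ((min_le_right _ _).trans (by nlinarith))

lemma rG_mul {N : ℕ} (hN : 0 < N) (u : ℕ) (t : ℝ) : rG N u t * t * rG N u t = rg N u t := by
  have : (0 : ℝ) < 1 / N := by positivity
  rw [mul_right_comm, rG_sq hN]
  rcases lt_or_ge t (1 / N) with h | h
  · rw [rg_zero hN u h]
    simp
  · rw [max_eq_left h, div_mul_cancel₀ _ (this.trans_le h).ne']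

variable [PartialOrder E] [StarOrderedRing E]

lemma dom_iff {h x : E} : Dom h x ↔ IsSelfAdjoint x ∧ 0 ≤ h - x ∧ 0 ≤ h + x := by
  have k : ∀ z : E, (∃ y, z = star y * y) ↔ 0 ≤ z := fun z =>
    ⟨fun ⟨y, e⟩ => e ▸ star_mul_self_nonneg y, fun hz => ⟨rt z, by
      rw [(Rot.rt_nonneg z).isSelfAdjoint.star_eq, Rot.rt_mul hz]⟩⟩
  rw [Dom, k, k]

lemma dsq {h x : E} (hh : Ctr h) (hd : Dom h x) : x * x ≤ h + h ∧ ‖x‖ ≤ 1 := by
  obtain ⟨hx, h1, h2⟩ := dom_iff.1 hd
  obtain ⟨h0, h3⟩ := AVG.ctr_iff.1 hh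
  have h4 : 0 ≤ 1 - h := sub_nonneg.2 h3
  have k : ∀ {u v : E}, 0 ≤ u → 0 ≤ v → u + v = h + h → 0 ≤ u * (1 + 1 - u) := by
    intro u v hu hv e
    have : 1 + 1 - u = (1 - h) + (1 - h) + v := by rw [eq_sub_of_add_eq' e]; abel
    exact Commute.mul_nonneg hu (this ▸ add_nonneg (add_nonneg h4 h4) hv)
      (((Commute.one_right u).add_right (Commute.one_right u)).sub_right (Commute.refl u))
  have k1 := k h1 h2 (by abel)
  have k2 := k h2 h1 (by abel)
  have e : (h - x) * (1 + 1 - (h - x)) + (h + x) * (1 + 1 - (h + x)) =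
      (2 : ℝ) • (h + h - x * x - h * h) := by rw [two_smul]; noncomm_ring
  have k3 : 0 ≤ h + h - x * x - h * h := by
    have := smul_nonneg (by norm_num : (0 : ℝ) ≤ 2⁻¹) (e ▸ add_nonneg k1 k2)
    rwa [smul_smul, inv_mul_cancel₀ two_ne_zero, one_smul] at this
  refine ⟨sub_nonneg.1 ((Rot.sq0 h0).trans (sub_nonneg.1 k3)), ?_⟩
  have a1 : 0 ≤ 1 - x := by simpa using add_nonneg h4 h1
  have a2 : 0 ≤ 1 + x := by 
    have : 1 + x = 1 - h + (h + x) := by abel
    exact this ▸ add_nonneg h4 h2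
  have a3 := Commute.mul_nonneg a1 a2
    ((Commute.one_right _).add_right ((Commute.one_left x).sub_left (Commute.refl x)))
  have a4 : x * x ≤ 1 := sub_nonneg.1 (by
    have : (1 - x) * (1 + x) = 1 - x * x := by noncomm_ring
    exact this ▸ a3)
  have a5 := (CStarAlgebra.norm_le_one_iff_of_nonneg (x * x) hx.mul_self_nonneg).2 a4
  have a6 : ‖x * x‖ = ‖x‖ * ‖x‖ := by
    have := CStarRing.norm_star_mul_self (x := x)
    rwa [hx.star_eq] at this
  nlinarith [norm_nonneg x]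

lemma av_nonneg {L : ℕ} {x : Fin L → E} (h : ∀ k, 0 ≤ x k) : 0 ≤ av x :=
  smul_nonneg (by positivity) (sum_nonneg fun k _ => h k)

lemma aw_basic {L : ℕ} {P H A : Fin L → E} (h1 : Cw P H A) :
    Ctr (aw P H) ∧ Dom (aw P H) (aw P A) := by
  have p := fun k => AVG.ctr_iff.1 (h1.ctr k)
  have q := fun k => AVG.ctr_iff.1 (h1.sy k).ctr
  have d := fun k => dom_iff.1 (h1.sy k).dom
  refine ⟨AVG.ctr_iff.2 ⟨av_nonneg fun k => (h1.cH k k).mul_nonneg (p k).1 (q k).1, ?_⟩,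
    dom_iff.2 ⟨?_, ?_, ?_⟩⟩
  · have a : ∀ k, P k * H k ≤ 1 := fun k => by
      have := Commute.mul_nonneg (p k).1 (sub_nonneg.2 (q k).2)
        ((Commute.one_right _).sub_right (h1.cH k k))
      rw [mul_sub, mul_one, sub_nonneg] at this
      exact this.trans (p k).2
    have b : ∑ k, P k * H k ≤ (L : ℝ) • (1 : E) := by
      have := sum_le_sum fun k (_ : k ∈ univ) => a k
      rwa [sum_const, card_univ, Fintype.card_fin, ← Nat.cast_smul_eq_nsmul ℝ] at this
    refine (smul_le_smul_of_nonneg_left b (by positivity : (0 : ℝ) ≤ (L : ℝ)⁻¹)).trans ?_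
    rw [smul_smul]
    have c := smul_le_smul_of_nonneg_right (inv_mul_le_one (a := (L : ℝ))) (zero_le_one (α := E))
    rwa [one_smul] at c
  · exact IsSelfAdjoint.smul (IsSelfAdjoint.all _) (isSelfAdjoint_sum _ fun k _ =>
      ((h1.ctr k).1.commute_iff (d k).1).1 (h1.cA k k))
  · have := av_nonneg fun k => Commute.mul_nonneg (p k).1 (d k).2.1
      ((h1.cH k k).sub_right (h1.cA k k))
    simpa only [av, aw, mul_sub, sum_sub_distrib, smul_sub] using this
  · have := av_nonneg fun k => Commute.mul_nonneg (p k).1 (d k).2.2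
      ((h1.cH k k).add_right (h1.cA k k))
    simpa only [av, aw, mul_add, sum_add_distrib, smul_add] using this

omit [PartialOrder E] [StarOrderedRing E] in
lemma ghg {N : ℕ} (hN : 0 < N) (u : ℕ) {h : E} (hh : IsSelfAdjoint h) :
    cfc (rG N u) h * h * cfc (rG N u) h = cfc (rg N u) h := by
  have c := (rG_cont hN u).continuousOn (s := spectrum ℝ h)
  have e : cfc (fun t => rG N u t * t * rG N u t) h = cfc (rG N u) h * h * cfc (rG N u) h := by
    rw [cfc_mul (fun t => rG N u t * t) (rG N u) h (c.mul continuousOn_id) c,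
      cfc_mul (rG N u) (fun t => t) h c continuousOn_id, cfc_id' ℝ h hh]
  rw [← e]
  exact cfc_congr fun t _ => rG_mul hN u t

lemma yw_basic {L N : ℕ} (hN : 0 < N) (u : ℕ) {P H A : Fin L → E} (h1 : Cw P H A) :
    Ctr (pw N u P H) ∧ Dom (pw N u P H) (yw N u P H A) := by
  obtain ⟨a, b⟩ := aw_basic h1
  obtain ⟨b1, b2, b3⟩ := dom_iff.1 b
  have g : IsSelfAdjoint (cfc (rG N u) (aw P H)) := cfc_predicate _ _
  have e := ghg hN u a.1
  refine ⟨AVG.ctr_iff.2 ⟨cfc_nonneg fun t _ => (rg_mem N u t).1,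
    cfc_le_one _ _ fun t _ => (rg_mem N u t).2⟩, dom_iff.2 ⟨?_, ?_, ?_⟩⟩
  · have := b1.conjugate' (cfc (rG N u) (aw P H))
    rwa [g.star_eq] at this
  · have := star_left_conjugate_nonneg b2 (cfc (rG N u) (aw P H))
    rwa [g.star_eq, mul_sub, sub_mul, e] at this
  · have := star_left_conjugate_nonneg b3 (cfc (rG N u) (aw P H))
    rwa [g.star_eq, mul_add, add_mul, e] at this

end BD

theorem yw_bd {L N : ℕ} (hN : 0 < N) (u : ℕ) {P H A : Fin L → E} (h1 : Cw P H A) :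
    Ctr (pw N u P H) ∧ Dom (pw N u P H) (yw N u P H A) ∧ ‖yw N u P H A‖ ≤ 1 := by
  let _ := CStarAlgebra.spectralOrder E
  have _ := CStarAlgebra.spectralOrderedRing E
  obtain ⟨a, b⟩ := BD.yw_basic hN u h1
  exact ⟨a, b, (BD.dsq a b).2⟩

theorem aw_bd (h : Tr τ) {L N : ℕ} (hN : 0 < N) (u : ℕ) {P H A : Fin L → E} (h1 : Cw P H A) :
    Ctr (aw P H) ∧ IsSelfAdjoint (aw P A) ∧ ‖aw P A‖ ≤ 1 ∧
      n2 τ (aw P A) ≤ 2 * (τ (aw P H)).re ∧ Continuous (rG N u) ∧
      Continuous (rg N u) ∧ ‖cfc (rG N u) (aw P H)‖ ^ 2 ≤ N ∧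
      cfc (rG N u) (aw P H) * aw P H * cfc (rG N u) (aw P H) = pw N u P H ∧
      n2 τ ((1 - pw N u P H) * yw N u P H A) ≤ 2 * (τ (pw N u P H - pw N u P H ^ 2)).re := by
  let _ := CStarAlgebra.spectralOrder E
  have _ := CStarAlgebra.spectralOrderedRing E
  obtain ⟨a, b⟩ := BD.aw_basic h1
  obtain ⟨c, d⟩ := BD.yw_basic hN u h1
  refine ⟨a, b.1, (BD.dsq a b).2, ?_, BD.rG_cont hN u, BD.rg_cont N u, ?_, BD.ghg hN u a.1, ?_⟩
  · have := h.mono (BD.dsq a b).1
    rw [map_add, Complex.add_re] at this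
    rw [n2, b.1.star_eq]
    linarith
  · have : ‖cfc (rG N u) (aw P H)‖ ≤ √N := norm_cfc_le (Real.sqrt_nonneg _) fun t _ =>
      Real.abs_le_sqrt (by rw [sq]; exact BD.rG_le hN u t)
    exact (pow_le_pow_left₀ (norm_nonneg _) this 2).trans_eq (Real.sq_sqrt (Nat.cast_nonneg N))
  · generalize pw N u P H = p at c d ⊢
    generalize yw N u P H A = y at d ⊢
    obtain ⟨c0, c1⟩ := AVG.ctr_iff.1 c
    have s : IsSelfAdjoint (1 - p) := (IsSelfAdjoint.one E).sub c.1
    have k1 := h.mono (star_left_conjugate_le_conjugate (BD.dsq c d).1 (1 - p))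
    have k2 := (h.nonneg (star_left_conjugate_nonneg (sub_nonneg.2 c1) p)).1
    rw [s.star_eq] at k1
    rw [c.1.star_eq] at k2
    have e1 : τ (star ((1 - p) * y) * ((1 - p) * y)) = τ ((1 - p) * (y * y) * (1 - p)) := by
      rw [h.comm, star_mul, s.star_eq, d.1.star_eq]
      congr 1
      noncomm_ring
    have e2 : (1 - p) * (p + p) * (1 - p) =
        (p - p ^ 2) + (p - p ^ 2) - p * (1 - p) * p - p * (1 - p) * p := by noncomm_ring
    rw [e2, map_sub, map_sub, map_add] at k1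
    simp only [Complex.sub_re, Complex.add_re] at k1
    rw [n2, e1]
    linarith

end Vale.Agent.P095M
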