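import Vale.Agent.P095M.Work2
import Vale.Agent.P095G.PartAVG
import Vale.Agent.P095G.PartCIRC

/-! Part ID: identities and bounds for averages. -/

namespace Vale.Agent.P095M

open Finset Vale.Agent.P101 Vale.Agent.P095G

variable {E : Type} [CStarAlgebra E] {τ : E →ₗ[ℂ] ℂ}

namespace ID

lemma q_sum (h : Tr τ) {ι : Type} (s : Finset ι) (x : ι → E) :
    n2 τ (∑ i ∈ s, x i) ≤ s.card * ∑ i ∈ s, n2 τ (x i) := by
  have a : ∀ y z : E, (τ (star y * z)).re + (τ (star z * y)).re ≤ n2 τ y + n2 τ z := fun y z => by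
    have := (h.pos (y - z)).1
    simp only [star_sub, sub_mul, mul_sub, map_sub, Complex.sub_re] at this
    unfold n2
    linarith
  have e : n2 τ (∑ i ∈ s, x i) = ∑ i ∈ s, ∑ j ∈ s, (τ (star (x i) * x j)).re := by
    simp only [n2, star_sum, sum_mul_sum, map_sum, Complex.re_sum]
  have b := sum_le_sum fun i (_ : i ∈ s) => sum_le_sum fun j (_ : j ∈ s) => a (x i) (x j)
  simp only [sum_add_distrib, sum_const, nsmul_eq_mul] at b
  rw [sum_comm (f := fun i j => (τ (star (x j) * x i)).re), ← e, ← mul_sum] at b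
  linarith

lemma q_smul (c : ℝ) (x : E) : n2 τ (c • x) = c ^ 2 * n2 τ x := by
  rw [n2, star_smul, smul_mul_smul_comm, AVG.re_smul, star_trivial, sq, n2]

lemma sq_le [PartialOrder E] [StarOrderedRing E] {p : E} (hp : Ctr p) : p * p ≤ p := by
  obtain ⟨p0, p1⟩ := AVG.ctr_iff.1 hp
  have := star_left_conjugate_le_conjugate p1 (rt p)
  have e : Commute (rt p) p := Commute.cfc_real (Commute.refl p) _
  rwa [(Rot.rt_nonneg p).isSelfAdjoint.star_eq, mul_one, e.eq, mul_assoc, Rot.rt_mul p0] at this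

lemma one (h : Tr τ) {P Q d : E} (hP : Ctr P) (hQ : Ctr Q) (hd : IsSelfAdjoint d)
    (c1 : Commute P d) (c2 : Commute Q d) :
    n2 τ (P * Q * d) ≤ (τ (d ^ 2 * P * Q)).re ∧ 0 ≤ (τ (d ^ 2 * P * Q)).re := by
  let _ := CStarAlgebra.spectralOrder E
  have _ := CStarAlgebra.spectralOrderedRing E
  have p0 := (AVG.ctr_iff.1 hP).1
  have q0 := (AVG.ctr_iff.1 hQ).1
  have a0 : 0 ≤ d ^ 2 * P := by
    have := star_left_conjugate_nonneg p0 d
    rwa [hd.star_eq, mul_assoc, c1.eq, ← mul_assoc, ← sq] at this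
  refine ⟨?_, h.mul_nonneg' a0 q0⟩
  have a1 := h.mono (star_left_conjugate_le_conjugate (sq_le hP) (Q * d))
  have a2 := h.mul_nonneg' a0 (sub_nonneg.2 (sq_le hQ))
  have e1 : star (P * Q * d) * (P * Q * d) = star (Q * d) * (P * P) * (Q * d) := by
    simp only [star_mul, hP.1.star_eq, mul_assoc]
  have e2 : τ (star (Q * d) * P * (Q * d)) = τ (d ^ 2 * P * (Q * Q)) := by
    rw [← c2.symm.eq, star_mul, hQ.1.star_eq, hd.star_eq, mul_assoc, mul_assoc, h.comm Q]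
    congr 1
    rw [← mul_assoc P, c1.eq]
    simp only [sq, mul_assoc]
  rw [mul_sub, map_sub, Complex.sub_re] at a2
  rw [n2, e1]
  rw [e2] at a1
  linarith

lemma rg_mem (N u : ℕ) (t : ℝ) : rg N u t ∈ Set.Icc (0 : ℝ) 1 :=
  ⟨le_max_left _ _, max_le zero_le_one (min_le_left _ _)⟩

lemma rG_sq {N : ℕ} (hN : 0 < N) (u : ℕ) (t : ℝ) :
    rG N u t * t * rG N u t = rg N u t ∧ rG N u t ^ 2 ≤ N := by
  have N0 : (0 : ℝ) < N := Nat.cast_pos.2 hN
  have m0 : 0 < max t (1 / N : ℝ) := lt_max_of_lt_right (by positivity)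
  have e : rG N u t ^ 2 = rg N u t / max t (1 / N) :=
    Real.sq_sqrt (div_nonneg (rg_mem N u t).1 m0.le)
  constructor
  · rw [mul_right_comm, ← sq, e]
    rcases le_total (1 / N : ℝ) t with h | h
    · rw [max_eq_left h] at m0 ⊢
      field_simp
    · have : rg N u t = 0 := by
        rw [le_div_iff₀ N0] at h
        refine max_eq_left ((min_le_right _ _).trans ?_)
        have : (0 : ℝ) ≤ u := u.cast_nonneg
        linarith
      rw [this, zero_div, zero_mul]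
  · rw [e, div_le_iff₀ m0]
    refine (rg_mem N u t).2.trans ?_
    have := mul_le_mul_of_nonneg_left (le_max_right t (1 / N : ℝ)) N0.le
    rwa [mul_one_div_cancel N0.ne'] at this

lemma norm_le [PartialOrder E] [StarOrderedRing E] {x : E} (hx : IsSelfAdjoint x) (h1 : x ≤ 1)
    (h2 : -x ≤ 1) : ‖x‖ ≤ 1 := by
  rw [← cfc_id' ℝ x hx]
  refine norm_cfc_le zero_le_one fun t ht => abs_le.2 ⟨?_, ?_⟩
  · refine (algebraMap_le_iff_le_spectrum (R := ℝ) hx).1 ?_ t ht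
    rwa [map_neg, map_one, neg_le]
  · exact (CFC.le_one_iff (R := ℝ) _ hx).1 h1 t ht

lemma sq_two [PartialOrder E] [StarOrderedRing E] {x p : E} (hp : p ≤ 1)
    (h1 : 0 ≤ p - x) (h2 : 0 ≤ p + x) : star x * x ≤ p + p := by
  have e0 : p = (2⁻¹ : ℝ) • (p + x) + (2⁻¹ : ℝ) • (p - x) := by module
  have e1 : x = (2⁻¹ : ℝ) • (p + x) - (2⁻¹ : ℝ) • (p - x) := by module
  have a0 : 0 ≤ (2⁻¹ : ℝ) • (p + x) := smul_nonneg (by norm_num) h2
  have b0 : 0 ≤ (2⁻¹ : ℝ) • (p - x) := smul_nonneg (by norm_num) h1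
  generalize (2⁻¹ : ℝ) • (p + x) = a at e0 e1 a0
  generalize (2⁻¹ : ℝ) • (p - x) = b at e0 e1 b0
  subst e0 e1
  have a1 := sq_le (AVG.ctr_iff.2 ⟨a0, (le_add_of_nonneg_right b0).trans hp⟩)
  have b1 := sq_le (AVG.ctr_iff.2 ⟨b0, (le_add_of_nonneg_left a0).trans hp⟩)
  have c := star_mul_self_nonneg (a + b)
  rw [(add_nonneg a0 b0).isSelfAdjoint.star_eq] at c
  rw [(a0.isSelfAdjoint.sub b0.isSelfAdjoint).star_eq]
  have e : (a - b) * (a - b) + (a + b) * (a + b) = a * a + b * b + (a * a + b * b) := by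
    noncomm_ring
  exact (le_add_of_nonneg_right c).trans (e.le.trans
    (add_le_add (add_le_add a1 b1) (add_le_add a1 b1)))

lemma dbl (h : Tr τ) {L : ℕ} (z : Fin L → Fin L → E) (w : Fin L → Fin L → ℝ)
    (hw : ∀ k l, n2 τ (z k l) ≤ w k l) :
    n2 τ (((L : ℝ)⁻¹ * (L : ℝ)⁻¹) • ∑ k, ∑ l, z k l) ≤ ∑ k, ∑ l, w k l := by
  have s0 : 0 ≤ ∑ k, ∑ l, w k l :=
    sum_nonneg fun k _ => sum_nonneg fun l _ => (h.pos _).1.trans (hw k l)
  have b := q_sum h univ fun q : Fin L × Fin L => z q.1 q.2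
  have b2 : ∑ q : Fin L × Fin L, n2 τ (z q.1 q.2) ≤ ∑ k, ∑ l, w k l := by
    rw [Fintype.sum_prod_type]
    exact sum_le_sum fun k _ => sum_le_sum fun l _ => hw k l
  rw [card_univ, Fintype.card_prod, Fintype.card_fin, Nat.cast_mul, Fintype.sum_prod_type] at b
  rw [q_smul]
  refine (mul_le_mul_of_nonneg_left (b.trans (mul_le_mul_of_nonneg_left b2 (by positivity)))
    (sq_nonneg _)).trans ?_
  rw [← mul_assoc]
  refine mul_le_of_le_one_left s0 ?_
  rcases Nat.eq_zero_or_pos L with rfl | hL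
  · simp
  · have L1 : (1 : ℝ) ≤ L := Nat.one_le_cast.2 hL
    have : ((L : ℝ)⁻¹ * (L : ℝ)⁻¹) ^ 2 * (L * L) = (L : ℝ)⁻¹ * (L : ℝ)⁻¹ := by field_simp
    rw [this]
    exact mul_le_one₀ (inv_le_one_of_one_le₀ L1) (by positivity) (inv_le_one_of_one_le₀ L1)

lemma sy_pos [PartialOrder E] [StarOrderedRing E] {H A : E} (s : Sy H A) :
    0 ≤ H - A ∧ 0 ≤ H + A := by
  obtain ⟨-, ⟨y, e1⟩, y', e2⟩ := s.dom
  exact ⟨e1 ▸ star_mul_self_nonneg y, e2 ▸ star_mul_self_nonneg y'⟩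

lemma sy_norm {H A : E} (s : Sy H A) : ‖H‖ ≤ 1 ∧ ‖A‖ ≤ 1 := by
  let _ := CStarAlgebra.spectralOrder E
  have _ := CStarAlgebra.spectralOrderedRing E
  obtain ⟨a, b⟩ := sy_pos s
  obtain ⟨p0, p1⟩ := AVG.ctr_iff.1 s.ctr
  exact ⟨(CStarAlgebra.norm_le_one_iff_of_nonneg H p0).2 p1,
    norm_le s.dom.1 ((sub_nonneg.1 a).trans p1) ((neg_le_iff_add_nonneg.2 b).trans p1)⟩

lemma two (h : Tr τ) {P Q H A H' A' : E} (hP : Ctr P) (hQ : Ctr Q) (s : Sy H A) (s' : Sy H' A')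
    (c1 : Commute P H) (c2 : Commute P A) (c3 : Commute P H') (c4 : Commute P A')
    (d1 : Commute Q H) (d2 : Commute Q A) (d3 : Commute Q H') (d4 : Commute Q A')
    {x y : E} (hx : ‖x‖ ≤ 1) (hy : ‖y‖ ≤ 1) :
    n2 τ (P * Q * ((H - H') * x + (A - A') * y)) ≤ 4 * (τ ((A - A') ^ 2 * P * Q)).re := by
  let _ := CStarAlgebra.spectralOrder E
  have _ := CStarAlgebra.spectralOrderedRing E
  have p0 := (AVG.ctr_iff.1 hP).1
  have q0 := (AVG.ctr_iff.1 hQ).1
  have k : ∀ X Y : E, 0 ≤ X → 0 ≤ Y → Commute P X → Commute P Y → Commute Q Y →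
      0 ≤ (τ (X * Y * P * Q)).re := fun X Y x0 y0 a1 a2 a3 => by
    have := h.mul_nonneg' (a1.symm.mul_nonneg x0 p0) (a3.symm.mul_nonneg y0 q0)
    rwa [← mul_assoc, mul_assoc X P Y, a2.eq, ← mul_assoc] at this
  obtain ⟨a1, a2⟩ := sy_pos s
  obtain ⟨b1, b2⟩ := sy_pos s'
  have k1 := k _ _ a2 b1 (c1.add_right c2) (c3.sub_right c4) (d3.sub_right d4)
  have k2 := k _ _ a1 b2 (c1.sub_right c2) (c3.add_right c4) (d3.add_right d4)
  have k3 := k _ _ b1 a2 (c3.sub_right c4) (c1.add_right c2) (d1.add_right d2)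
  have k4 := k _ _ b2 a1 (c3.add_right c4) (c1.sub_right c2) (d1.sub_right d2)
  have e : (A - A') ^ 2 + (A - A') ^ 2 = (H - H') ^ 2 + (H - H') ^ 2 + ((H + A) * (H' - A') +
      (H - A) * (H' + A') + (H' - A') * (H + A) + (H' + A') * (H - A)) := by
    rw [← sub_eq_zero]
    trans (A * A - H * H) + (A * A - H * H) + ((A' * A' - H' * H') + (A' * A' - H' * H'))
    · noncomm_ring
    · simp only [s.sq, s'.sq, sub_self, add_zero]
  have e' := congrArg (fun z => (τ (z * P * Q)).re) e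
  simp only [add_mul (_ : E) _ P, add_mul (_ : E) _ Q, map_add, Complex.add_re] at e'
  obtain ⟨o1, o2⟩ := one h hP hQ (s.ctr.1.sub s'.ctr.1) (c1.sub_right c3) (d1.sub_right d3)
  obtain ⟨o3, o4⟩ := one h hP hQ (s.dom.1.sub s'.dom.1) (c2.sub_right c4) (d2.sub_right d4)
  have r : ∀ z w : E, ‖w‖ ≤ 1 → n2 τ (z * w) ≤ n2 τ z := fun z w hw =>
    (CI.Q_right h z w).trans (mul_le_of_le_one_left (h.pos z).1 (pow_le_one₀ (norm_nonneg _) hw))
  have t : n2 τ (P * Q * (H - H') * x + P * Q * (A - A') * y) ≤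
    2 * n2 τ (P * Q * (H - H') * x) + 2 * n2 τ (P * Q * (A - A') * y) := CI.Q_add h _ _
  have r1 := r (P * Q * (H - H')) x hx
  have r2 := r (P * Q * (A - A')) y hy
  rw [mul_add, ← mul_assoc, ← mul_assoc]
  linarith

lemma aw_mul {L : ℕ} (P P' A B : Fin L → E) (hc : ∀ k l, Commute (P' l) (A k)) :
    aw P A * aw P' B = ((L : ℝ)⁻¹ * (L : ℝ)⁻¹) • ∑ k, ∑ l, P k * P' l * (A k * B l) := by
  rw [aw, aw, av, av, smul_mul_smul_comm, sum_mul_sum]
  congr 1
  refine sum_congr rfl fun k _ => sum_congr rfl fun l _ => ?_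
  rw [mul_assoc, ← mul_assoc (A k), ← (hc k l).eq]
  simp only [mul_assoc]

end ID

theorem idn (h : Tr τ) {L : ℕ} {P P' H H' A A' : Fin L → E} (h1 : Cw P H A) (h2 : Cw P H' A')
    (h3 : Cw P' H A) (h4 : Cw P' H' A') :
    n2 τ (aw P H * aw P' A' - aw P A * aw P' H') ≤ 4 * sp τ P P' A A' ∧ 0 ≤ sp τ P P' A A' := by
  refine ⟨?_, sum_nonneg fun k _ => sum_nonneg fun l _ => (ID.one h (h1.ctr k) (h3.ctr l)
    ((h1.sy k).dom.1.sub (h2.sy l).dom.1) ((h1.cA k k).sub_right (h2.cA k l))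
    ((h3.cA l k).sub_right (h4.cA l l))).2⟩
  rw [ID.aw_mul P P' H A' fun k l => h3.cH l k, ID.aw_mul P P' A H' fun k l => h3.cA l k,
    ← smul_sub, ← sum_sub_distrib, sp, mul_sum]
  simp only [← sum_sub_distrib, mul_sum]
  refine ID.dbl h _ _ fun k l => ?_
  have e : P k * P' l * (H k * A' l) - P k * P' l * (A k * H' l) =
      P k * P' l * ((H k - H' l) * A' l + (A k - A' l) * (-H' l)) := by
    rw [← mul_sub]
    congr 1
    rw [← sub_eq_zero]
    trans H' l * A' l - A' l * H' l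
    · noncomm_ring
    · rw [(h2.sy l).cm.eq, sub_self]
  rw [e]
  exact ID.two h (h1.ctr k) (h3.ctr l) (h1.sy k) (h2.sy l) (h1.cH k k) (h1.cA k k) (h2.cH k l)
    (h2.cA k l) (h3.cH l k) (h3.cA l k) (h4.cH l l) (h4.cA l l) (ID.sy_norm (h2.sy l)).2
    (by rw [norm_neg]; exact (ID.sy_norm (h2.sy l)).1)

theorem idn2x (h : Tr τ) {L : ℕ} {P H A : Fin L → E} (h1 : Cw P H A) :
    n2 τ (aw P A * aw P A - aw P H * aw P H) ≤ 4 * sp τ P P A A := by
  rw [ID.aw_mul P P A A fun k l => h1.cA l k, ID.aw_mul P P H H fun k l => h1.cH l k,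
    ← smul_sub, ← sum_sub_distrib, sp, mul_sum]
  simp only [← sum_sub_distrib, mul_sum]
  refine ID.dbl h _ _ fun k l => ?_
  have e : P k * P l * (A k * A l) - P k * P l * (H k * H l) =
      P k * P l * ((H k - H l) * (-H l) + (A k - A l) * A l) := by
    rw [← mul_sub]
    congr 1
    rw [← sub_eq_zero]
    trans A l * A l - H l * H l
    · noncomm_ring
    · rw [(h1.sy l).sq, sub_self]
  rw [e]
  exact ID.two h (h1.ctr k) (h1.ctr l) (h1.sy k) (h1.sy l) (h1.cH k k) (h1.cA k k) (h1.cH k l)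
    (h1.cA k l) (h1.cH l k) (h1.cA l k) (h1.cH l l) (h1.cA l l)
    (by rw [norm_neg]; exact (ID.sy_norm (h1.sy l)).1) (ID.sy_norm (h1.sy l)).2

theorem sp_combx (h : Tr τ) {L : ℕ} {P H A B : Fin L → E} (h1 : Cw P H A) (h2 : Cw P H B) :
    sp τ P P (fun k => (3 / 5 : ℝ) • A k + (4 / 5 : ℝ) • B k)
      (fun k => (3 / 5 : ℝ) • A k + (4 / 5 : ℝ) • B k) ≤ 2 * sp τ P P A A + 2 * sp τ P P B B := by
  simp only [sp, mul_sum, ← sum_add_distrib]
  refine sum_le_sum fun k _ => sum_le_sum fun l _ => ?_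
  have s1 := (h1.sy k).dom.1.sub (h1.sy l).dom.1
  have s2 := (h2.sy k).dom.1.sub (h2.sy l).dom.1
  have c1 := fun i => (h1.cA i k).sub_right (h1.cA i l)
  have c2 := fun i => (h2.cA i k).sub_right (h2.cA i l)
  have e0 : (3 / 5 : ℝ) • A k + (4 / 5 : ℝ) • B k - ((3 / 5 : ℝ) • A l + (4 / 5 : ℝ) • B l) =
      (3 / 5 : ℝ) • (A k - A l) + (4 / 5 : ℝ) • (B k - B l) := by module
  rw [e0]
  generalize A k - A l = d at *
  generalize B k - B l = e at *
  have o1 := (ID.one h (h1.ctr k) (h1.ctr l) s1 (c1 k) (c1 l)).2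
  have o2 := (ID.one h (h1.ctr k) (h1.ctr l) s2 (c2 k) (c2 l)).2
  have o3 := (ID.one h (h1.ctr k) (h1.ctr l) (d := (3 / 5 : ℝ) • d - (4 / 5 : ℝ) • e)
    (((IsSelfAdjoint.all _).smul s1).sub ((IsSelfAdjoint.all _).smul s2))
    (((c1 k).smul_right _).sub_right ((c2 k).smul_right _))
    (((c1 l).smul_right _).sub_right ((c2 l).smul_right _))).2
  have e1 : ((3 / 5 : ℝ) • d + (4 / 5 : ℝ) • e) ^ 2 + ((3 / 5 : ℝ) • d - (4 / 5 : ℝ) • e) ^ 2 =
      (18 / 25 : ℝ) • d ^ 2 + (32 / 25 : ℝ) • e ^ 2 := by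
    simp only [sq, add_mul, mul_add, sub_mul, mul_sub, smul_mul_smul_comm]
    module
  have e' := congrArg (fun z => (τ (z * P k * P l)).re) e1
  simp only [add_mul (_ : E) _ (P k), add_mul (_ : E) _ (P l), map_add, Complex.add_re,
    smul_mul_assoc, AVG.re_smul] at e'
  linarith

theorem av_bd (h : Tr τ) {L N : ℕ} (hN : 0 < N) (u : ℕ) {P A : Fin L → E} (h1 : Loc P A) :
    Ctr (av P) ∧ IsSelfAdjoint (av fun k => P k * A k) ∧ ‖av fun k => P k * A k‖ ≤ 1 ∧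
      n2 τ (av fun k => P k * A k) ≤ 2 * (τ (av P)).re ∧ Continuous (rG N u) ∧
      Continuous (rg N u) ∧ ‖cfc (rG N u) (av P)‖ ^ 2 ≤ N ∧ Ctr (cfc (rg N u) (av P)) ∧
      cfc (rG N u) (av P) * av P * cfc (rG N u) (av P) = cfc (rg N u) (av P) ∧
      IsSelfAdjoint (yy N u P A) ∧ ‖yy N u P A‖ ≤ 1 ∧
      n2 τ (yy N u P A) ≤ 2 * (τ (cfc (rg N u) (av P))).re ∧
      n2 τ ((1 - cfc (rg N u) (av P)) * yy N u P A) ≤
        2 * (τ (cfc (rg N u) (av P) - cfc (rg N u) (av P) ^ 2)).re := by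
  let _ := CStarAlgebra.spectralOrder E
  have _ := CStarAlgebra.spectralOrderedRing E
  have N0 : (0 : ℝ) < N := Nat.cast_pos.2 hN
  have c0 : (0 : ℝ) ≤ (L : ℝ)⁻¹ := by positivity
  have bp := fun k => AVG.ctr_iff.1 (h1.ctr k)
  have hP : Ctr (av P) := by
    refine AVG.ctr_iff.2 ⟨smul_nonneg c0 (sum_nonneg fun i _ => (bp _).1), ?_⟩
    refine (smul_le_smul_of_nonneg_left (sum_le_sum fun i _ => (bp i).2) c0).trans ?_
    rw [sum_const, card_univ, Fintype.card_fin, ← Nat.cast_smul_eq_nsmul ℝ, smul_smul]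
    rcases Nat.eq_zero_or_pos L with rfl | hL
    · simp
    · rw [inv_mul_cancel₀ (Nat.cast_pos.2 hL).ne', one_smul]
  have pm : ∀ k (B : E), IsSelfAdjoint B → ‖B‖ ≤ 1 → Commute (P k) B → 0 ≤ P k - P k * B :=
    fun k B b1 b2 b3 => by
      have a1 : 0 ≤ 1 - B := sub_nonneg.2 ((IsSelfAdjoint.le_algebraMap_norm_self b1).trans (by
        rw [Algebra.algebraMap_eq_smul_one]
        exact (smul_le_smul_of_nonneg_right b2 zero_le_one).trans_eq (one_smul _ _)))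
      have := ((Commute.one_right (P k)).sub_right b3).mul_nonneg (bp k).1 a1
      rwa [mul_sub, mul_one] at this
  have m1 : 0 ≤ av P - av fun k => P k * A k := by
    rw [av, av, ← smul_sub, ← sum_sub_distrib]
    exact smul_nonneg c0 (sum_nonneg fun k _ => pm k _ (h1.sa k) (h1.nm k) (h1.cm k k))
  have m2 : 0 ≤ av P + av fun k => P k * A k := by
    rw [av, av, ← smul_add, ← sum_add_distrib]
    refine smul_nonneg c0 (sum_nonneg fun k _ => ?_)
    have := pm k _ (h1.sa k).neg (by rw [norm_neg]; exact h1.nm k) (h1.cm k k).neg_right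
    rwa [mul_neg, sub_neg_eq_add] at this
  have g1 : Continuous (rg N u) := by unfold rg; fun_prop
  have g2 : Continuous (rG N u) := Real.continuous_sqrt.comp (g1.div (by fun_prop)
    fun t => (lt_max_of_lt_right (by positivity)).ne')
  have hp : Ctr (cfc (rg N u) (av P)) := Ctr.cfc (ID.rg_mem N u)
  have eG : cfc (rG N u) (av P) * av P * cfc (rG N u) (av P) = cfc (rg N u) (av P) := by
    have : cfc (fun t => rG N u t * t * rG N u t) (av P) =
        cfc (rG N u) (av P) * av P * cfc (rG N u) (av P) := by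
      rw [cfc_mul _ _ (av P), cfc_mul _ _ (av P), cfc_id' ℝ (av P) hP.1]
    rw [← this]
    exact cfc_congr fun t _ => (ID.rG_sq hN u t).1
  have nG : ‖cfc (rG N u) (av P)‖ ≤ √N :=
    norm_cfc_le (Real.sqrt_nonneg _) fun t _ => Real.abs_le_sqrt (ID.rG_sq hN u t).2
  have sG : IsSelfAdjoint (cfc (rG N u) (av P)) := cfc_predicate _ _
  have gen : ∀ x p : E, p ≤ 1 → 0 ≤ p - x → 0 ≤ p + x → IsSelfAdjoint x ∧ ‖x‖ ≤ 1 ∧
      n2 τ x ≤ 2 * (τ p).re := fun x p a1 a2 a3 => by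
    have sx : IsSelfAdjoint x := by
      have : x = (2⁻¹ : ℝ) • ((p + x) - (p - x)) := by module
      rw [this]
      exact (IsSelfAdjoint.all _).smul (a3.isSelfAdjoint.sub a2.isSelfAdjoint)
    refine ⟨sx, ID.norm_le sx ((sub_nonneg.1 a2).trans a1)
      ((neg_le_iff_add_nonneg.2 a3).trans a1), ?_⟩
    have := h.mono (ID.sq_two a1 a2 a3)
    rw [map_add, Complex.add_re] at this
    unfold n2
    linarith
  have y1 : 0 ≤ cfc (rg N u) (av P) - yy N u P A := by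
    have := star_left_conjugate_nonneg m1 (cfc (rG N u) (av P))
    rwa [sG.star_eq, mul_sub, sub_mul, eG] at this
  have y2 : 0 ≤ cfc (rg N u) (av P) + yy N u P A := by
    have := star_left_conjugate_nonneg m2 (cfc (rG N u) (av P))
    rwa [sG.star_eq, mul_add, add_mul, eG] at this
  obtain ⟨a1, a2, a3⟩ := gen _ _ (AVG.ctr_iff.1 hP).2 m1 m2
  obtain ⟨p0, p1⟩ := AVG.ctr_iff.1 hp
  obtain ⟨b1, b2, b3⟩ := gen _ _ p1 y1 y2
  refine ⟨hP, a1, a2, a3, g2, g1, ?_, hp, eG, b1, b2, b3, ?_⟩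
  · exact (pow_le_pow_left₀ (norm_nonneg _) nG 2).trans_eq (Real.sq_sqrt N0.le)
  · have s2 := ID.sq_two p1 y1 y2
    have s3 := ID.sq_le hp
    generalize cfc (rg N u) (av P) = p at *
    generalize yy N u P A = y at *
    have q0 : 0 ≤ 1 - p := sub_nonneg.2 p1
    have t1 := h.mono (star_left_conjugate_le_conjugate s2 (1 - p))
    have t2 := h.mul_nonneg' p0 (sub_nonneg.2 s3)
    have e1 : τ (star ((1 - p) * y) * ((1 - p) * y)) = τ (star (1 - p) * (star y * y) * (1 - p)) := by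
      rw [h.comm, star_mul, b1.star_eq, q0.isSelfAdjoint.star_eq]
      simp only [mul_assoc]
    have e2 : star (1 - p) * (p + p) * (1 - p) =
        (p - p ^ 2) + (p - p ^ 2) - (p * (p - p * p) + p * (p - p * p)) := by
      rw [q0.isSelfAdjoint.star_eq]
      noncomm_ring
    rw [e2, map_sub, map_add, map_add, Complex.sub_re, Complex.add_re, Complex.add_re] at t1
    rw [n2, e1]
    linarith

end Vale.Agent.P095M
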