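import Vale.Agent.P095M.Work2
import Vale.Agent.P095M.PartID

/-! Part ID, second version: identities for weighted averages. -/

namespace Vale.Agent.P095M

open Finset Vale.Agent.P101 Vale.Agent.P095G

variable {E : Type} [CStarAlgebra E] {τ : E →ₗ[ℂ] ℂ}

namespace ID2

lemma dom_pos [PartialOrder E] [StarOrderedRing E] {H A : E} (h : Sy H A) :
    0 ≤ H - A ∧ 0 ≤ H + A := by
  obtain ⟨-, ⟨y, hy⟩, z, hz⟩ := h.dom
  rw [hy, hz]
  exact ⟨star_mul_self_nonneg _, star_mul_self_nonneg _⟩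

lemma sy_norm {H A : E} (h : Sy H A) : ‖A‖ ≤ 1 ∧ ‖H‖ ≤ 1 := by
  let _ := CStarAlgebra.spectralOrder E
  have _ := CStarAlgebra.spectralOrderedRing E
  obtain ⟨a, b⟩ := dom_pos h
  obtain ⟨c, d⟩ := AVG.ctr_iff.1 h.ctr
  exact ⟨ID.norm_le h.dom.1 ((sub_nonneg.1 a).trans d) ((neg_le_iff_add_nonneg.2 b).trans d),
    (CStarAlgebra.norm_le_one_iff_of_nonneg _ c).2 d⟩

lemma four [PartialOrder E] [StarOrderedRing E] (h : Tr τ) {P Q X Y : E} (hP : 0 ≤ P) (hQ : 0 ≤ Q)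
    (hX : 0 ≤ X) (hY : 0 ≤ Y) (c1 : Commute P X) (c2 : Commute P Y) (c3 : Commute Q Y) :
    0 ≤ (τ (X * Y * P * Q)).re := by
  have := h.mul_nonneg' (Commute.mul_nonneg hX hP c1.symm) (Commute.mul_nonneg hY hQ c3.symm)
  rwa [← mul_assoc, mul_assoc X P Y, c2.eq, ← mul_assoc] at this

lemma cmp (h : Tr τ) {P Q H H' A A' : E} (hP : Ctr P) (hQ : Ctr Q) (s : Sy H A) (s' : Sy H' A')
    (p1 : Commute P H) (p2 : Commute P A) (p3 : Commute P H') (p4 : Commute P A')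
    (q1 : Commute Q H) (q2 : Commute Q A) (q3 : Commute Q H') (q4 : Commute Q A') :
    (τ ((H - H') ^ 2 * P * Q)).re ≤ (τ ((A - A') ^ 2 * P * Q)).re := by
  let _ := CStarAlgebra.spectralOrder E
  have _ := CStarAlgebra.spectralOrderedRing E
  have p0 := (AVG.ctr_iff.1 hP).1
  have q0 := (AVG.ctr_iff.1 hQ).1
  obtain ⟨a, b⟩ := dom_pos s
  obtain ⟨a', b'⟩ := dom_pos s'
  have t1 := four h p0 q0 b a' (p1.add_right p2) (p3.sub_right p4) (q3.sub_right q4)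
  have t2 := four h p0 q0 a b' (p1.sub_right p2) (p3.add_right p4) (q3.add_right q4)
  have t3 := four h p0 q0 b' a (p3.add_right p4) (p1.sub_right p2) (q1.sub_right q2)
  have t4 := four h p0 q0 a' b (p3.sub_right p4) (p1.add_right p2) (q1.add_right q2)
  have e : (A - A') ^ 2 + (A - A') ^ 2 = (H - H') ^ 2 + (H - H') ^ 2 +
      ((H + A) * (H' - A') + (H - A) * (H' + A') + (H' + A') * (H - A) + (H' - A') * (H + A)) := by
    have e1 : (A - A') ^ 2 = A * A + A' * A' - A * A' - A' * A := by noncomm_ring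
    rw [e1, s.sq, s'.sq]
    noncomm_ring
  have e2 := congrArg (fun x => (τ (x * P * Q)).re) e
  simp only [add_mul (_ + _), add_mul (_ ^ 2), add_mul (_ * _), map_add, Complex.add_re] at e2
  linarith

lemma two (h : Tr τ) {P Q d d' u v : E} (hP : Ctr P) (hQ : Ctr Q) (hd : IsSelfAdjoint d)
    (hd' : IsSelfAdjoint d') (c1 : Commute P d) (c2 : Commute Q d) (c3 : Commute P d')
    (c4 : Commute Q d') (hu : ‖u‖ ≤ 1) (hv : ‖v‖ ≤ 1) :
    n2 τ (P * Q * (d * u - d' * v)) ≤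
      2 * (τ (d ^ 2 * P * Q)).re + 2 * (τ (d' ^ 2 * P * Q)).re := by
  have o1 := (ID.one h hP hQ hd c1 c2).1
  have o2 := (ID.one h hP hQ hd' c3 c4).1
  have k : ∀ x w : E, ‖w‖ ≤ 1 → CI.Q τ (x * w) ≤ n2 τ x := fun x w hw => by
    have a := CI.Q_right h x w
    have b : ‖w‖ ^ 2 ≤ 1 := pow_le_one₀ (norm_nonneg _) hw
    have c : 0 ≤ CI.Q τ x := (h.pos _).1
    change _ ≤ CI.Q τ x
    nlinarith
  have a := CI.Q_add h (P * Q * d * u) (P * Q * d' * (-v))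
  have k1 := k (P * Q * d) u hu
  have k2 := k (P * Q * d') (-v) (by rwa [norm_neg])
  have e : P * Q * (d * u - d' * v) = P * Q * d * u + P * Q * d' * (-v) := by noncomm_ring
  rw [e]
  change CI.Q τ _ ≤ _
  linarith

lemma avg (h : Tr τ) {L : ℕ} (T : Fin L → Fin L → E) {c : ℝ}
    (hc : ∑ k, ∑ l, n2 τ (T k l) ≤ c) :
    n2 τ (((L : ℝ)⁻¹ * (L : ℝ)⁻¹) • ∑ k, ∑ l, T k l) ≤ c := by
  have s0 : 0 ≤ ∑ k, ∑ l, n2 τ (T k l) :=
    sum_nonneg fun k _ => sum_nonneg fun l _ => (h.pos _).1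
  have b := ID.q_sum h univ fun q : Fin L × Fin L => T q.1 q.2
  rw [card_univ, Fintype.card_prod, Fintype.card_fin, Nat.cast_mul, Fintype.sum_prod_type,
    Fintype.sum_prod_type] at b
  rw [ID.q_smul]
  refine (mul_le_mul_of_nonneg_left b (sq_nonneg _)).trans (le_trans ?_ hc)
  rw [← mul_assoc]
  refine mul_le_of_le_one_left s0 ?_
  rcases Nat.eq_zero_or_pos L with rfl | hL
  · simp
  · have L1 : (1 : ℝ) ≤ L := Nat.one_le_cast.2 hL
    have : ((L : ℝ)⁻¹ * (L : ℝ)⁻¹) ^ 2 * (L * L) = (L : ℝ)⁻¹ * (L : ℝ)⁻¹ := by field_simp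
    rw [this]
    exact mul_le_one₀ (inv_le_one_of_one_le₀ L1) (by positivity) (inv_le_one_of_one_le₀ L1)

lemma aw_mul {L : ℕ} {P P' X Y : Fin L → E} (c : ∀ l k, Commute (P' l) (X k)) :
    aw P X * aw P' Y = ((L : ℝ)⁻¹ * (L : ℝ)⁻¹) • ∑ k, ∑ l, P k * P' l * (X k * Y l) := by
  rw [aw, aw, av, av, smul_mul_smul_comm, sum_mul_sum]
  congr 1
  refine sum_congr rfl fun k _ => sum_congr rfl fun l _ => ?_
  rw [mul_assoc, ← mul_assoc (X k), ← (c l k).eq]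
  simp only [mul_assoc]

end ID2

open ID2 in
theorem idn1 (h : Tr τ) {L : ℕ} {P P' H H' A A' : Fin L → E} (h1 : Cw P H A) (h2 : Cw P H' A')
    (h3 : Cw P' H A) (h4 : Cw P' H' A') :
    n2 τ (aw P H * aw P' A' - aw P A * aw P' H') ≤ 4 * sp τ P P' A A' ∧ 0 ≤ sp τ P P' A A' := by
  refine ⟨?_, sum_nonneg fun k _ => sum_nonneg fun l _ => (ID.one h (h1.ctr k) (h3.ctr l)
    ((h1.sy k).dom.1.sub (h2.sy l).dom.1) ((h1.cA k k).sub_right (h2.cA k l))
    ((h3.cA l k).sub_right (h4.cA l l))).2⟩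
  rw [aw_mul h3.cH, aw_mul h3.cA, ← smul_sub, ← sum_sub_distrib]
  simp only [← sum_sub_distrib, ← mul_sub]
  refine avg h _ ?_
  rw [sp, mul_sum]
  refine sum_le_sum fun k _ => ?_
  rw [mul_sum]
  refine sum_le_sum fun l _ => ?_
  have e : H k * A' l - A k * H' l = (H k - H' l) * A' l - (A k - A' l) * H' l := by
    rw [sub_mul, sub_mul, (h2.sy l).cm.eq]
    abel
  have t := two h (h1.ctr k) (h3.ctr l) ((h1.sy k).ctr.1.sub (h2.sy l).ctr.1)
    ((h1.sy k).dom.1.sub (h2.sy l).dom.1) ((h1.cH k k).sub_right (h2.cH k l))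
    ((h3.cH l k).sub_right (h4.cH l l)) ((h1.cA k k).sub_right (h2.cA k l))
    ((h3.cA l k).sub_right (h4.cA l l)) (sy_norm (h2.sy l)).1 (sy_norm (h2.sy l)).2
  have c := cmp h (h1.ctr k) (h3.ctr l) (h1.sy k) (h2.sy l) (h1.cH k k) (h1.cA k k) (h2.cH k l)
    (h2.cA k l) (h3.cH l k) (h3.cA l k) (h4.cH l l) (h4.cA l l)
  rw [e]
  linarith

open ID2 in
theorem idn2 (h : Tr τ) {L : ℕ} {P H A : Fin L → E} (h1 : Cw P H A) :
    n2 τ (aw P A * aw P A - aw P H * aw P H) ≤ 4 * sp τ P P A A := by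
  rw [aw_mul h1.cH, aw_mul h1.cA, ← smul_sub, ← sum_sub_distrib]
  simp only [← sum_sub_distrib, ← mul_sub]
  refine avg h _ ?_
  rw [sp, mul_sum]
  refine sum_le_sum fun k _ => ?_
  rw [mul_sum]
  refine sum_le_sum fun l _ => ?_
  have e : A k * A l - H k * H l = (A k - A l) * A l - (H k - H l) * H l := by
    rw [sub_mul, sub_mul, (h1.sy l).sq]
    abel
  have t := two h (h1.ctr k) (h1.ctr l) ((h1.sy k).dom.1.sub (h1.sy l).dom.1)
    ((h1.sy k).ctr.1.sub (h1.sy l).ctr.1) ((h1.cA k k).sub_right (h1.cA k l))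
    ((h1.cA l k).sub_right (h1.cA l l)) ((h1.cH k k).sub_right (h1.cH k l))
    ((h1.cH l k).sub_right (h1.cH l l)) (sy_norm (h1.sy l)).1 (sy_norm (h1.sy l)).2
  have c := cmp h (h1.ctr k) (h1.ctr l) (h1.sy k) (h1.sy l) (h1.cH k k) (h1.cA k k) (h1.cH k l)
    (h1.cA k l) (h1.cH l k) (h1.cA l k) (h1.cH l l) (h1.cA l l)
  rw [e]
  linarith

theorem sp_comb (h : Tr τ) {L : ℕ} {P H A B : Fin L → E} (h1 : Cw P H A) (h2 : Cw P H B) :
    sp τ P P (fun k => (3 / 5 : ℝ) • A k + (4 / 5 : ℝ) • B k)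
      (fun k => (3 / 5 : ℝ) • A k + (4 / 5 : ℝ) • B k) ≤ 2 * sp τ P P A A + 2 * sp τ P P B B := by
  simp only [sp, mul_sum, ← sum_add_distrib]
  refine sum_le_sum fun k _ => sum_le_sum fun l _ => ?_
  have sX := (h1.sy k).dom.1.sub (h1.sy l).dom.1
  have sY := (h2.sy k).dom.1.sub (h2.sy l).dom.1
  have pX := (h1.cA k k).sub_right (h1.cA k l)
  have qX := (h1.cA l k).sub_right (h1.cA l l)
  have pY := (h2.cA k k).sub_right (h2.cA k l)
  have qY := (h2.cA l k).sub_right (h2.cA l l)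
  have e0 : (3 / 5 : ℝ) • A k + (4 / 5 : ℝ) • B k - ((3 / 5 : ℝ) • A l + (4 / 5 : ℝ) • B l) =
      (3 / 5 : ℝ) • (A k - A l) + (4 / 5 : ℝ) • (B k - B l) := by module
  rw [e0]
  generalize A k - A l = X at sX pX qX
  generalize B k - B l = Y at sY pY qY
  have o1 := (ID.one h (h1.ctr k) (h1.ctr l) sX pX qX).2
  have o2 := (ID.one h (h1.ctr k) (h1.ctr l) sY pY qY).2
  have o3 := (ID.one h (h1.ctr k) (h1.ctr l) (d := (4 / 5 : ℝ) • X - (3 / 5 : ℝ) • Y)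
    ((IsSelfAdjoint.smul (IsSelfAdjoint.all _) sX).sub (IsSelfAdjoint.smul (IsSelfAdjoint.all _) sY))
    ((pX.smul_right _).sub_right (pY.smul_right _))
    ((qX.smul_right _).sub_right (qY.smul_right _))).2
  have e : ((3 / 5 : ℝ) • X + (4 / 5 : ℝ) • Y) ^ 2 + ((4 / 5 : ℝ) • X - (3 / 5 : ℝ) • Y) ^ 2 =
      X ^ 2 + Y ^ 2 := by
    simp only [sq, add_mul, mul_add, sub_mul, mul_sub, smul_mul_smul_comm]
    module
  have e2 := congrArg (fun x => (τ (x * P k * P l)).re) e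
  simp only [add_mul (_ ^ 2), add_mul (_ * _), map_add, Complex.add_re] at e2
  linarith

end Vale.Agent.P095M
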