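import Vale.Agent.P095M.PartNM
import Vale.Agent.P095M.PartBD
import Vale.Agent.P095M.PartID

/-! Part LOC1: local invariance estimate. -/

namespace Vale.Agent.P095M

open Finset Vale.Agent.P101 Vale.Agent.P095G

namespace L14

variable {E : Type} [CStarAlgebra E] {τ : E →ₗ[ℂ] ℂ}

lemma lr (h : Tr τ) {a b : E} (x : E) {s t : ℝ} (ha : ‖a‖ ^ 2 ≤ s) (hb : ‖b‖ ^ 2 ≤ t) :
    n2 τ (a * x * b) ≤ s * t * n2 τ x := by
  have h0 := n2_nonneg h x
  have a1 := (n2_mul_left h a x).trans (mul_le_mul_of_nonneg_right ha h0)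
  have a2 := (n2_mul_right h (a * x) b).trans
    (mul_le_mul hb a1 (n2_nonneg h _) ((sq_nonneg _).trans hb))
  exact a2.trans_eq (by ring)

lemma sq2 {a : E} {s : ℝ} (ha : ‖a‖ ^ 2 ≤ s) : ‖a * a‖ ^ 2 ≤ s * s := by
  have := pow_le_pow_left₀ (norm_nonneg _) (norm_mul_le a a) 2
  rw [mul_pow] at this
  exact this.trans (mul_le_mul ha ha (sq_nonneg _) ((sq_nonneg _).trans ha))

end L14

theorem loc14 {N : ℕ} (hN : 0 < N) (η : ℝ) (hη : 0 < η) : ∃ C : ℝ, 0 ≤ C ∧ ∀ u < N,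
    ∀ (E : Type) [CStarAlgebra E] (τ : E →ₗ[ℂ] ℂ), Tr τ → ∀ (L : ℕ) (P P' H H' A A' : Fin L → E),
      Cw P H A → Cw P H' A' → Cw P' H A → Cw P' H' A' → n2 τ (yw N u P' H' A' - yw N u P H A) ≤
        20 * (n2 τ (pw N u P' H' - pw N u P H) + (τ (pw N u P H - pw N u P H ^ 2)).re +
          (τ (pw N u P' H' - pw N u P' H' ^ 2)).re) +
        C * (sp τ P P A A + sp τ P' P' A' A' + sp τ P P' A A') +
        η * ((τ (aw P H)).re + (τ (aw P' H')).re) := by
  have N0 : (0 : ℝ) < N := Nat.cast_pos.2 hN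
  obtain ⟨θ, θ0, hθ⟩ : ∃ θ : ℝ, 0 < θ ∧ η = 16 * N * θ :=
    ⟨η / (16 * N), by positivity, by field_simp⟩
  choose c c0 hc using fun u : ℕ => com (rG N u) (BD.rG_cont hN u) θ θ0
  obtain ⟨C, C0, hC⟩ : ∃ C : ℝ, 0 ≤ C ∧ ∀ u < N, c u ≤ C := ⟨∑ u ∈ range N, c u,
    sum_nonneg fun u _ => c0 u, fun u hu => single_le_sum (fun u _ => c0 u) (mem_range.2 hu)⟩
  refine ⟨32 * (N * C) + 32 * (N * N * (N * N)), by positivity,
    fun u hu E _ τ hτ L P P' H H' A A' h1 h2 h3 h4 => ?_⟩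
  obtain ⟨a1, -, -, a4, -, -, a7, a8, a9⟩ := aw_bd hτ hN u h1
  obtain ⟨b1, -, -, b4, -, -, b7, b8, b9⟩ := aw_bd hτ hN u h4
  obtain ⟨p1, p2, p3⟩ := yw_bd hN u h1
  obtain ⟨q1, q2, q3⟩ := yw_bd hN u h4
  obtain ⟨i1, j1⟩ := idn hτ h1 h1 h1 h1
  obtain ⟨i2, j2⟩ := idn hτ h4 h4 h4 h4
  obtain ⟨i3, j3⟩ := idn hτ h1 h2 h3 h4
  have k1 := hc u E τ hτ _ (aw P A) a1
  have k2 := hc u E τ hτ _ (aw P' A') b1
  have m1 : Commute (cfc (rG N u) (aw P H)) (aw P H) := (Commute.refl _).cfc_real _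
  have m2 : Commute (cfc (rG N u) (aw P' H')) (aw P' H') := (Commute.refl _).cfc_real _
  have y1 : yw N u P H A = cfc (rG N u) (aw P H) * aw P A * cfc (rG N u) (aw P H) := rfl
  have y2 : yw N u P' H' A' = cfc (rG N u) (aw P' H') * aw P' A' * cfc (rG N u) (aw P' H') := rfl
  have cu := hC u hu
  have cu0 := c0 u
  generalize c u = cc at k1 k2 cu cu0
  generalize sp τ P P A A = S0 at *
  generalize sp τ P' P' A' A' = S1 at *
  generalize sp τ P P' A A' = S2 at *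
  generalize yw N u P H A = y at *
  generalize yw N u P' H' A' = y' at *
  generalize pw N u P H = p at *
  generalize pw N u P' H' = p' at *
  generalize cfc (rG N u) (aw P H) = g at *
  generalize cfc (rG N u) (aw P' H') = g' at *
  generalize aw P H = h at *
  generalize aw P' H' = h' at *
  generalize aw P A = x at *
  generalize aw P' A' = x' at *
  have e1 : p = g * g * h := by rw [← a8, mul_assoc, mul_assoc, m1.eq]
  have e2 : p' = h' * (g' * g') := by rw [← b8, m2.eq, mul_assoc]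
  have e3 : p * y' - y * p' = p * (g' * x' - x' * g') * g' + g * g * (h * x' - x * h') * (g' * g') +
      g * (g * x - x * g) * p' := by
    rw [y1, y2, e1, e2]
    noncomm_ring
  have e4 : y' - y = ((1 - p') * y' + (p' - p) * y' + (y * (p' - p) - y * (1 - p))) +
      (p * y' - y * p') := by noncomm_ring
  have n1 : ∀ {z : E}, ‖z‖ ≤ 1 → ‖z‖ ^ 2 ≤ 1 := fun hz => pow_le_one₀ (norm_nonneg _) hz
  have t1 := L14.lr hτ (g' * x' - x' * g') (n1 (FIN.ctr_norm p1)) b7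
  have t2 := L14.lr hτ (h * x' - x * h') (L14.sq2 a7) (L14.sq2 b7)
  have t3 := L14.lr hτ (g * x - x * g) a7 (n1 (FIN.ctr_norm q1))
  have d0 := n2_nonneg hτ (p' - p)
  have t4 := (n2_mul_right hτ (p' - p) y').trans (mul_le_of_le_one_left d0 (n1 q3))
  have t5 := (n2_mul_left hτ y (p' - p)).trans (mul_le_of_le_one_left d0 (n1 p3))
  have t6 : n2 τ (y * (1 - p)) = n2 τ ((1 - p) * y) := by
    rw [← n2_star hτ, star_mul, p2.1.star_eq, ((IsSelfAdjoint.one E).sub p1.1).star_eq]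
  have s1 := n2_add hτ ((1 - p') * y') ((p' - p) * y')
  have s2 := n2_sub hτ (y * (p' - p)) (y * (1 - p))
  have s3 := n2_add hτ ((1 - p') * y' + (p' - p) * y') (y * (p' - p) - y * (1 - p))
  have s4 := n2_add hτ ((1 - p') * y' + (p' - p) * y' + (y * (p' - p) - y * (1 - p)))
    (p * y' - y * p')
  have s5 := n2_add hτ (p * (g' * x' - x' * g') * g') (g * g * (h * x' - x * h') * (g' * g'))
  have s6 := n2_add hτ (p * (g' * x' - x' * g') * g' + g * g * (h * x' - x * h') * (g' * g'))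
    (g * (g * x - x * g) * p')
  rw [← e3] at s6
  rw [← e4] at s4
  have z1 := n2_nonneg hτ ((1 - p) * y)
  have z2 := n2_nonneg hτ ((1 - p') * y')
  have z3 := n2_nonneg hτ (g * (g * x - x * g) * p')
  have w1 : n2 τ (g * x - x * g) ≤ C * (4 * S0) + θ * (2 * (τ h).re) := k1.trans (add_le_add
    (mul_le_mul cu i1 (n2_nonneg hτ _) C0) (mul_le_mul_of_nonneg_left a4 θ0.le))
  have w2 : n2 τ (g' * x' - x' * g') ≤ C * (4 * S1) + θ * (2 * (τ h').re) := k2.trans (add_le_add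
    (mul_le_mul cu i2 (n2_nonneg hτ _) C0) (mul_le_mul_of_nonneg_left b4 θ0.le))
  have v1 := t1.trans (mul_le_mul_of_nonneg_left w2 (by positivity))
  have v2 := t2.trans (mul_le_mul_of_nonneg_left i3 (by positivity))
  have v3 := t3.trans (mul_le_mul_of_nonneg_left w1 (by positivity))
  have u1 : 0 ≤ N * C * S2 := by positivity
  have u2 : 0 ≤ (N : ℝ) * N * (N * N) * S0 := by positivity
  have u3 : 0 ≤ (N : ℝ) * N * (N * N) * S1 := by positivity
  rw [hθ]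
  linarith

end Vale.Agent.P095M
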