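import Vale.Agent.P095M.PartNM
import Vale.Agent.P095M.PartID2
import Vale.Agent.P095M.PartBD

/-! Part LOC2: the cut down average is almost a symmetry. -/

namespace Vale.Agent.P095M

open Filter Topology Finset Vale.Agent.P101 Vale.Agent.P095 Vale.Agent.P095G TopologicalSpace

variable {A D E F : Type} [CStarAlgebra A] [CStarAlgebra D] [CStarAlgebra E] [CStarAlgebra F]
  {G : Type} [Group G] {ρ : D →ₗ[ℂ] ℂ} {τ : E →ₗ[ℂ] ℂ} {ω : Ultrafilter ℕ}

namespace LOC2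

lemma am (h : Tr τ) (x y : E) {κ : ℝ} (hκ : 0 < κ) :
    -(τ (star x * y)).re ≤ κ * n2 τ x + κ⁻¹ * n2 τ y := by
  have h1 := h.cs x y
  have h2 := (neg_le_abs _).trans (Complex.abs_re_le_norm (τ (star x * y)))
  have x0 := mul_nonneg hκ.le (h.pos x).1
  have y0 := mul_nonneg (inv_pos.2 hκ).le (h.pos y).1
  have e : (τ (star x * x)).re * (τ (star y * y)).re =
      (κ * (τ (star x * x)).re) * (κ⁻¹ * (τ (star y * y)).re) := by
    field_simp
  rw [e] at h1
  unfold n2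
  refine h2.trans (abs_le_of_sq_le_sq' (h1.trans ?_) (add_nonneg x0 y0)).2
  nlinarith [mul_nonneg x0 y0]

lemma core (h : Tr τ) {g G a ψ : E} (hg : IsSelfAdjoint g) (hψ : IsSelfAdjoint ψ)
    (e : G * G = g) (c : Commute G a) :
    (τ ((G * a * G) ^ 2)).re - (τ ((G * ψ * G) ^ 2)).re =
      -(τ (star (g * g) * (ψ * ψ - a * a))).re + n2 τ (g * ψ - ψ * g) / 2 := by
  have c1 : Commute g a := e ▸ c.mul_left c
  have k : ∀ z : E, τ ((G * z * G) ^ 2) = τ (g * z * (g * z)) := fun z => by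
    rw [sq, ← mul_assoc, h.comm, ← e]
    simp only [mul_assoc]
  have e1 : g * a * (g * a) = g * g * (a * a) := by
    rw [mul_assoc, ← mul_assoc a, ← c1.eq]
    simp only [mul_assoc]
  have e2 : star (g * ψ - ψ * g) * (g * ψ - ψ * g) =
      ψ * (g * g * ψ) - ψ * (g * ψ * g) - g * ψ * (g * ψ) + g * (ψ * ψ) * g := by
    rw [star_sub, star_mul, star_mul, hg.star_eq, hψ.star_eq]
    noncomm_ring
  have e3 : τ (ψ * (g * g * ψ)) = τ (g * g * (ψ * ψ)) := by rw [h.comm, mul_assoc]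
  have e4 : τ (ψ * (g * ψ * g)) = τ (g * ψ * (g * ψ)) := by rw [h.comm, mul_assoc]
  have e5 : τ (g * (ψ * ψ) * g) = τ (g * g * (ψ * ψ)) := by rw [h.comm, mul_assoc]
  rw [k, k, e1, n2, e2, star_mul, hg.star_eq, mul_sub]
  simp only [map_add, map_sub, Complex.add_re, Complex.sub_re, e3, e4, e5]
  ring

lemma pt {N : ℕ} (hN : 0 < N) (u : ℕ) {t : ℝ} (ht : 0 ≤ t) :
    (rG N u t * rG N u t) ^ 4 ≤ N ^ 5 * t := by
  have N0 : (0 : ℝ) < N := Nat.cast_pos.2 hN
  rcases le_total (N * t) 1 with h1 | h1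
  · have : rg N u t = 0 := max_eq_left ((min_le_right _ _).trans (by
      have : (0 : ℝ) ≤ u := u.cast_nonneg
      linarith))
    rw [rG, this, zero_div, Real.sqrt_zero, mul_zero, zero_pow (by norm_num)]
    positivity
  · have h2 := pow_le_pow_left₀ (sq_nonneg _) (ID.rG_sq hN u t).2 4
    rw [← sq]
    refine h2.trans ?_
    have := mul_le_mul_of_nonneg_left h1 (pow_pos N0 4).le
    linarith [show (N : ℝ) ^ 4 * (N * t) = N ^ 5 * t by ring]

end LOC2

theorem loc2 {N : ℕ} (hN : 0 < N) (η : ℝ) (hη : 0 < η) : ∃ C : ℝ, 0 ≤ C ∧ ∀ u < N,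
    ∀ (E : Type) [CStarAlgebra E] (τ : E →ₗ[ℂ] ℂ), Tr τ → ∀ (L : ℕ) (P H A : Fin L → E),
      Cw P H A → (τ (pw N u P H - yw N u P H A ^ 2)).re ≤
        (τ (pw N u P H - pw N u P H ^ 2)).re + C * sp τ P P A A + η * (τ (aw P H)).re := by
  have N0 : (0 : ℝ) < N := Nat.cast_pos.2 hN
  have cg : ∀ u, Continuous (rG N u) := fun u => by
    have m0 : ∀ t : ℝ, max t (1 / N : ℝ) ≠ 0 := fun t => (lt_max_of_lt_right (by positivity)).ne'
    unfold rG rg
    exact Real.continuous_sqrt.comp (Continuous.div (by fun_prop) (by fun_prop) m0)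
  choose C C0 hC using fun u => com (fun t => rG N u t * rG N u t) ((cg u).mul (cg u)) (η / 2)
    (by positivity)
  obtain ⟨κ, κ0, κ1⟩ : ∃ κ : ℝ, 0 < κ ∧ κ * N ^ 5 = η / 2 :=
    ⟨η / 2 / N ^ 5, by positivity, by field_simp⟩
  have S0 : 0 ≤ ∑ u ∈ range N, C u := sum_nonneg fun u _ => C0 u
  refine ⟨4 * κ⁻¹ + 2 * ∑ u ∈ range N, C u, by positivity, fun u hu E _ τ hτ L P H A h1 => ?_⟩
  let _ := CStarAlgebra.spectralOrder E
  have _ := CStarAlgebra.spectralOrderedRing E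
  obtain ⟨a1, a2, -, a4, -, -, -, a8, -⟩ := aw_bd hτ hN u h1
  obtain ⟨b1, b2⟩ := idn1 hτ h1 h1 h1 h1
  have b3 := idn2 hτ h1
  have b4 := hC u E τ hτ _ (aw P A) a1
  have b5 : C u ≤ ∑ u ∈ range N, C u := single_le_sum (fun u _ => C0 u) (mem_range.2 hu)
  have c1 := LOC2.core hτ (g := cfc (fun t => rG N u t * rG N u t) (aw P H))
    (G := cfc (rG N u) (aw P H)) (a := aw P H) (cfc_predicate _ _) a2
    (cfc_mul _ _ _ (cg u).continuousOn (cg u).continuousOn).symm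
    (Commute.cfc_real (Commute.refl _) _)
  have c2 := LOC2.am hτ (cfc (fun t => rG N u t * rG N u t) (aw P H) *
    cfc (fun t => rG N u t * rG N u t) (aw P H)) (aw P A * aw P A - aw P H * aw P H) κ0
  have c3 : n2 τ (cfc (fun t => rG N u t * rG N u t) (aw P H) *
      cfc (fun t => rG N u t * rG N u t) (aw P H)) ≤ N ^ 5 * (τ (aw P H)).re := by
    have hc : Continuous fun t => rG N u t * rG N u t := (cg u).mul (cg u)
    have sa : IsSelfAdjoint (cfc (fun t => rG N u t * rG N u t) (aw P H)) := cfc_predicate _ _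
    have e : ∀ g : E, g * g * (g * g) = g ^ 4 := fun g => by noncomm_ring
    rw [n2, star_mul, sa.star_eq, e, ← cfc_pow _ 4 _ hc.continuousOn a1.1, ← AVG.re_smul]
    refine hτ.mono ?_
    rw [← cfc_smul_id (R := ℝ) ((N : ℝ) ^ 5) (aw P H) a1.1]
    exact cfc_mono (fun t ht => LOC2.pt hN u (a1.2 ht).1) (hc.pow 4).continuousOn
  have c4 := mul_le_mul_of_nonneg_left c3 κ0.le
  have c5 := mul_le_mul_of_nonneg_left b3 (inv_pos.2 κ0).le
  have c6 := mul_le_mul b5 b1 (n2_nonneg hτ _) S0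
  have c7 := mul_le_mul_of_nonneg_left a4 (by positivity : 0 ≤ η / 2)
  rw [← mul_assoc, κ1] at c4
  rw [a8] at c1
  rw [map_sub, map_sub, Complex.sub_re, Complex.sub_re, yw]
  linarith

end Vale.Agent.P095M
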