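import Vale.Agent.P095M.Work

/-! PARTS RAMP and WT. -/

namespace Vale.Agent.P095M

open Filter Topology Finset Vale.Agent.P101 Vale.Agent.P095 Vale.Agent.P095G TopologicalSpace

variable {A D E F : Type} [CStarAlgebra A] [CStarAlgebra D] [CStarAlgebra E] [CStarAlgebra F]
  {G : Type} [Group G] {ρ : D →ₗ[ℂ] ℂ} {τ : E →ₗ[ℂ] ℂ} {ω : Ultrafilter ℕ}

namespace RAMP

theorem s1 (x : ℝ) (N : ℕ) : ∑ u ∈ range N, max 0 (min 1 (x - u)) = max 0 (min (N : ℝ) x) := by
  induction N with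
  | zero => simp
  | succ N ih =>
    rw [sum_range_succ, ih]
    have : (0 : ℝ) ≤ N := Nat.cast_nonneg N
    push_cast
    simp only [max_def, min_def]
    split_ifs <;> linarith

theorem s2 (x : ℝ) (N : ℕ) :
    ∑ u ∈ range N, (max 0 (min 1 (x - u)) - max 0 (min 1 (x - u)) ^ 2) ≤ 1 ∧
      ((N : ℝ) ≤ x ∨ x ≤ 0 →
        ∑ u ∈ range N, (max 0 (min 1 (x - u)) - max 0 (min 1 (x - u)) ^ 2) = 0) := by
  induction N with
  | zero => simp
  | succ N ih =>
    rw [sum_range_succ]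
    have h0 : (0 : ℝ) ≤ N := Nat.cast_nonneg N
    push_cast
    by_cases h : x ≤ N
    · have e : max 0 (min 1 (x - N)) = 0 := max_eq_left ((min_le_right _ _).trans (by linarith))
      rw [e]
      refine ⟨by linarith [ih.1], fun h2 => ?_⟩
      rcases h2 with h2 | h2
      · linarith
      · rw [ih.2 (Or.inr h2)]
        ring
    · push Not at h
      rw [ih.2 (Or.inl h.le)]
      have a : max 0 (min 1 (x - N)) ≤ 1 := max_le zero_le_one (min_le_left _ _)
      refine ⟨by nlinarith [sq_nonneg (max 0 (min 1 (x - N)))], fun h2 => ?_⟩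
      rcases h2 with h2 | h2
      · rw [min_eq_left (by linarith), max_eq_right zero_le_one]
        ring
      · linarith

theorem pw (N : ℕ) {t : ℝ} (h0 : 0 ≤ t) (h1 : t ≤ 1) :
    ∑ u ∈ range N, (rg N u t - rg N u t ^ 2) ≤ √N * √t ∧
      N * t - 5 * √N * √t ≤ ∑ u ∈ range N, rg N u t ^ 4 ∧ ∑ u ∈ range N, rg N u t ≤ N * t := by
  have n0 : (0 : ℝ) ≤ N := Nat.cast_nonneg N
  have e : ∀ u : ℕ, rg N u t = max 0 (min 1 (N * t - 1 - u)) := fun u => by
    rw [rg, sub_sub, add_comm 1]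
  have p0 : 0 ≤ N * t := mul_nonneg n0 h0
  have p1 : N * t ≤ N := mul_le_of_le_one_right n0 h1
  have a1 : ∑ u ∈ range N, rg N u t = max 0 (N * t - 1) := by
    simp only [e]
    rw [s1, min_eq_right (by linarith)]
  have q0 : 0 ≤ √(N * t) := Real.sqrt_nonneg _
  have q1 : √(N * t) * √(N * t) = N * t := Real.mul_self_sqrt p0
  have a2 : ∑ u ∈ range N, (rg N u t - rg N u t ^ 2) ≤ √(N * t) := by
    simp only [e]
    by_cases h : N * t ≤ 1
    · rw [(s2 _ N).2 (Or.inr (by linarith))]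
      exact q0
    · exact (s2 _ N).1.trans (Real.one_le_sqrt.2 (by linarith))
  have a3 : ∑ u ∈ range N, (rg N u t - 3 * (rg N u t - rg N u t ^ 2)) ≤
      ∑ u ∈ range N, rg N u t ^ 4 := sum_le_sum fun u _ => by
    have b0 : 0 ≤ rg N u t := le_max_left _ _
    have b1 : rg N u t ≤ 1 := max_le zero_le_one (min_le_left _ _)
    generalize rg N u t = c at b0 b1
    have b2 : 0 ≤ c * (1 - c) := mul_nonneg b0 (by linarith)
    have b3 : 0 ≤ 2 - c - c ^ 2 := by nlinarith
    nlinarith [mul_nonneg b2 b3]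
  have a4 : 0 ≤ ∑ u ∈ range N, rg N u t ^ 4 := sum_nonneg fun u _ => by positivity
  rw [sum_sub_distrib, ← mul_sum, a1] at a3
  rw [mul_assoc, ← Real.sqrt_mul n0]
  refine ⟨a2, ?_, by rw [a1]; exact max_le p0 (by linarith)⟩
  by_cases h : N * t ≤ 1
  · have := Real.sqrt_le_one.2 h
    nlinarith
  · have := Real.one_le_sqrt.2 (not_le.1 h).le
    have := le_max_right 0 (N * t - 1)
    linarith

theorem mono (h : Tr τ) {a : E} (ha : Ctr a) {f g : ℝ → ℝ} (hf : Continuous f) (hg : Continuous g)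
    (hfg : ∀ t, 0 ≤ t → t ≤ 1 → f t ≤ g t) : (τ (cfc f a)).re ≤ (τ (cfc g a)).re := by
  letI := CStarAlgebra.spectralOrder E
  haveI := CStarAlgebra.spectralOrderedRing E
  exact h.mono (cfc_mono (fun t ht => hfg t (ha.2 ht).1 (ha.2 ht).2) hf.continuousOn
    hg.continuousOn)

theorem sm (a : E) {f : ℕ → ℝ → ℝ} (hf : ∀ u, Continuous (f u)) (N : ℕ) :
    (τ (cfc (fun t => ∑ u ∈ range N, f u t) a)).re = ∑ u ∈ range N, (τ (cfc (f u) a)).re := by
  rw [← Complex.re_sum, ← map_sum, ← cfc_sum f a (range N) fun u _ => (hf u).continuousOn]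
  congr 3
  funext t
  simp

end RAMP

open RAMP in
theorem ramp (h : Tr τ) (N : ℕ) {a : E} (ha : Ctr a) :
    ∑ u ∈ range N, (τ (cfc (rg N u) a - cfc (rg N u) a ^ 2)).re ≤ √N * (τ (rt a)).re ∧
      N * (τ a).re - 5 * √N * (τ (rt a)).re ≤ ∑ u ∈ range N, (τ (cfc (rg N u) a ^ 4)).re ∧
      ∑ u ∈ range N, (τ (cfc (rg N u) a)).re ≤ N * (τ a).re := by
  have c : ∀ u, Continuous (rg N u) := fun u => by unfold rg; fun_prop
  have sa := ha.1
  letI := CStarAlgebra.spectralOrder E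
  haveI := CStarAlgebra.spectralOrderedRing E
  have e1 : ∀ k : ℝ, (τ (cfc (fun t : ℝ => k * √t) a)).re = k * (τ (rt a)).re := fun k => by
    rw [cfc_const_mul k _ a, Rot.re_smul]
  have e2 : (τ (cfc (fun t : ℝ => N * t) a)).re = N * (τ a).re := by
    rw [cfc_const_mul (N : ℝ) _ a, Rot.re_smul, cfc_id' ℝ a]
  refine ⟨?_, ?_, ?_⟩
  · have := mono h ha (f := fun t => ∑ u ∈ range N, (rg N u t - rg N u t ^ 2))
      (g := fun t => √N * √t) (by fun_prop) (by fun_prop) fun t h0 h1 => (pw N h0 h1).1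
    rw [e1, sm a (f := fun u t => rg N u t - rg N u t ^ 2) (fun u => by fun_prop)] at this
    refine le_trans (le_of_eq (sum_congr rfl fun u _ => ?_)) this
    rw [cfc_sub (rg N u) (fun t => rg N u t ^ 2) a (c u).continuousOn
      ((c u).pow 2).continuousOn, cfc_pow _ 2 a (c u).continuousOn]
  · have := mono h ha (f := fun t => N * t - 5 * √N * √t)
      (g := fun t => ∑ u ∈ range N, rg N u t ^ 4) (by fun_prop) (by fun_prop)
      fun t h0 h1 => (pw N h0 h1).2.1
    rw [sm a (f := fun u t => rg N u t ^ 4) (fun u => by fun_prop), cfc_sub _ _ a, map_sub,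
      Complex.sub_re, e1, e2] at this
    refine this.trans (le_of_eq (sum_congr rfl fun u _ => ?_))
    rw [cfc_pow _ 4 a (c u).continuousOn]
  · have := mono h ha (f := fun t => ∑ u ∈ range N, rg N u t)
      (g := fun t => N * t) (by fun_prop) (by fun_prop) fun t h0 h1 => (pw N h0 h1).2.2
    rwa [e2, sm a c] at this

theorem wt (h : Tr τ) (j : D →⋆ₐ[ℂ] E) {v : E} (hv : ∀ d, Commute v (j d))
    (hv' : ∀ d, Commute (star v) (j d)) {x : D} {c : ℝ}
    (hx : ∀ ρ : D →ₗ[ℂ] ℂ, Tr ρ → c ≤ (ρ x).re) :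
    c * (τ (star v * v)).re ≤ (τ (star v * v * j x)).re := by
  obtain ⟨p1, p2⟩ := h.pos v
  rcases p1.eq_or_lt with p | r1
  · have := h.cs v (v * j x)
    rw [← p, zero_mul] at this
    have e : τ (star v * (v * j x)) = 0 :=
      norm_eq_zero.1 (pow_eq_zero_iff two_ne_zero |>.1 (le_antisymm this (by positivity)))
    rw [← p, mul_assoc, e]
    simp
  · obtain ⟨r, hr⟩ : ∃ r : ℝ, r = (τ (star v * v)).re := ⟨_, rfl⟩
    rw [← hr] at r1 ⊢
    have e1 : τ (star v * v) = r := Complex.ext (by simp [hr]) (by simp [p2])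
    have r3 : (r : ℂ) ≠ 0 := Complex.ofReal_ne_zero.2 r1.ne'
    let ρ : D →ₗ[ℂ] ℂ := ((r⁻¹ : ℝ) : ℂ) •
      (τ ∘ₗ LinearMap.mulLeft ℂ (star v * v) ∘ₗ j.toAlgHom.toLinearMap)
    have hρ : ∀ d, ρ d = ((r⁻¹ : ℝ) : ℂ) * τ (star v * v * j d) := fun d => rfl
    have t : Tr ρ := by
      refine ⟨?_, fun x => ?_, fun x y => ?_⟩
      · rw [hρ, map_one, mul_one, e1, Complex.ofReal_inv, inv_mul_cancel₀ r3]
      · have a : star v * v * j (star x * x) = star (j x * v) * (j x * v) := by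
          rw [map_mul, map_star, star_mul, ← map_star, mul_assoc, mul_assoc,
            ← map_mul, (hv _).eq, map_mul, mul_assoc]
        obtain ⟨q1, q2⟩ := h.pos (j x * v)
        rw [hρ, a, Complex.re_ofReal_mul, Complex.im_ofReal_mul, q2]
        exact ⟨by positivity, by simp⟩
      · have c : Commute (star v * v) (j y) := (hv' y).mul_left (hv y)
        have c2 : τ (star v * v * j (x * y)) = τ (star v * v * j (y * x)) := by
          rw [map_mul j, map_mul j, ← mul_assoc, h.comm, ← mul_assoc, ← c.eq, mul_assoc]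
        rw [hρ, hρ, c2]
    have := hx ρ t
    rw [hρ, Complex.re_ofReal_mul, le_inv_mul_iff₀ r1] at this
    linarith

end Vale.Agent.P095M
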