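import Vale.Agent.P095M.PartCON
import Vale.Agent.P095M.PartRAMP
import Vale.Agent.P095M.PartID2
import Vale.Agent.P095M.PartBD
import Vale.Agent.P095M.PartLOC14
import Vale.Agent.P095M.PartLOC2
import Vale.Agent.P095G.PartAVG

/-! Sums over the cells of a hash. -/

namespace Vale.Agent.P095M

open Filter Topology Finset Vale.Agent.P101 Vale.Agent.P095 Vale.Agent.P095G TopologicalSpace

variable {E : Type} [CStarAlgebra E] {G : Type} [Group G] {τ : E →ₗ[ℂ] ℂ} {S : Type} [Fintype S]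

/-- A partition of unity for every group element. -/
structure Cell (P : S → G → E) (H A : G → E) : Prop where
  ctr : ∀ s k, Ctr (P s k)
  sum : ∀ k, ∑ s, P s k = 1
  hr : ∀ k (τ : E →ₗ[ℂ] ℂ), Tr τ → ∑ s, (τ (rt (P s k))).re ≤ 28
  sy : ∀ k, Sy (H k) (A k)
  cH : ∀ s k l, Commute (P s k) (H l)
  cA : ∀ s k l, Commute (P s k) (A l)

variable {P : S → G → E} {H A : G → E} {L : ℕ}

lemma Cell.cw (c : Cell P H A) (s : S) (a a' : Fin L → G) :
    Cw (fun l => P s (a l)) (fun l => H (a' l)) (fun l => A (a' l)) :=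
  ⟨fun _ => c.ctr _ _, fun _ => c.sy _, fun _ _ => c.cH _ _ _, fun _ _ => c.cA _ _ _⟩

lemma Cell.pos [PartialOrder E] [StarOrderedRing E] (c : Cell P H A) (s : S) (k : G) :
    0 ≤ P s k * H k ∧ P s k * H k ≤ P s k := by
  have p := AVG.ctr_iff.1 (c.ctr s k)
  have q := AVG.ctr_iff.1 (c.sy k).ctr
  refine ⟨(c.cH s k k).mul_nonneg p.1 q.1, ?_⟩
  have := ((Commute.one_right _).sub_right (c.cH s k k)).mul_nonneg p.1 (sub_nonneg.2 q.2)
  rwa [mul_sub, mul_one, sub_nonneg] at this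

lemma re_le_one (h : Tr τ) {x : E} (hx : Ctr x) : (τ x).re ≤ 1 := by
  let _ := CStarAlgebra.spectralOrder E
  have _ := CStarAlgebra.spectralOrderedRing E
  have := h.mono (AVG.ctr_iff.1 hx).2
  rwa [h.one, Complex.one_re] at this

lemma Cell.part (c : Cell P H A) (t : Finset (Fin L)) (a : Fin L → G) :
    ∑ s, (τ ((L : ℝ)⁻¹ • ∑ l ∈ t, P s (a l) * H (a l))).re =
      (L : ℝ)⁻¹ * ∑ l ∈ t, (τ (H (a l))).re := by
  rw [← Complex.re_sum, ← map_sum, ← smul_sum, sum_comm, AVG.re_smul, map_sum, Complex.re_sum]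
  congr 1
  exact sum_congr rfl fun l _ => by rw [← sum_mul, c.sum, one_mul]

lemma Cell.part_le (c : Cell P H A) (h : Tr τ) (t : Finset (Fin L)) (a : Fin L → G) :
    ∑ s, (τ ((L : ℝ)⁻¹ • ∑ l ∈ t, P s (a l) * H (a l))).re ≤ (L : ℝ)⁻¹ * t.card := by
  rw [c.part]
  refine mul_le_mul_of_nonneg_left ?_ (by positivity)
  have := sum_le_card_nsmul t (fun l => (τ (H (a l))).re) 1 fun l _ => re_le_one h (c.sy _).ctr
  rwa [nsmul_eq_mul, mul_one] at this

lemma Cell.c1 (c : Cell P H A) (h : Tr τ) (hL : 0 < L) (a : Fin L → G) :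
    ∑ s, (τ (aw (fun l => P s (a l)) fun l => H (a l))).re ≤ 1 := by
  have := c.part_le h univ a
  rw [card_univ, Fintype.card_fin, inv_mul_cancel₀ (by positivity)] at this
  exact this

lemma Cell.c2 (c : Cell P H A) (h : Tr τ) (hL : 0 < L) (a : Fin L → G) :
    ∑ s, (τ (rt (aw (fun l => P s (a l)) fun l => H (a l)))).re ≤ 28 * √L := by
  let _ := CStarAlgebra.spectralOrder E
  have _ := CStarAlgebra.spectralOrderedRing E
  have h1 : ∀ s, (τ (rt (aw (fun l => P s (a l)) fun l => H (a l)))).re ≤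
      (√L)⁻¹ * ∑ l, (τ (rt (P s (a l)))).re := fun s => by
    rw [aw, av, Rot.rt_smul (sum_nonneg fun l _ => (c.pos s _).1) (by positivity), AVG.re_smul,
      Real.sqrt_inv]
    exact mul_le_mul_of_nonneg_left ((rot h univ fun l _ => (c.pos s _).1).trans
      (sum_le_sum fun l _ => h.mono (Rot.rt_mono (c.pos s _).1 (c.pos s _).2))) (by positivity)
  refine (sum_le_sum fun s _ => h1 s).trans ?_
  rw [← mul_sum, sum_comm]
  have h2 := sum_le_card_nsmul univ (fun l => ∑ s, (τ (rt (P s (a l)))).re) 28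
    fun l _ => c.hr (a l) τ h
  rw [card_univ, Fintype.card_fin, nsmul_eq_mul] at h2
  refine (mul_le_mul_of_nonneg_left h2 (by positivity)).trans_eq ?_
  have : (0 : ℝ) < √L := by positivity
  have e : (L : ℝ) = √L * √L := (Real.mul_self_sqrt (by positivity)).symm
  field_simp
  rw [sq, ← e]

lemma Cell.c3 (c : Cell P H A) (h : Tr τ) (hL : 0 < L) {N : ℕ} (hN : 0 < N) {e : ℝ} (he : 0 < e)
    (a : Fin L → G) (g : G) (J : Finset (Fin L)) (φ : Fin L → Fin L) (hφ : Set.InjOn φ J)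
    (h2 : ∀ i ∈ J, (a (φ i))⁻¹ * g * a i = 1) (h3 : ((L : ℝ) - J.card) ≤ e ^ 2 * L) :
    ∑ s, ∑ u ∈ range N, n2 τ (pw N u (fun l => P s (g * a l)) (fun l => H (g * a l)) -
      pw N u (fun l => P s (a l)) fun l => H (a l)) ≤ 4 * e * N := by
  classical
  let _ := CStarAlgebra.spectralOrder E
  have _ := CStarAlgebra.spectralOrderedRing E
  have L0 : (0 : ℝ) < L := Nat.cast_pos.2 hL
  have c0 : (0 : ℝ) ≤ (L : ℝ)⁻¹ := by positivity
  have hJ : J.card ≤ L := (card_le_univ J).trans_eq (Fintype.card_fin L)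
  have h1 := fun s => con h N (aw_bd h hN 0 (c.cw s (fun l => g * a l) fun l => g * a l)).1
    (aw_bd h hN 0 (c.cw s a a)).1
    (r := (L : ℝ)⁻¹ • ∑ l ∈ (J.image φ)ᶜ, P s (a l) * H (a l))
    (r' := (L : ℝ)⁻¹ • ∑ l ∈ Jᶜ, P s (g * a l) * H (g * a l))
    (smul_nonneg c0 (sum_nonneg fun l _ => (c.pos s _).1))
    (smul_nonneg c0 (sum_nonneg fun l _ => (c.pos s _).1)) (by
      have e2 : ∑ i ∈ J, P s (g * a i) * H (g * a i) = ∑ i ∈ J, P s (a (φ i)) * H (a (φ i)) :=
        sum_congr rfl fun i hi => by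
          have := h2 i hi
          rw [mul_assoc, inv_mul_eq_one] at this
          rw [this]
      rw [aw, aw, av, av, ← smul_add, ← smul_add,
        ← sum_add_sum_compl J fun i => P s (g * a i) * H (g * a i), e2,
        ← sum_add_sum_compl (J.image φ) fun i => P s (a i) * H (a i), sum_image hφ]
      congr 1
      abel) he
  refine (sum_le_sum fun s _ => h1 s).trans ?_
  rw [← mul_sum, sum_add_distrib, ← mul_sum, sum_add_distrib, ← sum_div, sum_add_distrib]
  have a1 := c.c1 h hL a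
  have a2 := c.c1 h hL fun l => g * a l
  have a3 := c.part_le h (J.image φ)ᶜ a
  have a4 := c.part_le h Jᶜ fun l => g * a l
  rw [card_compl, card_image_of_injOn hφ, Fintype.card_fin, Nat.cast_sub hJ] at a3
  rw [card_compl, Fintype.card_fin, Nat.cast_sub hJ] at a4
  have a5 : (L : ℝ)⁻¹ * (L - J.card) ≤ e ^ 2 := by
    rw [← div_eq_inv_mul, div_le_iff₀ L0]
    exact h3
  rw [mul_comm (4 * e)]
  refine mul_le_mul_of_nonneg_left ?_ (by positivity)
  refine (add_le_add (mul_le_mul_of_nonneg_left (add_le_add a2 a1) he.le)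
    (div_le_div_of_nonneg_right (add_le_add (a3.trans a5) (a4.trans a5)) he.le)).trans_eq ?_
  field_simp
  ring

lemma pow_four_le (h : Tr τ) {x : E} (hx : Ctr x) : (τ (x ^ 4)).re ≤ (τ x).re := by
  let _ := CStarAlgebra.spectralOrder E
  have _ := CStarAlgebra.spectralOrderedRing E
  have hs := hx.1
  have := h.mono (cfc_mono (a := x) (f := fun t : ℝ => t ^ 4) (g := fun t : ℝ => t) fun t ht =>
    pow_le_of_le_one (hx.2 ht).1 (hx.2 ht).2 (by norm_num))
  rwa [cfc_pow_id x 4, cfc_id' ℝ x] at this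

lemma Cell.c4 (c : Cell P H A) (h : Tr τ) (hL : 0 < L) {N : ℕ} (hN : 0 < N) {e : ℝ}
    (he : √N * (28 * √L) ≤ e * N) (a : Fin L → G) :
    ∑ s, ∑ u ∈ range N, (τ (pw N u (fun l => P s (a l)) (fun l => H (a l)) -
      pw N u (fun l => P s (a l)) (fun l => H (a l)) ^ 2)).re ≤ e * N ∧
    N * ((L : ℝ)⁻¹ * ∑ l, (τ (H (a l))).re) - 5 * (e * N) ≤
      ∑ s, ∑ u ∈ range N, (τ (pw N u (fun l => P s (a l)) fun l => H (a l))).re := by
  have h1 := fun s => ramp h N (aw_bd h hN 0 (c.cw s a a)).1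
  have h2 := mul_le_mul_of_nonneg_left (c.c2 h hL a) (Real.sqrt_nonneg N)
  constructor
  · refine (sum_le_sum fun s _ => (h1 s).1).trans ?_
    rw [← mul_sum]
    exact h2.trans he
  · refine le_trans ?_ (sum_le_sum fun s _ => (h1 s).2.1.trans
      (sum_le_sum fun u _ => pow_four_le h (yw_bd hN u (c.cw s a a)).1))
    rw [sum_sub_distrib, ← mul_sum, ← mul_sum, ← c.part univ a]
    have : ∀ s, aw (fun l => P s (a l)) (fun l => H (a l)) =
      (L : ℝ)⁻¹ • ∑ l, P s (a l) * H (a l) := fun _ => rfl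
    simp only [this] at h2 ⊢
    nlinarith

/-- The separation error summed over the cells. -/
noncomputable def ssp (τ : E →ₗ[ℂ] ℂ) (P : S → G → E) (A : G → E) (a a' : Fin L → G) : ℝ :=
  ∑ s, sp τ (fun l => P s (a l)) (fun l => P s (a' l)) (fun l => A (a l)) fun l => A (a' l)

lemma c5 {N : ℕ} (hN : 0 < N) {e : ℝ} (he : 0 < e) : ∃ C : ℝ, 0 ≤ C ∧
    ∀ (E : Type) [CStarAlgebra E] (τ : E →ₗ[ℂ] ℂ), Tr τ → ∀ (S : Type) [Fintype S]
      (P : S → G → E) (H A : G → E), Cell P H A → ∀ L : ℕ, 0 < L → √N * (28 * √L) ≤ e * N →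
      ∀ a : Fin L → G, (∑ s, ∑ u ∈ range N, (τ (pw N u (fun l => P s (a l)) (fun l => H (a l)) -
        yw N u (fun l => P s (a l)) (fun l => H (a l)) (fun l => A (a l)) ^ 2)).re ≤
          2 * e * N + N * (C * ssp τ P A a a)) ∧
      ∀ (g : G) (J : Finset (Fin L)) (φ : Fin L → Fin L), Set.InjOn φ J →
        (∀ i ∈ J, (a (φ i))⁻¹ * g * a i = 1) → ((L : ℝ) - J.card) ≤ e ^ 2 * L →
        ∑ s, ∑ u ∈ range N, n2 τ
          (yw N u (fun l => P s (g * a l)) (fun l => H (g * a l)) (fun l => A (g * a l)) -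
            yw N u (fun l => P s (a l)) (fun l => H (a l)) fun l => A (a l)) ≤
          122 * e * N + N * (C * (ssp τ P A a a + ssp τ P A (fun l => g * a l) (fun l => g * a l) +
            ssp τ P A a fun l => g * a l)) := by
  obtain ⟨C1, p1, h1⟩ := loc14 hN e he
  obtain ⟨C2, p2, h2⟩ := loc2 hN e he
  have N0 : (0 : ℝ) ≤ N := Nat.cast_nonneg N
  refine ⟨C1 + C2, by positivity, fun E _ τ h S _ P H A c L hL hs a => ?_⟩
  have s0 : ∀ a a' : Fin L → G, 0 ≤ ssp τ P A a a' := fun a a' => sum_nonneg fun s _ =>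
    (idn h (c.cw s a a) (c.cw s a a') (c.cw s a' a) (c.cw s a' a')).2
  refine ⟨?_, fun g J φ b1 b2 b3 => ?_⟩
  · refine (sum_le_sum fun s _ => sum_le_sum fun u hu =>
      h2 u (mem_range.1 hu) E τ h L _ _ _ (c.cw s a a)).trans ?_
    simp only [sum_add_distrib, sum_const, card_range, nsmul_eq_mul, ← mul_sum]
    have a1 := (c.c4 h hL hN hs a).1
    have a2 := mul_le_mul_of_nonneg_left (mul_le_mul_of_nonneg_left (c.c1 h hL a) he.le) N0
    have a3 := mul_nonneg N0 (mul_nonneg p1 (s0 a a))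
    rw [ssp] at a3 ⊢
    linarith
  · refine (sum_le_sum fun s _ => sum_le_sum fun u hu =>
      h1 u (mem_range.1 hu) E τ h L _ _ _ _ _ _ (c.cw s a a) (c.cw s a fun l => g * a l)
        (c.cw s (fun l => g * a l) a) (c.cw s (fun l => g * a l) fun l => g * a l)).trans ?_
    simp only [sum_add_distrib, sum_const, card_range, nsmul_eq_mul, ← mul_sum]
    have a1 := (c.c4 h hL hN hs a).1
    have a1' := (c.c4 h hL hN hs fun l => g * a l).1
    have a2 := mul_le_mul_of_nonneg_left (mul_le_mul_of_nonneg_left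
      (add_le_add (c.c1 h hL a) (c.c1 h hL fun l => g * a l)) he.le) N0
    have a3 := mul_nonneg N0 (mul_nonneg p2 (add_nonneg (add_nonneg (s0 a a)
      (s0 (fun l => g * a l) fun l => g * a l)) (s0 a fun l => g * a l)))
    have a4 := c.c3 h hL hN he a g J φ b1 b2 b3
    simp only [ssp] at a3 ⊢
    linarith

end Vale.Agent.P095M
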