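import Vale.Agent.P095M.Work
import Vale.Agent.P095G.PartAVG
import Vale.Agent.P095G.PartSM

/-! Part CON: the trick of Connes. -/

namespace Vale.Agent.P095M

open Filter Topology Finset Vale.Agent.P101 Vale.Agent.P095G

variable {E : Type} [CStarAlgebra E] {τ : E →ₗ[ℂ] ℂ}

namespace CON

/-- Bernstein basis -/
noncomputable def bb (n k : ℕ) (x : ℝ) : ℝ := (n.choose k : ℝ) * x ^ k * (1 - x) ^ (n - k)

lemma bb_cont (n k : ℕ) : Continuous (bb n k) := by unfold bb; fun_prop

lemma bern {a : E} (ha : Ctr a) {f : ℝ → ℝ} (hf : Continuous f) :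
    Tendsto (fun n : ℕ => ∑ k : Fin (n + 1), f (bernstein.z k) • cfc (bb n k) a) atTop
      (𝓝 (cfc f a)) := by
  let F : C(unitInterval, ℝ) := ⟨fun x => f x, hf.comp continuous_subtype_val⟩
  have h1 := tendsto_iff_norm_sub_tendsto_zero.1 (bernsteinApproximation_uniform F)
  refine tendsto_iff_norm_sub_tendsto_zero.2 (squeeze_zero (fun _ => norm_nonneg _) (fun n => ?_) h1)
  have c : ∀ k : Fin (n + 1), Continuous fun x => f (bernstein.z k) • bb n k x := fun k =>
    continuous_const.mul (bb_cont n k)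
  have e : ∑ k : Fin (n + 1), f (bernstein.z k) • cfc (bb n k) a =
      cfc (∑ k : Fin (n + 1), fun x => f (bernstein.z k) • bb n k x) a := by
    rw [cfc_sum _ a univ fun k _ => (c k).continuousOn]
    exact sum_congr rfl fun k _ => (cfc_smul _ _ a (bb_cont n k).continuousOn).symm
  have c2 : Continuous (∑ k : Fin (n + 1), fun x => f (bernstein.z k) • bb n k x) := by
    rw [sum_fn]
    exact continuous_finsetSum _ fun k _ => c k
  rw [e, ← cfc_sub _ _ a c2.continuousOn hf.continuousOn]
  refine norm_cfc_le (norm_nonneg _) fun t ht => ?_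
  refine le_trans (le_of_eq ?_) ((bernsteinApproximation n F - F).norm_coe_le_norm ⟨t, ha.2 ht⟩)
  rw [ContinuousMap.sub_apply, bernsteinApproximation.apply, Finset.sum_apply]
  congr 2
  exact sum_congr rfl fun k _ => by rw [bernstein_apply, smul_eq_mul, smul_eq_mul, mul_comm]; rfl

lemma jp [PartialOrder E] [StarOrderedRing E] (h : Tr τ) {a b : E} (ha : Ctr a) (hb : Ctr b)
    {ι : Type} [Fintype ι] (f g : ι → ℝ → ℝ) (hf : ∀ i, Continuous (f i))
    (hg : ∀ i, Continuous (g i))
    (H : ∀ x ∈ Set.Icc (0 : ℝ) 1, ∀ y ∈ Set.Icc (0 : ℝ) 1, 0 ≤ ∑ i, f i x * g i y) :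
    0 ≤ ∑ i, (τ (cfc (f i) a * cfc (g i) b)).re := by
  have ct : Continuous τ := AddMonoidHomClass.continuous_of_bound τ 1 fun x => by
    rw [one_mul]; exact h.norm_le x
  refine ge_of_tendsto' (tendsto_finsetSum univ fun i _ => (Complex.continuous_re.tendsto _).comp
    ((ct.tendsto _).comp ((bern ha (hf i)).mul_const (cfc (g i) b)))) fun n => ?_
  simp only [Function.comp, sum_mul, map_sum, Complex.re_sum]
  rw [sum_comm]
  refine sum_nonneg fun k _ => ?_
  have c : ∀ i, Continuous fun y => f i (bernstein.z k) • g i y := fun i =>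
    continuous_const.mul (hg i)
  have := h.mul_nonneg' (a := cfc (bb n k) a) (b := cfc (∑ i, fun y => f i (bernstein.z k) • g i y) b)
    (cfc_nonneg fun t ht => by
      obtain ⟨p, q⟩ := ha.2 ht
      have := sub_nonneg.2 q
      unfold bb
      positivity)
    (cfc_nonneg fun t ht => by
      rw [Finset.sum_apply]
      exact H _ (bernstein.z k).2 t (hb.2 ht))
  rw [cfc_sum _ b univ fun i _ => (c i).continuousOn, mul_sum, map_sum, Complex.re_sum] at this
  refine this.trans_eq (sum_congr rfl fun i _ => ?_)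
  rw [cfc_smul _ _ b (hg i).continuousOn, mul_smul_comm, smul_mul_assoc]

lemma tel (N n : ℕ) (t : ℝ) :
    ∑ u ∈ range n, rg N u t = max 0 (N * t - 1) - max 0 (N * t - (n + 1)) := by
  induction n with
  | zero => simp
  | succ n ih =>
    rw [sum_range_succ, ih, rg]
    push_cast
    generalize (N : ℝ) * t = s
    simp only [max_def, min_def]
    split_ifs <;> linarith

lemma pt (N : ℕ) {x y : ℝ} (h : y ≤ x) :
    ∑ u ∈ range N, (rg N u x - rg N u y) ^ 2 ≤ N * (x - y) := by
  have h1 : (N : ℝ) * y ≤ N * x := mul_le_mul_of_nonneg_left h (Nat.cast_nonneg N)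
  refine (sum_le_sum (g := fun u => rg N u x - rg N u y) fun u _ => ?_).trans ?_
  · have a : rg N u y ≤ rg N u x := max_le_max le_rfl (min_le_min le_rfl (by linarith))
    have b : 0 ≤ rg N u y := le_max_left _ _
    have c : rg N u x ≤ 1 := max_le zero_le_one (min_le_left _ _)
    nlinarith
  · rw [sum_sub_distrib, tel, tel, mul_sub]
    generalize (N : ℝ) * x = s at h1 ⊢
    generalize (N : ℝ) * y = s' at h1 ⊢
    simp only [max_def]
    split_ifs <;> linarith

lemma pt2 (N : ℕ) {κ : ℝ} (hκ : 0 < κ) {x y : ℝ} (hx : 0 ≤ x) (hy : 0 ≤ y) :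
    ∑ u ∈ range N, (rg N u x - rg N u y) ^ 2 ≤
      N * ((x + y - 2 * (√x * √y)) / (2 * κ) + κ * (x + y)) := by
  have k : ∀ x y : ℝ, 0 ≤ x → 0 ≤ y → x - y ≤ (x + y - 2 * (√x * √y)) / (2 * κ) + κ * (x + y) := by
    intro x y hx hy
    have a := Real.mul_self_sqrt hx
    have b := Real.mul_self_sqrt hy
    generalize √x = p at a ⊢
    generalize √y = q at b ⊢
    subst a b
    rw [← sub_le_iff_le_add, le_div_iff₀ (by positivity)]
    nlinarith [sq_nonneg (p - q - κ * (p + q)), sq_nonneg (κ * (p - q))]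
  rcases le_total y x with c | c
  · exact (pt N c).trans (mul_le_mul_of_nonneg_left (k x y hx hy) (Nat.cast_nonneg N))
  · have := (pt N c).trans (mul_le_mul_of_nonneg_left (k y x hy hx) (Nat.cast_nonneg N))
    rw [add_comm y, mul_comm √y] at this
    exact (sum_congr rfl fun u _ => by ring).trans_le this

lemma rg_cont (N u : ℕ) : Continuous (rg N u) := by unfold rg; fun_prop

end CON

open CON

theorem con [PartialOrder E] [StarOrderedRing E] (h : Tr τ) (N : ℕ) {a b r r' : E} (ha : Ctr a)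
    (hb : Ctr b) (hr : 0 ≤ r) (hr' : 0 ≤ r') (e : a + r = b + r') {κ : ℝ} (hκ : 0 < κ) :
    ∑ u ∈ range N, n2 τ (cfc (rg N u) a - cfc (rg N u) b) ≤
      N * (κ * ((τ a).re + (τ b).re) + ((τ r).re + (τ r').re) / κ) := by
  have p1 := ps h (AVG.ctr_iff.1 ha).1 (AVG.ctr_iff.1 hb).1 hr hr' e
  have k1 := jp h ha hb (ι := Fin N × Fin 3 ⊕ Fin 3)
    (Sum.elim (fun p => ![fun x => -(rg N p.1 x * rg N p.1 x), fun _ => 1, rg N p.1] p.2)
      ![fun x => (N / (2 * κ) + N * κ) • x, fun _ => 1, Real.sqrt])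
    (Sum.elim (fun p => ![fun _ => 1, fun x => -(rg N p.1 x * rg N p.1 x),
      fun x => (2 : ℝ) • rg N p.1 x] p.2)
      ![fun _ => 1, fun x => (N / (2 * κ) + N * κ) • x, fun x => (-(N / κ)) • √x])
    (by
      rintro (⟨u, i⟩ | i) <;> fin_cases i
      exacts [((rg_cont N u).mul (rg_cont N u)).neg, continuous_const, rg_cont N u,
        continuous_const.mul continuous_id, continuous_const, Real.continuous_sqrt])
    (by
      rintro (⟨u, i⟩ | i) <;> fin_cases i
      exacts [continuous_const, ((rg_cont N u).mul (rg_cont N u)).neg,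
        continuous_const.mul (rg_cont N u), continuous_const, continuous_const.mul continuous_id,
        continuous_const.mul Real.continuous_sqrt])
    (fun x hx y hy => by
      have := pt2 N hκ hx.1 hy.1
      rw [sum_range] at this
      simp only [Fintype.sum_sum_type, Fintype.sum_prod_type, Fin.sum_univ_three, Sum.elim_inl,
        Sum.elim_inr, Matrix.cons_val_zero, Matrix.cons_val_one, Matrix.cons_val_two,
        Matrix.head_cons, Matrix.tail_cons, smul_eq_mul]
      have e1 : ∑ u : Fin N, (-(rg N u x * rg N u x) * 1 + 1 * -(rg N u y * rg N u y) +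
          rg N u x * (2 * rg N u y)) = -∑ u : Fin N, (rg N u x - rg N u y) ^ 2 := by
        rw [← sum_neg_distrib]
        exact sum_congr rfl fun u _ => by ring
      rw [e1]
      refine le_trans (sub_nonneg.2 this) (le_of_eq ?_)
      field_simp
      ring)
  simp only [Fintype.sum_sum_type, Fintype.sum_prod_type, Fin.sum_univ_three, Sum.elim_inl,
    Sum.elim_inr, Matrix.cons_val_zero, Matrix.cons_val_one, Matrix.cons_val_two,
    Matrix.head_cons, Matrix.tail_cons] at k1
  have c := fun u => (rg_cont N u).continuousOn (s := spectrum ℝ a)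
  have c' := fun u => (rg_cont N u).continuousOn (s := spectrum ℝ b)
  have e2 : ∑ u : Fin N, ((τ (cfc (fun x => -(rg N u x * rg N u x)) a * cfc (fun _ : ℝ => (1 : ℝ)) b)).re
      + (τ (cfc (fun _ : ℝ => (1 : ℝ)) a * cfc (fun x => -(rg N u x * rg N u x)) b)).re +
      (τ (cfc (rg N u) a * cfc (fun x => (2 : ℝ) • rg N u x) b)).re) =
      -∑ u ∈ range N, n2 τ (cfc (rg N u) a - cfc (rg N u) b) := by
    rw [sum_range, ← sum_neg_distrib]
    refine sum_congr rfl fun u _ => ?_
    rw [cfc_const_one ℝ a ha.1, cfc_const_one ℝ b hb.1, cfc_neg, cfc_neg, cfc_mul _ _ a (c u) (c u),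
      cfc_mul _ _ b (c' u) (c' u), cfc_smul _ _ b (c' u), n2,
      ((cfc_predicate (rg N u) a).sub (cfc_predicate (rg N u) b)).star_eq, mul_one, one_mul,
      mul_smul_comm, AVG.re_smul, sub_mul, mul_sub, mul_sub]
    simp only [map_sub, map_neg, Complex.sub_re, Complex.neg_re, h.comm (cfc (rg N u) b)
      (cfc (rg N u) a)]
    ring
  rw [e2, cfc_const_one ℝ a ha.1, cfc_const_one ℝ b hb.1, cfc_smul _ _ a, cfc_smul _ _ b,
    cfc_smul _ _ b, cfc_id' ℝ a ha.1, cfc_id' ℝ b hb.1, mul_one, one_mul, mul_smul_comm,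
    AVG.re_smul, AVG.re_smul, AVG.re_smul] at k1
  have e3 : (rt a - rt b) ^ 2 = rt a * rt a + rt b * rt b - rt a * rt b - rt b * rt a := by
    noncomm_ring
  rw [e3, SM.rt_sq ha, SM.rt_sq hb, map_sub, map_sub, map_add, h.comm (rt b)] at p1
  simp only [Complex.sub_re, Complex.add_re] at p1
  have k2 := mul_le_mul_of_nonneg_left p1 (show (0 : ℝ) ≤ N / (2 * κ) by positivity)
  have e4 : (N : ℝ) / κ = 2 * (N / (2 * κ)) := by field_simp
  have e5 : N * (κ * ((τ a).re + (τ b).re) + ((τ r).re + (τ r').re) / κ) =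
      N * κ * ((τ a).re + (τ b).re) + N / (2 * κ) * (2 * (τ r).re + 2 * (τ r').re) := by
    field_simp
  rw [e4] at k1
  rw [e5]
  unfold rt at k2
  nlinarith

end Vale.Agent.P095M
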