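import Vale.Agent.P095M.Work
import Vale.Agent.P095G.PartEXT

/-! PART FAC. -/

namespace Vale.Agent.P095M

open Filter Topology Finset Vale.Agent.P101 Vale.Agent.P095 Vale.Agent.P095G TopologicalSpace

variable {A D E F : Type} [CStarAlgebra A] [CStarAlgebra D] [CStarAlgebra E] [CStarAlgebra F]
  {G : Type} [Group G] {ρ : D →ₗ[ℂ] ℂ} {τ : E →ₗ[ℂ] ℂ} {ω : Ultrafilter ℕ}

theorem fac {ι κ : Type} [Fintype ι] [Fintype κ] {θ : ι → D →⋆ₐ[ℂ] E} (hθ : Cm θ) (x : κ → ι → D)
    {r : ℝ} (hr : ∀ ρ : ι → D →ₗ[ℂ] ℂ, (∀ i, Tr (ρ i)) → ‖∑ k, ∏ i, ρ i (x k i)‖ ≤ r)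
    (hτ : Tr τ) : ‖∑ k, τ (Ten hθ (x k))‖ ≤ r := by
  classical
  obtain ⟨B, _, e, η, h1, h2, h3⟩ := sys hθ
  obtain rfl : θ = fun i => e.comp (η i) := funext fun i => StarAlgHom.ext fun d => (h3 i d).symm
  simp only [← ten_map h1 e hθ]
  have hK : EXT.St B ⊆ {f : B → ℂ | ‖∑ k, f (Ten h1 (x k))‖ ≤ r} := by
    rw [← closure_convexHull_extremePoints EXT.compact EXT.convex]
    refine closure_minimal (convexHull_min ?_ ?_) (isClosed_le (by fun_prop) continuous_const)
    · intro f hf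
      obtain ⟨σ, hσ, rfl⟩ := extremePoints_subset hf
      have : ∀ (y : ι → D) (s : Finset ι)
          (hs : (s : Set ι).Pairwise (Function.onFun Commute fun i => η i (y i))),
          σ (s.noncommProd (fun i => η i (y i)) hs) = ∏ i ∈ s, σ (η i (y i)) := fun y s => by
        induction s using Finset.induction_on with
        | empty => intro hs; rw [noncommProd_empty, hσ.one, prod_empty]
        | insert i s hi ih =>
          intro hs
          rw [noncommProd_insert_of_notMem _ _ _ _ hi, EXT.factor h1 h2 hσ hf i (y i) fun d =>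
            (noncommProd_commute _ _ _ _ fun j hj => h1 i j (fun e => hi (e ▸ hj)) d (y j)).symm,
            prod_insert hi, ih]
      have h4 := hr (fun i => σ ∘ₗ (η i).toAlgHom.toLinearMap) fun i => hσ.comp (η i)
      show ‖∑ k, σ (Ten h1 (x k))‖ ≤ r
      have h6 : ∑ k, σ (Ten h1 (x k)) = ∑ k, ∏ i, σ (η i (x k i)) :=
        sum_congr rfl fun k _ => this (x k) univ _
      rw [h6]
      exact h4
    · intro f hf g hg a b ha hb hab
      show ‖∑ k, (a • f (Ten h1 (x k)) + b • g (Ten h1 (x k)))‖ ≤ r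
      rw [sum_add_distrib, ← smul_sum, ← smul_sum]
      refine (norm_add_le _ _).trans ?_
      rw [norm_smul, norm_smul, Real.norm_of_nonneg ha, Real.norm_of_nonneg hb]
      have h5 := add_le_add (mul_le_mul_of_nonneg_left hf ha) (mul_le_mul_of_nonneg_left hg hb)
      rwa [← add_mul, hab, one_mul] at h5
  exact hK ⟨_, hτ.comp e, rfl⟩

end Vale.Agent.P095M
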