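import Vale.Agent.P095M.Work
import Vale.Agent.P095G.PartJM
import Vale.Agent.P095G.PartEXP

/-! PART HASH. -/

namespace Vale.Agent.P095M

open Filter Topology Finset Vale.Agent.P101 Vale.Agent.P095 Vale.Agent.P095G TopologicalSpace

namespace HASH

/-- Chord length. -/
noncomputable def ch (x : ℝ) : ℝ := ‖Complex.exp (Complex.I * x) - 1‖

theorem ch_add (x y : ℝ) : ch (x + y) ≤ ch x + ch y := by
  have e : Complex.exp (Complex.I * (x + y : ℝ)) - 1 = (Complex.exp (Complex.I * x) - 1) +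
      Complex.exp (Complex.I * x) * (Complex.exp (Complex.I * y) - 1) := by
    rw [Complex.ofReal_add, mul_add, Complex.exp_add]
    ring
  rw [ch, e]
  refine (norm_add_le _ _).trans (le_of_eq ?_)
  rw [norm_mul, Complex.norm_exp_I_mul_ofReal, one_mul, ch, ch]

theorem ch_neg (x : ℝ) : ch (-x) = ch x := by
  have e : Complex.exp (Complex.I * (-x : ℝ)) - 1 =
      Complex.exp (Complex.I * (-x : ℝ)) * (1 - Complex.exp (Complex.I * x)) := by
    rw [mul_sub, ← Complex.exp_add]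
    simp
  rw [ch, e, norm_mul, Complex.norm_exp_I_mul_ofReal, one_mul, norm_sub_rev, ch]

theorem ch_mul (n : ℕ) (x : ℝ) : ch (n * x) ≤ n * ch x := by
  induction n with
  | zero => simp [ch]
  | succ n ih =>
    rw [Nat.cast_succ, add_mul, add_mul, one_mul, one_mul]
    exact (ch_add _ _).trans (by linarith)

theorem ch_cos (x : ℝ) : 1 - ch x ≤ Real.cos x := by
  have := Complex.re_le_norm (1 - Complex.exp (Complex.I * x))
  rw [norm_sub_rev, Complex.sub_re, mul_comm, Complex.exp_ofReal_mul_I_re, Complex.one_re,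
    mul_comm] at this
  unfold ch
  linarith

theorem ch_per (x : ℝ) (n : ℤ) : ch (x + n * (2 * Real.pi)) = ch x := by
  have e : Complex.I * (x + n * (2 * Real.pi) : ℝ) =
      Complex.I * x + n * (2 * Real.pi * Complex.I) := by
    push_cast
    ring
  rw [ch, e, Complex.exp_add, Complex.exp_int_mul_two_pi_mul_I, mul_one, ch]

theorem ch_cont : Continuous ch := by
  unfold ch
  fun_prop

/-- Frequencies. -/
def kk {R : ℕ} (p : Fin R × Fin R) : ℤ := (p.1 : ℤ) - (p.2 : ℤ)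

/-- The Fejer kernel. -/
noncomputable def K (R : ℕ) (x : ℝ) : ℝ := (∑ p : Fin R × Fin R, Real.cos (kk p * x)) / R ^ 2

theorem K_eq (R : ℕ) (x : ℝ) : K R x =
    ((∑ a : Fin R, Real.cos (a * x)) ^ 2 + (∑ a : Fin R, Real.sin (a * x)) ^ 2) / R ^ 2 := by
  rw [K, sq (∑ _a, _), sq (∑ _a, _), sum_mul_sum, sum_mul_sum, ← sum_add_distrib,
    Fintype.sum_prod_type]
  congr 1
  refine sum_congr rfl fun a _ => ?_
  rw [← sum_add_distrib]
  refine sum_congr rfl fun b _ => ?_
  rw [← Real.cos_sub, kk]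
  push_cast
  ring_nf

theorem K_nonneg (R : ℕ) (x : ℝ) : 0 ≤ K R x := by
  rw [K_eq]
  positivity

theorem K_low {R : ℕ} (hR : 0 < R) {x δ : ℝ} (h : R * ch x ≤ δ) (h1 : δ ≤ 1) :
    (1 - δ) ^ 2 ≤ K R x := by
  have r0 : (0 : ℝ) < R := Nat.cast_pos.2 hR
  have c0 : 0 ≤ ch x := norm_nonneg _
  have a : R * (1 - δ) ≤ ∑ a : Fin R, Real.cos (a * x) := by
    have := card_nsmul_le_sum (univ : Finset (Fin R)) (fun a => Real.cos (a * x)) (1 - δ)
      fun a _ => by
        have b1 := ch_cos (a * x)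
        have b2 := ch_mul a x
        have b3 : ((a : ℕ) : ℝ) ≤ R := by exact_mod_cast a.2.le
        have b4 := mul_le_mul_of_nonneg_right b3 c0
        linarith
    rwa [card_univ, Fintype.card_fin, nsmul_eq_mul] at this
  rw [K_eq, le_div_iff₀ (by positivity)]
  have := pow_le_pow_left₀ (mul_nonneg r0.le (by linarith)) a 2
  nlinarith [sq_nonneg (∑ a : Fin R, Real.sin (a * x))]

theorem orth {N : ℕ} {k : ℤ} (hk : k ≠ 0) (hN : |k| < N) (t : ℝ) :
    ∑ s : Fin N, Real.cos (k * (t - 2 * Real.pi * s / N)) = 0 := by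
  have n0 : (0 : ℝ) < N := by
    have : (0 : ℤ) < N := (abs_nonneg k).trans_lt hN
    exact_mod_cast this
  have n1 : (N : ℂ) ≠ 0 := by exact_mod_cast n0.ne'
  obtain ⟨z, hz⟩ : ∃ z : ℂ, z = Complex.exp (-(k * (2 * Real.pi * Complex.I) / N)) := ⟨_, rfl⟩
  have z1 : z ≠ 1 := fun h => by
    rw [hz, Complex.exp_eq_one_iff] at h
    obtain ⟨n, hn⟩ := h
    have h2 : (k : ℂ) = -(n * N) := by
      have := Complex.two_pi_I_ne_zero
      field_simp at hn
      linear_combination -hn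
    have h3 : k = -(n * N) := by exact_mod_cast h2
    have h4 : n ≠ 0 := fun h => hk (by rw [h3, h]; simp)
    have h5 := Int.one_le_abs h4
    rw [h3, abs_neg, abs_mul, Nat.abs_cast] at hN
    nlinarith [Int.natCast_nonneg N]
  have z2 : z ^ N = 1 := by
    rw [hz, ← Complex.exp_nat_mul, ← Complex.exp_int_mul_two_pi_mul_I (-k)]
    congr 1
    push_cast
    field_simp
  have z3 : ∑ s : Fin N, z ^ (s : ℕ) = 0 := by
    rw [Fin.sum_univ_eq_sum_range (fun s => z ^ s) N, geom_sum_eq z1, z2]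
    simp
  have e : ∀ s : Fin N, Real.cos (k * (t - 2 * Real.pi * s / N)) =
      (Complex.exp ((k * t : ℝ) * Complex.I) * z ^ (s : ℕ)).re := fun s => by
    rw [hz, ← Complex.exp_nat_mul, ← Complex.exp_add, ← Complex.exp_ofReal_mul_I_re]
    congr 2
    push_cast
    ring
  simp only [e]
  rw [← Complex.re_sum, ← mul_sum, z3]
  simp

theorem kk_lt {R : ℕ} (p : Fin R × Fin R) : |kk p| < R := by
  have := p.1.2
  have := p.2.2
  rw [kk, abs_lt]
  omega

theorem kk_zero {R : ℕ} (p : Fin R × Fin R) : kk p = 0 ↔ p.1 = p.2 := by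
  rw [kk, sub_eq_zero, Fin.ext_iff]
  omega

theorem diag {R : ℕ} (c : ℝ) : ∑ p : Fin R × Fin R, (if p.1 = p.2 then c else 0) = R * c := by
  rw [Fintype.sum_prod_type]
  simp

theorem frame {R : ℕ} (hR : 0 < R) (t : ℝ) :
    ∑ s : Fin (7 * R), K R (t - 2 * Real.pi * s / (7 * R : ℕ)) = 7 := by
  have r0 : (0 : ℝ) < R := Nat.cast_pos.2 hR
  unfold K
  rw [← sum_div, sum_comm, sum_congr rfl (g := fun p => if p.1 = p.2 then (7 * R : ℝ) else 0), diag]
  · field_simp
  · intro p _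
    split_ifs with h
    · simp [(kk_zero p).2 h]
    · refine orth (mt (kk_zero p).1 h) ((kk_lt p).trans_le ?_) t
      push_cast
      omega

theorem cover {R : ℕ} (hR : 0 < R) (t : ℝ) :
    ∃ s : Fin (7 * R), ch (t - 2 * Real.pi * s / (7 * R : ℕ)) < 0.45 / R := by
  have r0 : (0 : ℝ) < R := Nat.cast_pos.2 hR
  have p0 := Real.pi_pos
  obtain ⟨n, hn⟩ : ∃ n : ℤ, n = round (t * (7 * R) / (2 * Real.pi)) := ⟨_, rfl⟩
  have N0 : (0 : ℤ) < (7 * R : ℕ) := by omega
  have m0 := Int.emod_nonneg n N0.ne'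
  have m1 := Int.emod_lt_of_pos n N0
  refine ⟨⟨(n % (7 * R : ℕ)).toNat, by omega⟩, ?_⟩
  have e1 : (((n % (7 * R : ℕ)).toNat : ℕ) : ℝ) = n - (7 * R) * ((n / (7 * R : ℕ) : ℤ) : ℝ) := by
    have : (((n % (7 * R : ℕ)).toNat : ℕ) : ℤ) = n - (7 * R : ℕ) * (n / (7 * R : ℕ)) := by
      rw [Int.toNat_of_nonneg m0, Int.emod_def]
    exact_mod_cast this
  have e2 : t - 2 * Real.pi * (((n % (7 * R : ℕ)).toNat : ℕ) : ℝ) / (7 * R : ℕ) =
      2 * Real.pi / (7 * R) * (t * (7 * R) / (2 * Real.pi) - n) +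
        ((n / (7 * R : ℕ) : ℤ) : ℝ) * (2 * Real.pi) := by
    have e3 : ((7 * R : ℕ) : ℝ) = 7 * R := by push_cast; ring
    rw [e1, e3]
    generalize ((n / (7 * R : ℕ) : ℤ) : ℝ) = w
    field_simp
    ring
  show ch (t - 2 * Real.pi * (((n % (7 * R : ℕ)).toNat : ℕ) : ℝ) / (7 * R : ℕ)) < _
  rw [e2, ch_per]
  refine Real.norm_exp_I_mul_ofReal_sub_one_le.trans_lt ?_
  have h1 := abs_sub_round (t * (7 * R) / (2 * Real.pi))
  rw [← hn] at h1
  rw [Real.norm_eq_abs, abs_mul, abs_of_pos (by positivity)]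
  refine (mul_le_mul_of_nonneg_left h1 (by positivity)).trans_lt ?_
  rw [div_mul_div_comm, div_lt_div_iff₀ (by positivity) r0]
  nlinarith [Real.pi_lt_d2]

variable {E : Type} [CStarAlgebra E] {τ : E →ₗ[ℂ] ℂ}

theorem jm2 (h : Tr τ) {a b : E} (ha : IsSelfAdjoint a) (hb : IsSelfAdjoint b) {d : E}
    (hd : IsSelfAdjoint d) (hc : Commute d a) {ι : Type} [Fintype ι] (f g : ι → ℝ → ℝ)
    (hf : ∀ i, Continuous (f i)) (hg : ∀ i, Continuous (g i))
    (H : ∀ p q, 0 ≤ ∑ i, f i p * g i q) :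
    0 ≤ ∑ i, (τ (d ^ 2 * cfc (f i) a * cfc (g i) b)).re := by
  obtain ⟨M, hM⟩ : ∃ M : ℝ, M = ‖b‖ + 1 := ⟨_, rfl⟩
  have M0 : 0 < M := by rw [hM]; positivity
  have c1 : Continuous fun t : ℝ => max 0 (min 1 ((t + M) / (2 * M))) := by fun_prop
  have := jm h ha (Ctr.cfc (a := b) (f := fun t : ℝ => max 0 (min 1 ((t + M) / (2 * M))))
    fun t => ⟨le_max_left _ _, max_le zero_le_one (min_le_left _ _)⟩) d univ f
    (fun i q => g i (2 * M * q - M)) hf (fun i => by fun_prop) fun p _ q _ => H p _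
  refine this.trans_eq (sum_congr rfl fun i _ => ?_)
  rw [hd.star_eq, mul_assoc d, ← (hc.symm.cfc_real (f i)).symm.eq, ← mul_assoc, ← sq,
    ← cfc_comp' (fun q => g i (2 * M * q - M)) _ b (by fun_prop) c1.continuousOn]
  congr 3
  refine cfc_congr fun t ht => ?_
  have h1 : |t| ≤ ‖b‖ := by
    have := norm_apply_le_norm_cfc (fun x : ℝ => x) b ht
    rwa [cfc_id' ℝ b] at this
  have h2 := abs_le.1 h1
  show g i (2 * M * max 0 (min 1 ((t + M) / (2 * M))) - M) = g i t
  rw [min_eq_right ((div_le_one (by positivity)).2 (by linarith)),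
    max_eq_right (div_nonneg (by linarith) (by positivity))]
  congr 1
  field_simp
  ring

theorem re_ex (h : Tr τ) {a b d : E} (ha : IsSelfAdjoint a) (hb : IsSelfAdjoint b)
    (hd : IsSelfAdjoint d) (hc : Commute d a) (k l : ℝ) :
    (τ (d ^ 2 * ex k a * ex l b)).re =
      (τ (d ^ 2 * cfc (fun t => Real.cos (k * t)) a * cfc (fun t => Real.cos (l * t)) b)).re -
      (τ (d ^ 2 * cfc (fun t => Real.sin (k * t)) a * cfc (fun t => Real.sin (l * t)) b)).re := by
  have im : ∀ f g : ℝ → ℝ, (τ (d ^ 2 * cfc f a * cfc g b)).im = 0 := fun f g => by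
    have s1 : IsSelfAdjoint (cfc f a) := cfc_predicate f a
    have s2 : IsSelfAdjoint (cfc g b) := cfc_predicate g b
    have s3 : IsSelfAdjoint (d ^ 2 * cfc f a) :=
      (IsSelfAdjoint.commute_iff (hd.pow 2) s1).1 ((hc.symm.cfc_real f).symm.pow_left 2)
    have := h.map_star' (d ^ 2 * cfc f a * cfc g b)
    rw [star_mul, s2.star_eq, s3.star_eq, h.comm] at this
    exact Complex.conj_eq_iff_im.1 this.symm
  rw [EXPx.ex_cos_sin ha, EXPx.ex_cos_sin hb]
  simp only [mul_add, add_mul, mul_smul_comm, smul_mul_assoc, map_add, map_smul, smul_eq_mul,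
    Complex.add_re, Complex.mul_re, Complex.add_im, Complex.mul_im, Complex.I_re, Complex.I_im, im]
  ring

end HASH

open HASH in
theorem hash (R : ℕ) (hR : 0 < R) : ∃ f : Fin (7 * R) → ℝ → ℝ, (∀ s, Continuous (f s)) ∧
    (∀ s t, f s t ∈ Set.Icc (0 : ℝ) 1) ∧ (∀ t, ∑ s, f s t = 1) ∧ (∀ t, ∑ s, √(f s t) ≤ 28) ∧
    ∀ (E : Type) [CStarAlgebra E] (τ : E →ₗ[ℂ] ℂ), Tr τ → ∀ (ι : Type) [Fintype ι]
      (d Z Z' : ι → E) (η : ℝ), (∀ i, IsSelfAdjoint (d i) ∧ IsSelfAdjoint (Z i) ∧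
        IsSelfAdjoint (Z' i) ∧ Commute (d i) (Z i) ∧ Commute (d i) (Z' i)) →
      (∀ a : ℤ, a ≠ 0 → |a| < R → ‖∑ i, τ (d i ^ 2 * ex a (Z i) * ex (-a) (Z' i))‖ ≤ η) → 0 ≤ η →
      ∑ i, ∑ s, (τ (d i ^ 2 * cfc (f s) (Z i) * cfc (f s) (Z' i))).re ≤
        112 * ((∑ i, (τ (d i ^ 2)).re) / R + 2 * η) := by
  have r0 : (0 : ℝ) < R := Nat.cast_pos.2 hR
  obtain ⟨b, hb⟩ : ∃ b : Fin (7 * R) → ℝ → ℝ, ∀ s t,
      b s t = max 0 (0.45 / R - ch (t - 2 * Real.pi * s / (7 * R : ℕ))) := ⟨_, fun _ _ => rfl⟩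
  have b0 : ∀ s t, 0 ≤ b s t := fun s t => by rw [hb]; exact le_max_left _ _
  have bc : ∀ s, Continuous (b s) := fun s => by
    rw [funext (hb s)]
    exact continuous_const.max (continuous_const.sub (ch_cont.comp (by fun_prop)))
  have b1 : ∀ t, 0 < ∑ s, b s t := fun t => by
    obtain ⟨s, hs⟩ := cover hR t
    exact sum_pos' (fun s _ => b0 s t) ⟨s, mem_univ _, by
      rw [hb]; exact lt_max_of_lt_right (sub_pos.2 hs)⟩
  obtain ⟨f, hf⟩ : ∃ f : Fin (7 * R) → ℝ → ℝ, ∀ s t, f s t = b s t / ∑ s, b s t :=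
    ⟨_, fun _ _ => rfl⟩
  have fc : ∀ s, Continuous (f s) := fun s => by
    rw [funext (hf s)]
    exact (bc s).div (continuous_finset_sum _ fun s _ => bc s) fun t => (b1 t).ne'
  have f0 : ∀ s t, 0 ≤ f s t := fun s t => by rw [hf]; exact div_nonneg (b0 s t) (b1 t).le
  have f1 : ∀ s t, f s t ≤ 1 := fun s t => by
    rw [hf, div_le_one (b1 t)]
    exact single_le_sum (f := fun s => b s t) (fun s _ => b0 s t) (mem_univ s)
  have f2 : ∀ t, ∑ s, f s t = 1 := fun t => by
    simp only [hf]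
    rw [← sum_div, div_self (b1 t).ne']
  have f3 : ∀ s t, f s t ≠ 0 → R * ch (t - 2 * Real.pi * s / (7 * R : ℕ)) ≤ 0.45 := fun s t h => by
    rw [← le_div_iff₀' r0]
    by_contra h2
    exact h (by rw [hf, hb, max_eq_left (by linarith), zero_div])
  have f4 : ∀ p q, ∑ s, f s p * f s q ≤ 100 * K R (p - q) := fun p q => by
    by_cases h : ∃ s, f s p ≠ 0 ∧ f s q ≠ 0
    · obtain ⟨s, h1, h2⟩ := h
      have a1 := ch_add (p - 2 * Real.pi * s / (7 * R : ℕ)) (-(q - 2 * Real.pi * s / (7 * R : ℕ)))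
      rw [ch_neg, show p - 2 * Real.pi * s / (7 * R : ℕ) + -(q - 2 * Real.pi * s / (7 * R : ℕ)) =
        p - q by ring] at a1
      have a2 := K_low hR (x := p - q) (δ := 0.9) (by
        have := mul_le_mul_of_nonneg_left a1 r0.le
        linarith [f3 s p h1, f3 s q h2]) (by norm_num)
      have a3 : ∑ s, f s p * f s q ≤ ∑ s, f s p :=
        sum_le_sum fun s _ => mul_le_of_le_one_right (f0 s p) (f1 s q)
      rw [f2] at a3
      linarith
    · rw [sum_eq_zero fun s _ => by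
        by_contra h2
        exact h ⟨s, left_ne_zero_of_mul h2, right_ne_zero_of_mul h2⟩]
      exact mul_nonneg (by norm_num) (K_nonneg R _)
  refine ⟨f, fc, fun s t => ⟨f0 s t, f1 s t⟩, f2, fun t => ?_,
    fun E _ τ hτ ι _ d Z Z' η h1 h2 h3 => ?_⟩
  · have : ∑ s, √(f s t) ≤ ∑ s : Fin (7 * R), 4 * K R (t - 2 * Real.pi * s / (7 * R : ℕ)) :=
      sum_le_sum fun s _ => by
        by_cases h : f s t = 0
        · rw [h, Real.sqrt_zero]
          exact mul_nonneg (by norm_num) (K_nonneg R _)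
        · have a1 := K_low hR (f3 s t h) (by norm_num)
          have a2 := Real.sqrt_le_one.2 (f1 s t)
          linarith
    rw [← mul_sum, frame hR] at this
    linarith
  · have key : ∀ i, ∑ s, (τ (d i ^ 2 * cfc (f s) (Z i) * cfc (f s) (Z' i))).re ≤
        100 / R ^ 2 * ∑ p : Fin R × Fin R,
          (τ (d i ^ 2 * ex (kk p) (Z i) * ex (-(kk p)) (Z' i))).re := fun i => by
      obtain ⟨s1, s2, s3, s4, -⟩ := h1 i
      have := jm2 hτ s2 s3 s1 s4 (ι := Fin (7 * R) ⊕ (Fin R × Fin R) ⊕ (Fin R × Fin R))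
        (Sum.elim (fun s t => (-1) * f s t)
          (Sum.elim (fun p t => 100 / R ^ 2 * Real.cos (kk p * t))
            (fun p t => -(100 / R ^ 2) * Real.sin (kk p * t))))
        (Sum.elim f (Sum.elim (fun p t => Real.cos (-(kk p) * t))
          (fun p t => Real.sin (-(kk p) * t))))
        (by rintro (s | p | p) <;> simp only [Sum.elim_inl, Sum.elim_inr] <;> fun_prop)
        (by rintro (s | p | p) <;> simp only [Sum.elim_inl, Sum.elim_inr] <;> fun_prop)
        (fun p q => by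
          have a := f4 p q
          have e : 100 * K R (p - q) = ∑ r : Fin R × Fin R, (100 / R ^ 2 * Real.cos (kk r * p) *
              Real.cos (-(kk r) * q) +
              -(100 / R ^ 2) * Real.sin (kk r * p) * Real.sin (-(kk r) * q)) := by
            rw [K, sum_div, mul_sum]
            refine sum_congr rfl fun r _ => ?_
            rw [show (kk r : ℝ) * (p - q) = kk r * p + -(kk r) * q by ring, Real.cos_add]
            ring
          rw [e, sum_add_distrib] at a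
          simp only [Fintype.sum_sum_type, Sum.elim_inl, Sum.elim_inr, neg_one_mul, neg_mul,
            one_mul, sum_neg_distrib] at a ⊢
          linarith)
      letI i1 := CStarAlgebra.spectralOrder E
      haveI i2 := CStarAlgebra.spectralOrderedRing E
      have cm : ∀ (c : ℝ) (F : ℝ → ℝ) (y : E), Continuous F →
          (τ (d i ^ 2 * cfc (fun t => c * F t) (Z i) * y)).re =
            c * (τ (d i ^ 2 * cfc F (Z i) * y)).re := fun c F y hF => by
        rw [cfc_const_mul c F (Z i) hF.continuousOn, mul_smul_comm, smul_mul_assoc, Rot.re_smul]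
      rw [Fintype.sum_sum_type, Fintype.sum_sum_type] at this
      dsimp only [Sum.elim_inl, Sum.elim_inr] at this
      rw [sum_congr rfl fun s _ => cm (-1) (f s) _ (fc s),
        sum_congr rfl fun (p : Fin R × Fin R) _ =>
          cm (100 / R ^ 2) (fun t => Real.cos (kk p * t)) _ (by fun_prop),
        sum_congr rfl fun (p : Fin R × Fin R) _ =>
          cm (-(100 / R ^ 2)) (fun t => Real.sin (kk p * t)) _ (by fun_prop),
        ← mul_sum, ← mul_sum, ← mul_sum] at this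
      rw [sum_congr rfl fun (p : Fin R × Fin R) _ => re_ex hτ s2 s3 s1 s4 (kk p) (-(kk p)),
        sum_sub_distrib]
      linarith
    have D0 : 0 ≤ ∑ i, (τ (d i ^ 2)).re := sum_nonneg fun i _ => hτ.sq_nonneg' (h1 i).1
    refine (sum_le_sum fun i _ => key i).trans ?_
    rw [← mul_sum, sum_comm]
    have a : ∑ p : Fin R × Fin R, ∑ i, (τ (d i ^ 2 * ex (kk p) (Z i) * ex (-(kk p)) (Z' i))).re ≤
        ∑ p : Fin R × Fin R, ((if p.1 = p.2 then ∑ i, (τ (d i ^ 2)).re else 0) + η) :=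
      sum_le_sum fun p _ => by
        split_ifs with h
        · simp [(kk_zero p).2 h, ex, h3]
        · rw [← Complex.re_sum, zero_add]
          exact (Complex.re_le_norm _).trans (h2 (kk p) (mt (kk_zero p).1 h) (kk_lt p))
    rw [sum_add_distrib, HASH.diag, sum_const, card_univ, Fintype.card_prod, Fintype.card_fin,
      nsmul_eq_mul] at a
    refine (mul_le_mul_of_nonneg_left a (by positivity)).trans ?_
    have e : 100 / (R : ℝ) ^ 2 * (R * ∑ i, (τ (d i ^ 2)).re + (R * R : ℕ) * η) =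
        100 * ((∑ i, (τ (d i ^ 2)).re) / R + η) := by
      push_cast
      field_simp
    rw [e]
    have : 0 ≤ (∑ i, (τ (d i ^ 2)).re) / R := by positivity
    linarith

end Vale.Agent.P095M
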