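import Vale.Agent.P095M.Work
import Vale.Agent.P095G.PartCIRC
import Vale.Agent.P095G.PartUC
import Vale.Agent.P095G.PartFIN

/-! Part NM: the two-norm toolkit. -/

namespace Vale.Agent.P095M

open Finset Vale.Agent.P101 Vale.Agent.P095G

variable {D : Type} [CStarAlgebra D] {ρ : D →ₗ[ℂ] ℂ}

theorem n2_nonneg (h : Tr ρ) (x : D) : 0 ≤ n2 ρ x := (h.pos x).1
theorem n2_star (h : Tr ρ) (x : D) : n2 ρ (star x) = n2 ρ x := CI.Q_star h x
theorem n2_neg (x : D) : n2 ρ (-x) = n2 ρ x := by rw [n2, n2, star_neg, neg_mul_neg]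
theorem n2_add (h : Tr ρ) (x y : D) : n2 ρ (x + y) ≤ 2 * n2 ρ x + 2 * n2 ρ y := CI.Q_add h x y
theorem n2_tri (h : Tr ρ) (x y : D) : √(n2 ρ (x + y)) ≤ √(n2 ρ x) + √(n2 ρ y) := by
  have a := n2_nonneg h x
  have b := n2_nonneg h y
  have c : ∀ x y : D, (ρ (star x * y)).re ≤ √(n2 ρ x) * √(n2 ρ y) := fun x y => by
    rw [← Real.sqrt_mul (n2_nonneg h x)]
    exact (Complex.re_le_norm _).trans (Real.le_sqrt_of_sq_le (h.cs x y))
  refine Real.sqrt_le_iff.2 ⟨by positivity, ?_⟩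
  have e : n2 ρ (x + y) = n2 ρ x + n2 ρ y + (ρ (star x * y)).re + (ρ (star y * x)).re := by
    simp only [n2, star_add, add_mul, mul_add, map_add, Complex.add_re]
    ring
  rw [e, add_sq, Real.sq_sqrt a, Real.sq_sqrt b]
  linarith [c x y, c y x]
theorem n2_mul_left (h : Tr ρ) (a x : D) : n2 ρ (a * x) ≤ ‖a‖ ^ 2 * n2 ρ x := CI.Q_left h a x
theorem n2_mul_right (h : Tr ρ) (x a : D) : n2 ρ (x * a) ≤ ‖a‖ ^ 2 * n2 ρ x := CI.Q_right h x a
theorem n2_sub (h : Tr ρ) (x y : D) : n2 ρ (x - y) ≤ 2 * n2 ρ x + 2 * n2 ρ y := by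
  have := n2_add h x (-y)
  rwa [n2_neg, ← sub_eq_add_neg] at this
theorem n2_smul (c : ℝ) (x : D) : n2 ρ (c • x) = c ^ 2 * n2 ρ x := by
  rw [n2, n2, star_smul, star_trivial, smul_mul_smul_comm, ← Complex.coe_smul, map_smul,
    smul_eq_mul, Complex.re_ofReal_mul, sq]
theorem n2_sum (h : Tr ρ) {ι : Type} (s : Finset ι) (x : ι → D) :
    n2 ρ (∑ i ∈ s, x i) ≤ s.card * ∑ i ∈ s, n2 ρ (x i) := by
  have k : ∀ i j, (ρ (star (x i) * x j)).re + (ρ (star (x j) * x i)).re ≤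
      n2 ρ (x i) + n2 ρ (x j) := fun i j => by
    have a := n2_nonneg h (x i - x j)
    simp only [n2, star_sub, sub_mul, mul_sub, map_sub, Complex.sub_re] at a ⊢
    linarith
  have e : n2 ρ (∑ i ∈ s, x i) = ∑ i ∈ s, ∑ j ∈ s, (ρ (star (x i) * x j)).re := by
    simp only [n2, star_sum, sum_mul_sum, map_sum, Complex.re_sum]
  have k2 := sum_le_sum (s := s) fun i _ => sum_le_sum (s := s) fun j _ => k i j
  simp only [sum_add_distrib, sum_const, nsmul_eq_mul, ← mul_sum] at k2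
  rw [sum_comm (f := fun i j => (ρ (star (x j) * x i)).re), ← e] at k2
  linarith

namespace NM

lemma pw (n : ℕ) : ∃ C : ℝ, 0 ≤ C ∧ ∀ (E : Type) [CStarAlgebra E] (τ : E →ₗ[ℂ] ℂ), Tr τ →
    ∀ h x : E, ‖h‖ ≤ 1 → n2 τ (h ^ n * x - x * h ^ n) ≤ C * n2 τ (h * x - x * h) := by
  induction n with
  | zero => exact ⟨0, le_rfl, fun E _ τ _ h x _ => by simp [n2]⟩
  | succ n ih =>
    obtain ⟨C, hC, H⟩ := ih
    refine ⟨2 * C + 2 * C + 2 * (2 * 1 + 2 * 0) + 2, by positivity, fun E _ τ hτ h x h1 => ?_⟩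
    have h2 : ‖h‖ ^ 2 ≤ 1 := pow_le_one₀ (norm_nonneg _) h1
    rcases n.eq_zero_or_pos with rfl | hn
    · rw [zero_add, pow_one]
      nlinarith [n2_nonneg hτ (h * x - x * h)]
    have h3 : ‖h ^ n‖ ^ 2 ≤ 1 := pow_le_one₀ (norm_nonneg _)
      ((norm_pow_le' h hn).trans (pow_le_one₀ (norm_nonneg _) h1))
    have e : h ^ (n + 1) * x - x * h ^ (n + 1) =
        h ^ n * (h * x - x * h) + (h ^ n * x - x * h ^ n) * h := by
      rw [pow_succ]; noncomm_ring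
    have a1 := (n2_mul_left hτ (h ^ n) (h * x - x * h)).trans
      (mul_le_of_le_one_left (n2_nonneg hτ _) h3)
    have a2 := (n2_mul_right hτ (h ^ n * x - x * h ^ n) h).trans
      (mul_le_of_le_one_left (n2_nonneg hτ _) h2)
    have a3 := H E τ hτ h x h1
    have a4 := n2_nonneg hτ (h * x - x * h)
    rw [e]
    refine (n2_add hτ _ _).trans ?_
    nlinarith [mul_nonneg hC a4]

lemma poly (p : Polynomial ℝ) : ∃ C : ℝ, 0 ≤ C ∧ ∀ (E : Type) [CStarAlgebra E] (τ : E →ₗ[ℂ] ℂ),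
    Tr τ → ∀ h x : E, ‖h‖ ≤ 1 →
      n2 τ (Polynomial.aeval h p * x - x * Polynomial.aeval h p) ≤ C * n2 τ (h * x - x * h) := by
  induction p using Polynomial.induction_on' with
  | add p q hp hq =>
    obtain ⟨C, hC, H⟩ := hp
    obtain ⟨C', hC', H'⟩ := hq
    refine ⟨2 * C + 2 * C', by positivity, fun E _ τ hτ h x h1 => ?_⟩
    rw [map_add, add_mul, mul_add, add_sub_add_comm]
    refine (n2_add hτ _ _).trans ?_
    linarith [H E τ hτ h x h1, H' E τ hτ h x h1]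
  | monomial n c =>
    obtain ⟨C, hC, H⟩ := pw n
    refine ⟨c ^ 2 * C, by positivity, fun E _ τ hτ h x h1 => ?_⟩
    rw [Polynomial.aeval_monomial, ← Algebra.smul_def, smul_mul_assoc, mul_smul_comm, ← smul_sub,
      n2_smul, mul_assoc]
    exact mul_le_mul_of_nonneg_left (H E τ hτ h x h1) (sq_nonneg c)

end NM

theorem com (f : ℝ → ℝ) (hf : Continuous f) (η : ℝ) (hη : 0 < η) : ∃ C : ℝ, 0 ≤ C ∧
    ∀ (E : Type) [CStarAlgebra E] (τ : E →ₗ[ℂ] ℂ), Tr τ → ∀ h x : E, Ctr h →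
      n2 τ (cfc f h * x - x * cfc f h) ≤ C * n2 τ (h * x - x * h) + η * n2 τ x := by
  obtain ⟨p, hp⟩ := exists_polynomial_near_of_continuousOn (-1) 1 f hf.continuousOn √(η / 8)
    (by positivity)
  obtain ⟨C, hC, H⟩ := NM.poly p
  refine ⟨2 * C, by positivity, fun E _ τ hτ h x hh => ?_⟩
  have a1 := pow_le_pow_left₀ (norm_nonneg _)
    (UC.near hf (by positivity) hp hh.1 (FIN.ctr_norm hh)) 2
  rw [Real.sq_sqrt (by positivity)] at a1
  have a2 := H E τ hτ h x (FIN.ctr_norm hh)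
  generalize Polynomial.aeval h p = P at a1 a2
  generalize cfc f h = Q at a1 ⊢
  have e : Q * x - x * Q = (P * x - x * P) + (x * (P - Q) - (P - Q) * x) := by noncomm_ring
  have a0 := n2_nonneg hτ x
  have a3 := (n2_mul_left hτ (P - Q) x).trans (mul_le_mul_of_nonneg_right a1 a0)
  have a4 := (n2_mul_right hτ x (P - Q)).trans (mul_le_mul_of_nonneg_right a1 a0)
  have a5 := n2_sub hτ (x * (P - Q)) ((P - Q) * x)
  rw [e]
  refine (n2_add hτ _ _).trans ?_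
  linarith

end Vale.Agent.P095M
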