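import Vale.Agent.P095M.PartID2
import Vale.Agent.P095M.PartBD
import Vale.Agent.P095M.PartNM

/-! Part LOC1: local invariance estimate. -/

namespace Vale.Agent.P095M

open Finset Vale.Agent.P101 Vale.Agent.P095G

theorem loc1 {N : ℕ} (hN : 0 < N) (η : ℝ) (hη : 0 < η) : ∃ C : ℝ, 0 ≤ C ∧ ∀ u < N,
    ∀ (E : Type) [CStarAlgebra E] (τ : E →ₗ[ℂ] ℂ), Tr τ → ∀ (L : ℕ) (P P' H H' A A' : Fin L → E),
      Cw P H A → Cw P H' A' → Cw P' H A → Cw P' H' A' → n2 τ (yw N u P' H' A' - yw N u P H A) ≤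
        20 * (n2 τ (pw N u P' H' - pw N u P H) + (τ (pw N u P H - pw N u P H ^ 2)).re +
          (τ (pw N u P' H' - pw N u P' H' ^ 2)).re) +
        C * (sp τ P P A A + sp τ P' P' A' A' + sp τ P P' A A') +
        η * ((τ (aw P H)).re + (τ (aw P' H')).re) := by
  have N0 : (0 : ℝ) < N := Nat.cast_pos.2 hN
  choose C C0 hC using fun u => com (rG N u) (BD.rG_cont hN u) (η / (64 * N)) (by positivity)
  have S0 : 0 ≤ ∑ u ∈ range N, C u := sum_nonneg fun u _ => C0 u
  refine ⟨128 * N * ∑ u ∈ range N, C u + 128 * N ^ 4, by positivity, ?_⟩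
  intro u hu E _ τ h L P P' H H' A A' h1 h2 h3 h4
  have Cu : C u ≤ ∑ u ∈ range N, C u := single_le_sum (fun u _ => C0 u) (mem_range.2 hu)
  generalize ∑ u ∈ range N, C u = S at S0 Cu
  obtain ⟨a1, a2, -, a4, -, -, a7, a8, a9⟩ := aw_bd h hN u h1
  obtain ⟨b1, b2, -, b4, -, -, b7, b8, b9⟩ := aw_bd h hN u h4
  obtain ⟨c1, c2, c3⟩ := yw_bd hN u h1
  obtain ⟨d1, -, d3⟩ := yw_bd hN u h4
  obtain ⟨i1, s1⟩ := idn h h1 h1 h1 h1
  obtain ⟨i2, s2⟩ := idn h h4 h4 h4 h4
  obtain ⟨i3, s3⟩ := idn h h1 h2 h3 h4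
  have k1 := hC u E τ h _ (aw P A) a1
  have k2 := hC u E τ h _ (aw P' A') b1
  have m1 : Commute (cfc (rG N u) (aw P H)) (aw P H) := Commute.cfc_real (Commute.refl _) _
  have m2 : Commute (cfc (rG N u) (aw P' H')) (aw P' H') := Commute.cfc_real (Commute.refl _) _
  have ey : yw N u P H A = cfc (rG N u) (aw P H) * aw P A * cfc (rG N u) (aw P H) := rfl
  have ey' : yw N u P' H' A' = cfc (rG N u) (aw P' H') * aw P' A' * cfc (rG N u) (aw P' H') := rfl
  have n1 := FIN.ctr_norm c1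
  have n1' := FIN.ctr_norm d1
  have sy := c2.1
  have sp1 := c1.1
  clear c1 c2 d1
  generalize pw N u P H = p at *
  generalize pw N u P' H' = p' at *
  generalize yw N u P H A = y at *
  generalize yw N u P' H' A' = y' at *
  generalize cfc (rG N u) (aw P H) = g at *
  generalize cfc (rG N u) (aw P' H') = g' at *
  generalize aw P H = x at *
  generalize aw P' H' = x' at *
  generalize aw P A = ψ at *
  generalize aw P' A' = ψ' at *
  have r : ∀ z w : E, ‖w‖ ≤ 1 → n2 τ (z * w) ≤ n2 τ z := fun z w hw => (n2_mul_right h z w).trans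
    (mul_le_of_le_one_left (n2_nonneg h z) (pow_le_one₀ (norm_nonneg _) hw))
  have l : ∀ z w : E, ‖w‖ ≤ 1 → n2 τ (w * z) ≤ n2 τ z := fun z w hw => (n2_mul_left h w z).trans
    (mul_le_of_le_one_left (n2_nonneg h z) (pow_le_one₀ (norm_nonneg _) hw))
  have rN : ∀ z : E, n2 τ (z * g') ≤ N * n2 τ z := fun z => (n2_mul_right h z g').trans
    (mul_le_mul_of_nonneg_right b7 (n2_nonneg h z))
  have lN : ∀ z : E, n2 τ (g * z) ≤ N * n2 τ z := fun z => (n2_mul_left h g z).trans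
    (mul_le_mul_of_nonneg_right a7 (n2_nonneg h z))
  have e1 : p = g * g * x := by rw [← a8, mul_assoc, ← m1.eq, mul_assoc]
  have e2 : p' = x' * g' * g' := by rw [← b8, m2.eq]
  have e3 : p * y' - y * p' = p * ((g' * ψ' - ψ' * g') * g') +
      (g * (g * ((x * ψ' - ψ * x') * g' * g')) + g * ((g * ψ - ψ * g) * p')) := by
    rw [ey, ey', e1, e2]
    noncomm_ring
  have e4 : y' - y = ((1 - p') * y' + (p' - p) * y') + ((p * y' - y * p') +
      (y * (p' - p) - y * (1 - p))) := by noncomm_ring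
  have t1 : n2 τ (p * ((g' * ψ' - ψ' * g') * g')) ≤ N * n2 τ (g' * ψ' - ψ' * g') :=
    (l _ p n1).trans (rN _)
  have t2 : n2 τ (g * (g * ((x * ψ' - ψ * x') * g' * g'))) ≤ N ^ 4 * (4 * sp τ P P' A A') := by
    refine (lN _).trans ((mul_le_mul_of_nonneg_left ((lN _).trans (mul_le_mul_of_nonneg_left
      ((rN _).trans (mul_le_mul_of_nonneg_left ((rN _).trans (mul_le_mul_of_nonneg_left i3
        N0.le)) N0.le)) N0.le)) N0.le).trans_eq ?_)
    ring
  have t3 : n2 τ (g * ((g * ψ - ψ * g) * p')) ≤ N * n2 τ (g * ψ - ψ * g) :=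
    (lN _).trans (mul_le_mul_of_nonneg_left (r _ p' n1') N0.le)
  have cm : ∀ {q w z s t : ℝ}, q ≤ C u * w + η / (64 * N) * z → 0 ≤ s → w ≤ 4 * s → z ≤ 2 * t →
      N * q ≤ 4 * (N * S * s) + η * t / 32 := fun {q w z s t} q1 q2 q3 q4 => by
    have f1 : C u * w ≤ S * (4 * s) := (mul_le_mul_of_nonneg_left q3 (C0 u)).trans
      (mul_le_mul_of_nonneg_right Cu (by positivity))
    have f2 : η / (64 * N) * z ≤ η / (64 * N) * (2 * t) :=
      mul_le_mul_of_nonneg_left q4 (by positivity)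
    have f3 : N * (η / (64 * N) * (2 * t)) = η * t / 32 := by field_simp; ring
    have := mul_le_mul_of_nonneg_left (q1.trans (add_le_add f1 f2)) N0.le
    rw [mul_add, f3] at this
    linarith
  have t4 := cm k1 s1 i1 a4
  have t5 := cm k2 s2 i2 b4
  have u1 := n2_add h ((1 - p') * y' + (p' - p) * y') ((p * y' - y * p') +
      (y * (p' - p) - y * (1 - p)))
  have u2 := n2_add h ((1 - p') * y') ((p' - p) * y')
  have u3 := n2_add h (p * y' - y * p') (y * (p' - p) - y * (1 - p))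
  have u4 := n2_sub h (y * (p' - p)) (y * (1 - p))
  have u5 := r (p' - p) y' d3
  have u6 := l (p' - p) y c3
  have u7 : n2 τ (y * (1 - p)) = n2 τ ((1 - p) * y) := by
    rw [← n2_star h, star_mul, sy.star_eq, star_sub, star_one, sp1.star_eq]
  have u8 := n2_add h (p * ((g' * ψ' - ψ' * g') * g'))
    (g * (g * ((x * ψ' - ψ * x') * g' * g')) + g * ((g * ψ - ψ * g) * p'))
  have u9 := n2_add h (g * (g * ((x * ψ' - ψ * x') * g' * g'))) (g * ((g * ψ - ψ * g) * p'))
  rw [← e3] at u8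
  rw [← e4] at u1
  have v1 := n2_nonneg h ((1 - p) * y)
  have v2 := n2_nonneg h ((1 - p') * y')
  have v3 := n2_nonneg h (p' - p)
  have v4 := mul_nonneg hη.le ((n2_nonneg h ψ).trans a4)
  have v5 := mul_nonneg hη.le ((n2_nonneg h ψ').trans b4)
  have w1 := mul_nonneg (mul_nonneg N0.le S0) s1
  have w2 := mul_nonneg (mul_nonneg N0.le S0) s2
  have w3 := mul_nonneg (mul_nonneg N0.le S0) s3
  have w4 := mul_nonneg (pow_nonneg N0.le 4) s1
  have w5 := mul_nonneg (pow_nonneg N0.le 4) s2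
  have w6 := mul_nonneg (pow_nonneg N0.le 4) s3
  linarith

end Vale.Agent.P095M
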