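import Vale.Agent.P095M.PartFAC
import Vale.Agent.P095G.PartEXP

/-! Part SEP: the hash separates. -/

namespace Vale.Agent.P095M

open Filter Topology Finset Vale.Agent.P101 Vale.Agent.P095 Vale.Agent.P095G TopologicalSpace

variable {A D E F : Type} [CStarAlgebra A] [CStarAlgebra D] [CStarAlgebra E] [CStarAlgebra F]
  {G : Type} [Group G] {ρ : D →ₗ[ℂ] ℂ} {τ : E →ₗ[ℂ] ℂ} {ω : Ultrafilter ℕ}

namespace SEP

lemma taylor [Nontrivial D] {x : D} (hx : IsSelfAdjoint x) (h1 : ‖x‖ ≤ 1) {κ : ℝ}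
    (hκ : |κ| ≤ 1 / 2) : ‖ex κ x - (1 + (κ * Complex.I : ℂ) • x +
      ((κ * Complex.I : ℂ) ^ 2 / 2) • x ^ 2)‖ ≤ |κ| ^ 3 := by
  have hn : IsStarNormal x := hx.isStarNormal
  obtain ⟨c, hc⟩ : ∃ c : ℂ, c = κ * Complex.I := ⟨_, rfl⟩
  have c1 : ‖c‖ = |κ| := by simp [hc]
  have e1 : ex κ x = cfc (fun z : ℂ => Complex.exp (c • z)) x := by
    rw [cfc_comp_smul c Complex.exp x, CFC.complex_exp_eq_normedSpace_exp, hc]
  have e2 : 1 + c • x + (c ^ 2 / 2) • x ^ 2 =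
      cfc (fun z : ℂ => 1 + c * z + (c ^ 2 / 2) * z ^ 2) x := by
    rw [cfc_add x _ _, cfc_add x _ _, cfc_const_mul _ _ x, cfc_const_mul _ _ x, cfc_id' ℂ x,
      cfc_pow_id x 2, cfc_const_one ℂ x]
  rw [← hc, e1, e2, ← cfc_sub _ _ x]
  refine norm_cfc_le (by positivity) fun z hz => ?_
  have h2 : ‖c * z‖ ≤ |κ| := by
    rw [norm_mul, c1]
    exact mul_le_of_le_one_right (abs_nonneg κ) ((spectrum.norm_le_norm_of_mem hz).trans h1)
  have h3 := Complex.exp_bound (x := c * z) (by linarith) (n := 3) (by norm_num)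
  have e3 : ∑ m ∈ range 3, (c * z) ^ m / (m.factorial : ℂ) = 1 + c * z + c ^ 2 / 2 * z ^ 2 := by
    simp [sum_range_succ, Nat.factorial]
    ring
  rw [e3] at h3
  refine h3.trans ((mul_le_of_le_one_right (by positivity) ?_).trans
    (pow_le_pow_left₀ (norm_nonneg _) h2 3))
  norm_num [Nat.factorial]

lemma sq_le (h : Tr ρ) {x y : D} (hx : Tl x) (hy : Tl y) : (ρ ((x - y) ^ 2)).re ≤ 4 := by
  refine (Complex.re_le_norm _).trans ((h.norm_le _).trans ?_)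
  have h1 : ‖x - y‖ ≤ 2 := (norm_sub_le x y).trans (by linarith [hx.2.1, hy.2.1])
  rw [sq]
  exact (norm_mul_le _ _).trans (by nlinarith [norm_nonneg (x - y)])

lemma sq_re (h : Tr ρ) {x : D} (hx : IsSelfAdjoint x) : ρ (x ^ 2) = ((ρ (x ^ 2)).re : ℂ) := by
  have := (h.pos x).2
  rw [hx.star_eq, ← sq] at this
  exact Complex.ext rfl (by rw [this, Complex.ofReal_im])

lemma ex_sum' {ι : Type} [Fintype ι] {θ : ι → D →⋆ₐ[ℂ] E} (hθ : Cm θ) (t : ℝ) (w : ι → D) :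
    ex t (∑ j, θ j (w j)) = Ten hθ fun j => ex t (w j) := by
  let _ : NormedAlgebra ℚ D := NormedAlgebra.restrictScalars ℚ ℂ D
  let _ : NormedAlgebra ℚ E := NormedAlgebra.restrictScalars ℚ ℂ E
  have e1 : (t * Complex.I : ℂ) • ∑ j, θ j (w j) = ∑ j, θ j ((t * Complex.I : ℂ) • w j) := by
    rw [Finset.smul_sum]
    exact Finset.sum_congr rfl fun j _ => (map_smul _ _ _).symm
  rw [ex, e1, NormedSpace.exp_sum_of_commute _ _ fun i _ j _ hij => hθ i j hij _ _]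
  refine Finset.noncommProd_congr rfl (fun j _ => ?_) _
  exact (NormedSpace.map_exp (θ j) (AddMonoidHomClass.continuous_of_bound (θ j) 1 fun x => by
    simpa using NonUnitalStarAlgHom.norm_apply_le (θ j) x) _).symm

lemma ex_zs {m : ℕ} {θ : Fin m → D →⋆ₐ[ℂ] E} (hθ : Cm θ) (t a : ℝ) (j : Fin m) (r : Fin m → Bool)
    (x : Bool → D) :
    ex a (Zs θ t j r x) = Ten hθ fun i => if i = j then 1 else ex (a * t) (x (r i)) := by
  have e : Zs θ t j r x = ∑ i, θ i (if i = j then 0 else (t : ℂ) • x (r i)) := by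
    rw [Zs, ← sum_erase (f := fun i => θ i (if i = j then 0 else (t : ℂ) • x (r i))) univ (a := j)
      (by simp)]
    exact sum_congr rfl fun i hi => by rw [if_neg (ne_of_mem_erase hi)]
  rw [e, ex_sum' hθ]
  congr 1
  funext i
  split_ifs
  · simp [ex]
  · rw [ex, ex, smul_smul]
    congr 2
    push_cast
    ring

end SEP

theorem dec (h : Tr ρ) {x y : D} (hx : Tl x) (hy : Tl y) {κ : ℝ} (hκ : |κ| ≤ 1 / 2) :
    ‖ρ (ex κ x * ex (-κ) y)‖ ≤ 1 - κ ^ 2 / 2 * (ρ ((x - y) ^ 2)).re + 20 * |κ| ^ 3 := by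
  have _ : Nontrivial D := ⟨1, 0, fun e => by
    have := h.one
    rw [e, map_zero] at this
    exact zero_ne_one this⟩
  have t1 := SEP.taylor hx.1 hx.2.1 hκ
  have t2 := SEP.taylor hy.1 hy.2.1 (κ := -κ) (by rwa [abs_neg])
  have u1 := EXPx.norm_le_one (EXPx.uni hx.1 κ)
  have u2 := EXPx.norm_le_one (EXPx.uni hy.1 (-κ))
  have e0 : (((-κ : ℝ) : ℂ) * Complex.I) = -(κ * Complex.I) := by push_cast; ring
  rw [abs_neg, e0] at t2
  obtain ⟨c, hc⟩ : ∃ c : ℂ, c = κ * Complex.I := ⟨_, rfl⟩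
  have c1 : ‖c‖ = |κ| := by simp [hc]
  have c2 : c ^ 2 = -(κ ^ 2 : ℝ) := by
    rw [hc, mul_pow, Complex.I_sq]
    push_cast
    ring
  rw [← hc] at t1 t2
  generalize ex κ x = U at t1 u1 ⊢
  generalize ex (-κ) y = V at t2 u2 ⊢
  obtain ⟨P, hP⟩ : ∃ P, P = 1 + c • x + (c ^ 2 / 2) • x ^ 2 := ⟨_, rfl⟩
  obtain ⟨Q, hQ⟩ : ∃ Q, Q = 1 + (-c) • y + ((-c) ^ 2 / 2) • y ^ 2 := ⟨_, rfl⟩
  rw [← hP] at t1
  rw [← hQ] at t2
  have k0 := abs_nonneg κ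
  have k3 : |κ| ^ 3 ≤ 1 := pow_le_one₀ k0 (by linarith)
  have k4 : 0 ≤ |κ| ^ 3 := by positivity
  have p1 : ‖P‖ ≤ 2 := by
    have := norm_sub_norm_le P U
    rw [norm_sub_rev] at this
    linarith
  have e1 : U * V = P * Q + ((U - P) * V + P * (V - Q)) := by noncomm_ring
  have e2 : ρ (P * Q) = ((1 - κ ^ 2 / 2 * (ρ ((x - y) ^ 2)).re : ℝ) : ℂ) +
      ((c ^ 3 / 2) * (ρ (x * y ^ 2) - ρ (x ^ 2 * y)) + (c ^ 4 / 4) * ρ (x ^ 2 * y ^ 2)) := by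
    have e3 : (x - y) ^ 2 = x ^ 2 + y ^ 2 - x * y - y * x := by noncomm_ring
    have e4 : (κ : ℂ) ^ 2 = -c ^ 2 := by
      rw [c2]
      push_cast
      ring
    push_cast
    rw [← SEP.sq_re h (hx.1.sub hy.1), e3, hP, hQ, e4]
    simp only [add_mul, mul_add, one_mul, mul_one, smul_mul_assoc, mul_smul_comm, map_add, map_sub,
      map_smul, smul_eq_mul, h.one, hx.2.2 ρ h, hy.2.2 ρ h, h.comm y x]
    ring
  have n1 : ∀ a b : D, ‖a‖ ≤ 1 → ‖b‖ ≤ 1 → ‖a * b‖ ≤ 1 := fun a b ha hb =>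
    (norm_mul_le a b).trans (mul_le_one₀ ha (norm_nonneg b) hb)
  have x2 : ‖x ^ 2‖ ≤ 1 := by rw [sq]; exact n1 _ _ hx.2.1 hx.2.1
  have y2 : ‖y ^ 2‖ ≤ 1 := by rw [sq]; exact n1 _ _ hy.2.1 hy.2.1
  have a1 := (h.norm_le _).trans (n1 _ _ hx.2.1 y2)
  have a2 := (h.norm_le _).trans (n1 _ _ x2 hy.2.1)
  have a3 := (h.norm_le _).trans (n1 _ _ x2 y2)
  have b1 : ‖(c ^ 3 / 2) * (ρ (x * y ^ 2) - ρ (x ^ 2 * y))‖ ≤ |κ| ^ 3 := by
    rw [norm_mul, norm_div, norm_pow, c1, Complex.norm_two]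
    nlinarith [norm_sub_le (ρ (x * y ^ 2)) (ρ (x ^ 2 * y))]
  have b2 : ‖(c ^ 4 / 4) * ρ (x ^ 2 * y ^ 2)‖ ≤ |κ| ^ 3 := by
    rw [norm_mul, norm_div, norm_pow, c1, Complex.norm_ofNat]
    refine (mul_le_of_le_one_right (by positivity) a3).trans ?_
    nlinarith
  have b3 : ‖ρ ((U - P) * V + P * (V - Q))‖ ≤ 3 * |κ| ^ 3 := by
    refine (h.norm_le _).trans ((norm_add_le _ _).trans ?_)
    have q1 := (norm_mul_le (U - P) V).trans (mul_le_mul t1 u2 (norm_nonneg _) k4)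
    have q2 := (norm_mul_le P (V - Q)).trans (mul_le_mul p1 t2 (norm_nonneg _) zero_le_two)
    linarith
  have b4 : 0 ≤ 1 - κ ^ 2 / 2 * (ρ ((x - y) ^ 2)).re := by
    have := SEP.sq_le h hx hy
    have k2 : κ ^ 2 ≤ 1 / 4 := by nlinarith [sq_abs κ]
    nlinarith [sq_nonneg κ]
  rw [e1, map_add, e2]
  refine (norm_add_le _ _).trans ?_
  have b5 := norm_add_le ((1 - κ ^ 2 / 2 * (ρ ((x - y) ^ 2)).re : ℝ) : ℂ)
    ((c ^ 3 / 2) * (ρ (x * y ^ 2) - ρ (x ^ 2 * y)) + (c ^ 4 / 4) * ρ (x ^ 2 * y ^ 2))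
  rw [Complex.norm_real, Real.norm_of_nonneg b4] at b5
  linarith [norm_add_le ((c ^ 3 / 2) * (ρ (x * y ^ 2) - ρ (x ^ 2 * y)))
    ((c ^ 4 / 4) * ρ (x ^ 2 * y ^ 2))]

theorem sep (R : ℕ) (η : ℝ) (hη : 0 < η) : ∃ (m : ℕ) (t : ℝ), 0 < m ∧
    ∀ (D E : Type) [CStarAlgebra D] [CStarAlgebra E] (θ : Fin m → D →⋆ₐ[ℂ] E), Cm θ →
      ∀ x x' : Bool → D, (∀ b, Tl (x b)) → (∀ b, Tl (x' b)) → ∀ τ : E →ₗ[ℂ] ℂ, Tr τ →
        ∀ (b : Bool) (a : ℤ), a ≠ 0 → |a| < R → ‖∑ q : Fin m × (Fin m → Bool),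
          τ (θ q.1 (x b - x' b) ^ 2 * ex a (Zs θ t q.1 q.2 x) * ex (-a) (Zs θ t q.1 q.2 x'))‖ ≤
            η * (m * 2 ^ m) := by
  obtain ⟨M, hM⟩ := exists_nat_gt (12 / η)
  have M0 : (0 : ℝ) < M := lt_trans (by positivity) hM
  obtain ⟨n, hn⟩ := exists_nat_gt (40 * (M : ℝ) * R ^ 3 + 2 * R)
  have n1 : (0 : ℝ) ≤ 40 * (M : ℝ) * R ^ 3 := by positivity
  have n2 : (0 : ℝ) ≤ 2 * R := by positivity
  have n0 : (0 : ℝ) < n := by linarith
  refine ⟨M * n ^ 2, 1 / n, by exact_mod_cast (by positivity : (0 : ℝ) < M * n ^ 2), ?_⟩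
  obtain ⟨m, hm⟩ : ∃ m, m = M * n ^ 2 := ⟨_, rfl⟩
  rw [← hm]
  have m1 : (m : ℝ) = M * n ^ 2 := by exact_mod_cast hm
  intro D E _ _ θ hθ x x' hx hx' τ hτ b a ha haR
  obtain ⟨κ, hκ⟩ : ∃ κ : ℝ, κ = a * (1 / n) := ⟨_, rfl⟩
  have a1 : (1 : ℝ) ≤ |(a : ℝ)| := by exact_mod_cast Int.one_le_abs ha
  have a2 : |(a : ℝ)| ≤ R := by exact_mod_cast haR.le
  have k1 : |κ| = |(a : ℝ)| / n := by rw [hκ, mul_one_div, abs_div, abs_of_pos n0]
  have k2 : |κ| ≤ 1 / 2 := by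
    rw [k1, div_le_iff₀ n0]
    linarith
  have k3 : m * (20 * |κ| ^ 3) ≤ 1 / 2 := by
    have e : m * (20 * |κ| ^ 3) = 20 * M * |(a : ℝ)| ^ 3 / n := by
      rw [k1, m1]
      field_simp
    have := mul_le_mul_of_nonneg_left (pow_le_pow_left₀ (abs_nonneg _) a2 3) M0.le
    rw [e, div_le_iff₀ n0]
    linarith
  have k4 : 12 ≤ η * m * κ ^ 2 := by
    have e : η * m * κ ^ 2 = η * M * |(a : ℝ)| ^ 2 := by
      rw [← sq_abs κ, k1, m1]
      field_simp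
    rw [div_lt_iff₀ hη] at hM
    have : (1 : ℝ) ≤ |(a : ℝ)| ^ 2 := one_le_pow₀ a1
    rw [e]
    nlinarith
  have k5 : κ ^ 2 ≤ 1 / 4 := by nlinarith [sq_abs κ, abs_nonneg κ]
  let X : Fin m → Fin m → Bool → D := fun j i c =>
    if i = j then (x b - x' b) ^ 2 else ex κ (x c) * ex (-κ) (x' c)
  have e1 : ∀ q : Fin m × (Fin m → Bool),
      θ q.1 (x b - x' b) ^ 2 * ex a (Zs θ (1 / n) q.1 q.2 x) * ex (-a) (Zs θ (1 / n) q.1 q.2 x') =
        Ten hθ fun i => X q.1 i (q.2 i) := fun q => by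
    rw [SEP.ex_zs hθ, SEP.ex_zs hθ, ← map_pow, ← ten_single hθ, ← ten_mul, ← ten_mul, neg_mul, ← hκ]
    congr 1
    funext i
    by_cases hi : i = q.1
    · simp [X, hi]
    · simp [X, hi]
  simp only [e1]
  refine fac hθ (fun (q : Fin m × (Fin m → Bool)) i => X q.1 i (q.2 i)) (fun ρ hρ => ?_) hτ
  obtain ⟨s, hs⟩ : ∃ s : Fin m → ℝ, ∀ i, s i = (ρ i ((x true - x' true) ^ 2)).re +
    (ρ i ((x false - x' false) ^ 2)).re := ⟨_, fun _ => rfl⟩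
  have s0 : ∀ i c, 0 ≤ (ρ i ((x c - x' c) ^ 2)).re := fun i c =>
    (hρ i).sq_nonneg' ((hx c).1.sub (hx' c).1)
  have s1 : ∀ i, 0 ≤ s i := fun i => hs i ▸ add_nonneg (s0 i _) (s0 i _)
  have s2 : ∀ i, s i ≤ 8 := fun i => by
    rw [hs]
    linarith [SEP.sq_le (hρ i) (hx true) (hx' true), SEP.sq_le (hρ i) (hx false) (hx' false)]
  let w : Fin m → ℝ := fun i => 2 * Real.exp (-(κ ^ 2 / 4 * s i) + 20 * |κ| ^ 3)
  have w0 : ∀ i, 0 < w i := fun i => by positivity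
  have f1 : ∀ j i, ‖∑ c, ρ i (X j i c)‖ ≤
      (if i = j then s j * Real.exp (1 / 2) else 1) * w i := fun j i => by
    rw [Fintype.sum_bool]
    refine (norm_add_le _ _).trans ?_
    by_cases hi : i = j
    · subst hi
      have g1 : ‖ρ i ((x b - x' b) ^ 2)‖ ≤ s i := by
        rw [SEP.sq_re (hρ i) ((hx b).1.sub (hx' b).1), Complex.norm_real,
          Real.norm_of_nonneg (s0 i b), hs]
        cases b
        · linarith [s0 i true]
        · linarith [s0 i false]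
      have g2 : 1 ≤ Real.exp (1 / 2) * Real.exp (-(κ ^ 2 / 4 * s i) + 20 * |κ| ^ 3) := by
        rw [← Real.exp_add]
        refine Real.one_le_exp ?_
        have : 0 ≤ |κ| ^ 3 := by positivity
        nlinarith [s1 i, s2 i, sq_nonneg κ]
      simp only [X, w, if_pos]
      nlinarith [mul_le_mul_of_nonneg_left g2 (s1 i)]
    · have g1 := dec (hρ i) (hx true) (hx' true) k2
      have g2 := dec (hρ i) (hx false) (hx' false) k2
      have g3 := Real.add_one_le_exp (-(κ ^ 2 / 4 * s i) + 20 * |κ| ^ 3)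
      simp only [X, w, if_neg hi, one_mul]
      rw [hs] at g3 ⊢
      linarith
  have f2 : ∏ i, w i = 2 ^ m * Real.exp (-(κ ^ 2 / 4 * ∑ i, s i) + m * (20 * |κ| ^ 3)) := by
    rw [prod_mul_distrib, prod_const, card_univ, Fintype.card_fin, ← Real.exp_sum, sum_add_distrib,
      sum_neg_distrib, ← mul_sum, sum_const, card_univ, Fintype.card_fin, nsmul_eq_mul]
  have f3 : ∀ j, ‖∑ r : Fin m → Bool, ∏ i, ρ i (X j i (r i))‖ ≤
      s j * (Real.exp (1 / 2) * ∏ i, w i) := fun j => by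
    rw [← Fintype.piFinset_univ, ← prod_univ_sum (fun _ => univ) fun i c => ρ i (X j i c),
      norm_prod]
    refine (prod_le_prod (fun i _ => norm_nonneg _) fun i _ => f1 j i).trans (le_of_eq ?_)
    rw [prod_mul_distrib, prod_ite_eq', if_pos (mem_univ j), mul_assoc]
  rw [Fintype.sum_prod_type]
  refine (norm_sum_le _ _).trans ((sum_le_sum fun j _ => f3 j).trans ?_)
  rw [← sum_mul, f2]
  have S0 : 0 ≤ ∑ i, s i := sum_nonneg fun i _ => s1 i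
  generalize ∑ i, s i = S at S0 ⊢
  have g1 : κ ^ 2 / 4 * S * Real.exp (-(κ ^ 2 / 4 * S)) ≤ 1 := by
    rw [Real.exp_neg, mul_inv_le_iff₀ (Real.exp_pos _), one_mul]
    linarith [Real.add_one_le_exp (κ ^ 2 / 4 * S)]
  have g2 : Real.exp (1 / 2) * Real.exp (m * (20 * |κ| ^ 3)) ≤ 3 := by
    rw [← Real.exp_add]
    exact (Real.exp_le_exp.2 (by linarith)).trans (Real.exp_one_lt_d9.le.trans (by norm_num))
  have g3 : 3 * (S * Real.exp (-(κ ^ 2 / 4 * S))) ≤ η * m := by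
    have q0 : 0 ≤ S * Real.exp (-(κ ^ 2 / 4 * S)) := by positivity
    have q1 : 0 ≤ η * m := by positivity
    nlinarith [mul_le_mul_of_nonneg_right k4 q0, mul_le_mul_of_nonneg_left g1 q1]
  have g4 := mul_le_mul_of_nonneg_right g2 (by positivity : 0 ≤ S * Real.exp (-(κ ^ 2 / 4 * S)))
  rw [Real.exp_add]
  calc _ = (Real.exp (1 / 2) * Real.exp (m * (20 * |κ| ^ 3)) * (S * Real.exp (-(κ ^ 2 / 4 * S)))) *
        2 ^ m := by ring
    _ ≤ η * m * 2 ^ m := mul_le_mul_of_nonneg_right (g4.trans g3) (by positivity)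
    _ = _ := mul_assoc _ _ _

end Vale.Agent.P095M
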