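import Vale.Agent.P095M.PartCELL
import Vale.Agent.P095M.PartHASH
import Vale.Agent.P095M.PartSEP
import Vale.Agent.P101.PartS2

/-! The hash cells coming from commuting copies. -/

namespace Vale.Agent.P095M

open Filter Topology Finset Vale.Agent.P101 Vale.Agent.P095 Vale.Agent.P095G TopologicalSpace

variable {D E E' : Type} [CStarAlgebra D] [CStarAlgebra E] [CStarAlgebra E'] {G : Type} [Group G]
  {τ : E →ₗ[ℂ] ℂ} {L m : ℕ}

lemma dom_map {h a : D} (H : Dom h a) (φ : D →⋆ₐ[ℂ] E) : Dom (φ h) (φ a) := by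
  obtain ⟨h1, ⟨y, hy⟩, z, hz⟩ := H
  exact ⟨h1.map φ, ⟨φ y, by rw [← map_sub, hy, map_mul, map_star]⟩,
    φ z, by rw [← map_add, hz, map_mul, map_star]⟩

lemma Sy.map {h a : D} (H : Sy h a) (φ : D →⋆ₐ[ℂ] E) : Sy (φ h) (φ a) :=
  ⟨H.ctr.map φ, dom_map H.dom φ, by rw [← map_mul, H.sq, map_mul], H.cm.map φ⟩

lemma Tl.map {x : D} (H : Tl x) (φ : D →⋆ₐ[ℂ] D) : Tl (φ x) :=
  ⟨H.1.map φ, (NonUnitalStarAlgHom.norm_apply_le φ x).trans H.2.1,
    fun _ hρ => H.2.2 _ (hρ.comp φ)⟩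

lemma map_rsmul (φ : D →⋆ₐ[ℂ] E) (c : ℝ) (x : D) : φ (c • x) = c • φ x := by
  rw [← Complex.coe_smul, map_smul, Complex.coe_smul]

lemma map_aw (φ : E →⋆ₐ[ℂ] E') (P A : Fin L → E) :
    φ (aw P A) = aw (fun l => φ (P l)) fun l => φ (A l) := by
  simp only [aw, av, map_rsmul, map_sum, map_mul]

lemma aw_sa {P H A : Fin L → E} (c : Cw P H A) : IsSelfAdjoint (aw P H) :=
  IsSelfAdjoint.smul (IsSelfAdjoint.all _) (isSelfAdjoint_sum _ fun l _ =>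
    ((c.ctr l).1.commute_iff (c.sy l).ctr.1).1 (c.cH l l))

lemma rg_cont (N u : ℕ) : Continuous (rg N u) := by unfold rg; fun_prop

lemma rG_cont {N : ℕ} (hN : 0 < N) (u : ℕ) : Continuous (rG N u) :=
  ((rg_cont N u).div (by fun_prop) fun t => (lt_max_of_lt_right (by positivity)).ne').sqrt

lemma map_pw (φ : E →⋆ₐ[ℂ] E') (N u : ℕ) {P H A : Fin L → E} (c : Cw P H A) :
    φ (pw N u P H) = pw N u (fun l => φ (P l)) fun l => φ (H l) := by
  rw [pw, pw, S2.map_cfc φ (rg_cont N u) (aw_sa c), map_aw]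

lemma map_yw (φ : E →⋆ₐ[ℂ] E') {N : ℕ} (hN : 0 < N) (u : ℕ) {P H A : Fin L → E} (c : Cw P H A) :
    φ (yw N u P H A) = yw N u (fun l => φ (P l)) (fun l => φ (H l)) fun l => φ (A l) := by
  rw [yw, yw, map_mul, map_mul, S2.map_cfc φ (rG_cont hN u) (aw_sa c), map_aw, map_aw]

lemma yw_comb (N u : ℕ) (P H A B : Fin L → E) (c d : ℝ) :
    yw N u P H (fun l => c • A l + d • B l) = c • yw N u P H A + d • yw N u P H B := by
  have : aw P (fun l => c • A l + d • B l) = c • aw P A + d • aw P B := by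
    simp only [aw, av, mul_add, mul_smul_comm, sum_add_distrib, smul_add, ← smul_sum]
    rw [smul_comm _ c, smul_comm _ d]
  simp only [yw, this, mul_add, add_mul, mul_smul_comm, smul_mul_assoc]

lemma zs_sa (θ : Fin m → D →⋆ₐ[ℂ] E) (t : ℝ) (j : Fin m) (r : Fin m → Bool) {x : Bool → D}
    (hx : ∀ b, IsSelfAdjoint (x b)) : IsSelfAdjoint (Zs θ t j r x) :=
  isSelfAdjoint_sum _ fun i _ => IsSelfAdjoint.map (by
    rw [IsSelfAdjoint, star_smul, (hx _).star_eq, RCLike.star_def, Complex.conj_ofReal]) _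

lemma zs_cm {θ : Fin m → D →⋆ₐ[ℂ] E} (hθ : Cm θ) (t : ℝ) (j : Fin m) (r : Fin m → Bool)
    (x : Bool → D) (d : D) : Commute (Zs θ t j r x) (θ j d) :=
  Commute.sum_left _ _ _ fun i hi => hθ i j (ne_of_mem_erase hi) _ _

/-- The partition of unity attached to a hash. -/
noncomputable def Pc {S : Type} (f : S → ℝ → ℝ) (θ : Fin m → D →⋆ₐ[ℂ] E) (t : ℝ)
    (β : G →* (D ≃⋆ₐ[ℂ] D)) (x : Bool → D) (q : Fin m × (Fin m → Bool)) (s : S) (k : G) : E :=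
  cfc (f s) (Zs θ t q.1 q.2 fun b => β k (x b))

lemma mk_cell {S : Type} [Fintype S] {f : S → ℝ → ℝ} (f1 : ∀ s, Continuous (f s))
    (f2 : ∀ s t, f s t ∈ Set.Icc (0 : ℝ) 1) (f3 : ∀ t, ∑ s, f s t = 1)
    (f4 : ∀ t, ∑ s, √(f s t) ≤ 28) {θ : Fin m → D →⋆ₐ[ℂ] E} (hθ : Cm θ) (t : ℝ)
    (β : G →* (D ≃⋆ₐ[ℂ] D)) {x : Bool → D} (hx : ∀ b, Tl (x b)) (q : Fin m × (Fin m → Bool))
    {h w : D} (hw : Sy h w) :
    Cell (Pc f θ t β x q) (fun k => θ q.1 (β k h)) fun k => θ q.1 (β k w) := by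
  have sa : ∀ k, IsSelfAdjoint (Zs θ t q.1 q.2 fun b => β k (x b)) := fun k =>
    zs_sa θ t _ _ fun b => (hx b).1.map _
  refine ⟨fun s k => Ctr.cfc (f2 s), fun k => ?_, fun k τ hτ => ?_,
    fun k => (hw.map (β k : D →⋆ₐ[ℂ] D)).map _, fun s k l => (zs_cm hθ t _ _ _ _).cfc_real _,
    fun s k l => (zs_cm hθ t _ _ _ _).cfc_real _⟩
  · have := sa k
    simp only [Pc]
    rw [← cfc_sum f _ univ fun s _ => (f1 s).continuousOn,
      cfc_congr (g := fun _ => (1 : ℝ)) fun y _ => by rw [Finset.sum_apply, f3], cfc_const_one ℝ _]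
  · let _ := CStarAlgebra.spectralOrder E
    have _ := CStarAlgebra.spectralOrderedRing E
    have := sa k
    have e : ∀ s, rt (Pc f θ t β x q s k) =
        cfc (fun y => √(f s y)) (Zs θ t q.1 q.2 fun b => β k (x b)) := fun s =>
      (cfc_comp' Real.sqrt (f s) _ Real.continuous_sqrt.continuousOn (f1 s).continuousOn this).symm
    simp only [e]
    rw [← Complex.re_sum, ← map_sum,
      ← cfc_sum (fun s y => √(f s y)) _ univ fun s _ => (f1 s).sqrt.continuousOn]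
    have h1 := hτ.mono (cfc_le_algebraMap (∑ s, fun y => √(f s y)) 28
      (Zs θ t q.1 q.2 fun b => β k (x b)) (fun y _ => by rw [Finset.sum_apply]; exact f4 y)
      (by
        rw [Finset.sum_fn]
        exact (continuous_finsetSum _ fun s _ => (f1 s).sqrt).continuousOn) this)
    rwa [Algebra.algebraMap_eq_smul_one, AVG.re_smul, hτ.one, Complex.one_re, mul_one] at h1

lemma pc_eqv {S : Type} {f : S → ℝ → ℝ} (f1 : ∀ s, Continuous (f s)) {θ : Fin m → D →⋆ₐ[ℂ] E}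
    (t : ℝ) {β : G →* (D ≃⋆ₐ[ℂ] D)} {γ : G →* (E ≃⋆ₐ[ℂ] E)} (hθ : ∀ j, Eqv β γ (θ j))
    {x : Bool → D} (hx : ∀ b, Tl (x b)) (q : Fin m × (Fin m → Bool)) (s : S) (g k : G) :
    (γ g : E →⋆ₐ[ℂ] E) (Pc f θ t β x q s k) = Pc f θ t β x q s (g * k) := by
  rw [Pc, Pc, S2.map_cfc _ (f1 s) (zs_sa θ t _ _ fun b => (hx b).1.map _)]
  congr 1
  rw [Zs, Zs, map_sum]
  refine sum_congr rfl fun i _ => ?_
  refine (hθ i g _).symm.trans ?_
  rw [map_smul (β g), map_mul]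
  rfl

lemma th_eqv {θ : D →⋆ₐ[ℂ] E} {β : G →* (D ≃⋆ₐ[ℂ] D)} {γ : G →* (E ≃⋆ₐ[ℂ] E)} (hθ : Eqv β γ θ)
    (w : D) (g k : G) : (γ g : E →⋆ₐ[ℂ] E) (θ (β k w)) = θ (β (g * k) w) := by
  refine (hθ g _).symm.trans ?_
  rw [map_mul]
  rfl

lemma mk_hash (η : ℝ) (hη : 0 < η) : ∃ (M m : ℕ) (f : Fin M → ℝ → ℝ) (t : ℝ), 0 < M ∧ 0 < m ∧
    (∀ s, Continuous (f s)) ∧ (∀ s t, f s t ∈ Set.Icc (0 : ℝ) 1) ∧ (∀ t, ∑ s, f s t = 1) ∧
    (∀ t, ∑ s, √(f s t) ≤ 28) ∧ ∀ (D E : Type) [CStarAlgebra D] [CStarAlgebra E]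
      (θ : Fin m → D →⋆ₐ[ℂ] E), Cm θ → ∀ (β : G →* (D ≃⋆ₐ[ℂ] D)) (x : Bool → D), (∀ b, Tl (x b)) →
      ∀ τ : E →ₗ[ℂ] ℂ, Tr τ → ∀ (b : Bool) (L : ℕ) (a a' : Fin L → G),
        ∑ q, ssp τ (Pc f θ t β x q) (fun k => θ q.1 (β k (x b))) a a' ≤
          L ^ 2 * η * (m * 2 ^ m) := by
  obtain ⟨R, hR⟩ := exists_nat_gt (896 / η)
  have R0 : (0 : ℝ) < R := lt_trans (by positivity) hR
  have R1 : 0 < R := by exact_mod_cast R0
  obtain ⟨f, f1, f2, f3, f4, f5⟩ := hash R R1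
  obtain ⟨m, t, hm, hs⟩ := sep R (η / 448) (by positivity)
  refine ⟨7 * R, m, f, t, by omega, hm, f1, f2, f3, f4, fun D E _ _ θ hθ β x hx τ hτ b L a a' => ?_⟩
  have key : ∀ k k' : G, ∑ q : Fin m × (Fin m → Bool), ∑ s,
      (τ ((θ q.1 (β k (x b)) - θ q.1 (β k' (x b))) ^ 2 * Pc f θ t β x q s k *
        Pc f θ t β x q s k')).re ≤ η * (m * 2 ^ m) := fun k k' => by
    have tl : ∀ k b, Tl (β k (x b)) := fun k b => (hx b).map (β k : D →⋆ₐ[ℂ] D)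
    have h1 := f5 E τ hτ (Fin m × (Fin m → Bool)) (fun q => θ q.1 (β k (x b) - β k' (x b)))
      (fun q => Zs θ t q.1 q.2 fun b => β k (x b)) (fun q => Zs θ t q.1 q.2 fun b => β k' (x b))
      (η / 448 * (m * 2 ^ m)) (fun q => ⟨((tl k b).1.sub (tl k' b).1).map _,
        zs_sa θ t _ _ fun b => (tl k b).1, zs_sa θ t _ _ fun b => (tl k' b).1,
        (zs_cm hθ t _ _ _ _).symm, (zs_cm hθ t _ _ _ _).symm⟩)
      (fun c c1 c2 => hs D E θ hθ _ _ (tl k) (tl k') τ hτ b c c1 c2) (by positivity)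
    have h2 := sum_le_card_nsmul univ
      (fun q : Fin m × (Fin m → Bool) => (τ (θ q.1 (β k (x b) - β k' (x b)) ^ 2)).re) 4
      fun q _ => by
        have n1 : ‖θ q.1 (β k (x b) - β k' (x b))‖ ≤ 2 :=
          (NonUnitalStarAlgHom.norm_apply_le _ _).trans ((norm_sub_le _ _).trans
            (by linarith [(tl k b).2.1, (tl k' b).2.1]))
        refine (Complex.re_le_norm _).trans ((hτ.norm_le _).trans ?_)
        rw [sq]
        exact (norm_mul_le_of_le n1 n1).trans (by norm_num)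
    rw [card_univ, Fintype.card_prod, Fintype.card_fun, Fintype.card_fin, Fintype.card_bool,
      nsmul_eq_mul] at h2
    push_cast at h2
    simp only [map_sub (θ _)] at h1 h2
    refine h1.trans ?_
    have h3 := div_le_div_of_nonneg_right h2 R0.le
    have h4 : (m : ℝ) * 2 ^ m * 4 / R ≤ η / 224 * (m * 2 ^ m) := by
      rw [div_le_iff₀ R0]
      rw [div_lt_iff₀ hη] at hR
      have : (0 : ℝ) ≤ m * 2 ^ m := by positivity
      nlinarith
    linarith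
  have e : ∑ q, ssp τ (Pc f θ t β x q) (fun k => θ q.1 (β k (x b))) a a' =
      ∑ k, ∑ l, ∑ q : Fin m × (Fin m → Bool), ∑ s,
        (τ ((θ q.1 (β (a k) (x b)) - θ q.1 (β (a' l) (x b))) ^ 2 * Pc f θ t β x q s (a k) *
          Pc f θ t β x q s (a' l))).re := by
    simp only [ssp, sp]
    symm
    rw [sum_congr rfl fun k _ => sum_comm, sum_comm]
    refine sum_congr rfl fun q _ => ?_
    rw [sum_congr rfl fun k _ => sum_comm, sum_comm]
  rw [e]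
  refine (sum_le_sum fun k _ => sum_le_sum fun l _ => key (a k) (a' l)).trans_eq ?_
  simp only [sum_const, card_univ, Fintype.card_fin, nsmul_eq_mul]
  ring

end Vale.Agent.P095M
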