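import Vale.Agent.P095G.PartPS

/-! Working definitions for equivariant uniform noncommutativity. -/

namespace Vale.Agent.P095M

open Vale.Agent.P101 Vale.Agent.P095G TopologicalSpace Finset

variable {D E F : Type} [CStarAlgebra D] [CStarAlgebra E] [CStarAlgebra F] {G : Type} [Group G]

/-- The square of the two-norm. -/
noncomputable def n2 (ρ : D →ₗ[ℂ] ℂ) (x : D) : ℝ := (ρ (star x * x)).re

/-- Ramp from `(u + 1) / N` to `(u + 2) / N`. -/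
noncomputable def rg (N u : ℕ) (t : ℝ) : ℝ := max 0 (min 1 (N * t - (u + 1)))

/-- The square root of the ramp divided by `t`. -/
noncomputable def rG (N u : ℕ) (t : ℝ) : ℝ := √(rg N u t / max t (1 / N))

/-- Averages. -/
noncomputable def av {L : ℕ} (P : Fin L → E) : E := (L : ℝ)⁻¹ • ∑ k, P k

/-- The cut down average. -/
noncomputable def yy (N u : ℕ) {L : ℕ} (P A : Fin L → E) : E :=
  cfc (rG N u) (av P) * av (fun k => P k * A k) * cfc (rG N u) (av P)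

/-- The separation error. -/
noncomputable def sp (τ : E →ₗ[ℂ] ℂ) {L : ℕ} (P P' A A' : Fin L → E) : ℝ :=
  ∑ k, ∑ l, (τ ((A k - A' l) ^ 2 * P k * P' l)).re

/-- Positive contractions commuting with self-adjoint contractions. -/
structure Loc {L : ℕ} (P A : Fin L → E) : Prop where
  ctr : ∀ k, Ctr (P k)
  sa : ∀ k, IsSelfAdjoint (A k)
  nm : ∀ k, ‖A k‖ ≤ 1
  cm : ∀ k l, Commute (P k) (A l)

/-- The hash variable. -/
noncomputable def Zs {m : ℕ} (θ : Fin m → D →⋆ₐ[ℂ] E) (t : ℝ) (j : Fin m) (r : Fin m → Bool)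
    (x : Bool → D) : E := ∑ i ∈ univ.erase j, θ i ((t : ℂ) • x (r i))

/-- Self-adjoint contractions killed by all traces. -/
def Tl (x : D) : Prop := IsSelfAdjoint x ∧ ‖x‖ ≤ 1 ∧ ∀ ρ : D →ₗ[ℂ] ℂ, Tr ρ → ρ x = 0

/-- Small almost invariant noncommuting elements. -/
def Nc0 (σ : G →* (F ≃⋆ₐ[ℂ] F)) (c : ℝ) : Prop :=
  ∀ K : Finset G, ∀ ε : ℝ, 0 < ε →
    ∃ (D : Type) (_ : CStarAlgebra D) (_ : SeparableSpace D) (β : G →* (D ≃⋆ₐ[ℂ] D))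
      (ι : D →⋆ₐ[ℂ] F) (y y' : D) (d : ℝ), Eqv β σ ι ∧ Tl y ∧ Tl y' ∧ 0 < d ∧ d ≤ ε ∧
        ∀ ρ : D →ₗ[ℂ] ℂ, Tr ρ → n2 ρ y ≤ 4 * d ∧ n2 ρ y' ≤ 4 * d ∧
          c * d ≤ n2 ρ (y * y' - y' * y) ∧
          ∀ g ∈ K, n2 ρ (β g y - y) ≤ ε * d ∧ n2 ρ (β g y' - y') ≤ ε * d

/-- Almost invariant unitaries whose group commutator has small trace. -/
def Nc (σ : G →* (F ≃⋆ₐ[ℂ] F)) : Prop :=
  ∀ K : Finset G, ∀ ε : ℝ, 0 < ε →
    ∃ (D : Type) (_ : CStarAlgebra D) (_ : SeparableSpace D) (β : G →* (D ≃⋆ₐ[ℂ] D))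
      (ι : D →⋆ₐ[ℂ] F) (S S' : D), Eqv β σ ι ∧ IsSelfAdjoint S ∧ IsSelfAdjoint S' ∧
        ∀ ρ : D →ₗ[ℂ] ℂ, Tr ρ → ‖ρ (star (ex 1 S * ex 1 S') * (ex 1 S' * ex 1 S))‖ ≤ ε ∧
          ∀ g ∈ K, n2 ρ (β g (ex 1 S) - ex 1 S) ≤ ε ∧ n2 ρ (β g (ex 1 S') - ex 1 S') ≤ ε

end Vale.Agent.P095M
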