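import Vale.Agent.P095M.Work
import Vale.Agent.P095G.WorkR

/-! Working definitions for the relative version. -/

namespace Vale.Agent.P095M

open Vale.Agent.P101 Vale.Agent.P095G TopologicalSpace Finset

variable {D E : Type} [CStarAlgebra D] [CStarAlgebra E]

/-- `a` is a symmetry times the positive contraction `h`. -/
structure Sy (h a : D) : Prop where
  ctr : Ctr h
  dom : Dom h a
  sq : a * a = h * h
  cm : Commute h a

/-- The weighted average. -/
noncomputable def aw {L : ℕ} (P A : Fin L → E) : E := av fun k => P k * A k

/-- The cut down average. -/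
noncomputable def yw (N u : ℕ) {L : ℕ} (P H A : Fin L → E) : E :=
  cfc (rG N u) (aw P H) * aw P A * cfc (rG N u) (aw P H)

/-- The cut down unit. -/
noncomputable def pw (N u : ℕ) {L : ℕ} (P H : Fin L → E) : E := cfc (rg N u) (aw P H)

/-- Positive contractions commuting with `H` and `A`. -/
structure Cw {L : ℕ} (P H A : Fin L → E) : Prop where
  ctr : ∀ k, Ctr (P k)
  sy : ∀ k, Sy (H k) (A k)
  cH : ∀ k l, Commute (P k) (H l)
  cA : ∀ k l, Commute (P k) (A l)

end Vale.Agent.P095M
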